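import Mathlib
import Vale.Agent.P122.Defs
attribute [-instance] ProperSMul.toContinuousSMul IsTopologicalTorsor.toContinuousSMul IdemSemiring.toCanonicallyOrderedAdd IdemSemiring.toMulLeftMono IdemSemiring.toMulRightMono AddQuantale.instAddLeftMono AddQuantale.instAddRightMono Quantale.instMulLeftMono Quantale.instMulRightMono FiniteDimensional.rclike_to_real IsScalarTower.complexToReal FiniteDimensional.complexToReal

set_option linter.all false

section

section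

namespace Vale.Agent.P122

open MeasureTheory

/-- `ee θ = exp (2 π i θ)`. -/
noncomputable def ee (θ : ℝ) : ℂ := Complex.exp (2 * Real.pi * Complex.I * θ)

/-- one dimensional extension operator of the parabola. -/
noncomputable def ext1 (c : ℝ → ℂ) (x t : ℝ) : ℂ := ∫ ξ, c ξ * ee (x * ξ + t * ξ ^ 2)

/-- one dimensional extension of the constant function 1 on the unit interval. -/
noncomputable def Phi (y t : ℝ) : ℂ := ∫ ξ in Set.Icc (0:ℝ) 1, ee (y * ξ + t * ξ ^ 2)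

theorem norm_ee (θ : ℝ) : ‖ee θ‖ = 1 := by
  unfold ee
  rw [show (2 * Real.pi * Complex.I * θ : ℂ) = ((2 * Real.pi * θ : ℝ) : ℂ) * Complex.I by
    push_cast; ring]
  exact Complex.norm_exp_ofReal_mul_I _

theorem enorm_ee (θ : ℝ) : ‖ee θ‖ₑ = 1 := by
  rw [← ofReal_norm, norm_ee, ENNReal.ofReal_one]

theorem ee_add (a b : ℝ) : ee (a + b) = ee a * ee b := by
  unfold ee
  rw [← Complex.exp_add]
  congr 1
  push_cast
  ring

theorem ee_neg (a : ℝ) : ee (-a) = (starRingEnd ℂ) (ee a) := by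
  unfold ee
  rw [← Complex.exp_conj]
  congr 1
  simp only [map_mul, map_ofNat, Complex.conj_ofReal, Complex.conj_I]
  push_cast
  ring

theorem continuous_ee : Continuous ee := by
  unfold ee
  (clear * -; fun_prop)

end Vale.Agent.P122
end
end

section

section

namespace Vale.Agent.P122

open MeasureTheory Set
open scoped ENNReal

local instance : Fact ((0:ℝ) < 1) := ⟨one_pos⟩

theorem fourierCoeffOn_ee (a : ℝ) (f : ℝ → ℂ) (n : ℤ) :
    fourierCoeffOn (lt_add_of_pos_right a (one_pos : (0:ℝ) < 1)) f n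
      = ∫ x in Ioc a (a + 1), f x * ee (-(n * x)) := by
  rw [fourierCoeffOn_eq_integral, intervalIntegral.integral_of_le (by linarith only [])]
  have h1 : (1 : ℝ) / (a + 1 - a) = 1 := by simp only [add_sub_cancel_left, ne_eq, one_ne_zero, not_false_eq_true, div_self]
  rw [h1, one_smul]
  refine setIntegral_congr_fun measurableSet_Ioc fun x _ => ?_
  simp only [smul_eq_mul]
  rw [mul_comm]
  congr 1
  rw [fourier_coe_apply]
  unfold ee
  congr 1
  push_cast
  have : ((a:ℂ) + 1 - a) = 1 := by ring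
  rw [this]
  ring

/-- Parseval on a unit interval. -/
theorem parseval_Ioc (a : ℝ) {f : ℝ → ℂ} (hf : MemLp f 2 (volume.restrict (Ioc a (a + 1)))) :
    HasSum (fun n : ℤ => ‖∫ x in Ioc a (a + 1), f x * ee (-(n * x))‖ ^ 2)
      (∫ x in Ioc a (a + 1), ‖f x‖ ^ 2) := by
  have h := hasSum_sq_fourierCoeffOn (lt_add_of_pos_right a (one_pos : (0:ℝ) < 1)) hf
  simp_rw [fourierCoeffOn_ee] at h
  rw [intervalIntegral.integral_of_le (by (clear * -; linarith))] at h
  have h1 : (a + 1 - a) = (1:ℝ) := by ring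
  rw [h1, inv_one, one_smul] at h
  exact h

theorem fourierCoeff_lift_ee (a : ℝ) (f : ℝ → ℂ) (n : ℤ) :
    fourierCoeff (AddCircle.liftIoc 1 a f) n
      = ∫ x in Ioc a (a + 1), f x * ee (-(n * x)) := by
  rw [fourierCoeff_liftIoc_eq, fourierCoeffOn_ee]

/-- polarized Parseval on a unit interval. -/
theorem parseval_mul (a : ℝ) {f g : ℝ → ℂ} (hf : MemLp f 2 (volume.restrict (Ioc a (a + 1))))
    (hg : MemLp g 2 (volume.restrict (Ioc a (a + 1)))) :
    HasSum (fun n : ℤ => (∫ x in Ioc a (a + 1), f x * ee (-(n * x))) *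
        (∫ x in Ioc a (a + 1), g x * ee (n * x)))
      (∫ x in Ioc a (a + 1), f x * g x) := by
  have hg' : MemLp (fun x => (starRingEnd ℂ) (g x)) 2 (volume.restrict (Ioc a (a + 1))) := hg.star
  have hF := hf.memLp_liftIoc.haarAddCircle
  have hG := hg'.memLp_liftIoc.haarAddCircle
  have key := (fourierBasis (T := (1:ℝ))).hasSum_inner_mul_inner hG.toLp hF.toLp
  have e1 : ∀ n : ℤ, inner ℂ (fourierBasis (T := (1:ℝ)) n) hF.toLp
      = ∫ x in Ioc a (a + 1), f x * ee (-(n * x)) := by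
    intro n
    rw [← HilbertBasis.repr_apply_apply, fourierBasis_repr,
      fourierCoeff_congr_ae hF.coeFn_toLp, fourierCoeff_lift_ee]
  have e2 : ∀ n : ℤ, inner ℂ hG.toLp (fourierBasis (T := (1:ℝ)) n)
      = ∫ x in Ioc a (a + 1), g x * ee (n * x) := by
    intro n
    rw [← inner_conj_symm, ← HilbertBasis.repr_apply_apply, fourierBasis_repr,
      fourierCoeff_congr_ae hG.coeFn_toLp, fourierCoeff_lift_ee, ← integral_conj]
    refine integral_congr_ae (Filter.Eventually.of_forall fun x => ?_)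
    simp only [map_mul, Complex.conj_conj, ee_neg]
  have e3 : inner ℂ hG.toLp hF.toLp = ∫ x in Ioc a (a + 1), f x * g x := by
    rw [MeasureTheory.L2.inner_def]
    have : ∀ᵐ x ∂(AddCircle.haarAddCircle (T := (1:ℝ))),
        inner ℂ ((hG.toLp : Lp ℂ 2 (AddCircle.haarAddCircle (T := (1:ℝ)))) x)
          ((hF.toLp : Lp ℂ 2 (AddCircle.haarAddCircle (T := (1:ℝ)))) x)
        = AddCircle.liftIoc 1 a (fun x => f x * g x) x := by
      filter_upwards [hF.coeFn_toLp, hG.coeFn_toLp] with x h1 h2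
      rw [h1, h2]
      simp only [AddCircle.liftIoc, Function.comp_apply, domRestrict_apply, RCLike.inner_apply, RingHomCompTriple.comp_apply, RingHom.id_apply]
    rw [integral_congr_ae this, AddCircle.integral_haarAddCircle,
      AddCircle.integral_liftIoc_eq_intervalIntegral, intervalIntegral.integral_of_le (by linarith)]
    simp only [inv_one, one_smul]
  simp_rw [e1, e2, e3] at key
  have e4 : (fun n : ℤ => (∫ x in Ioc a (a + 1), f x * ee (-(n * x))) *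
        (∫ x in Ioc a (a + 1), g x * ee (n * x)))
      = fun n : ℤ => (∫ x in Ioc a (a + 1), g x * ee (n * x)) *
        (∫ x in Ioc a (a + 1), f x * ee (-(n * x))) := by
    ext n
    ring
  rw [e4]
  exact key

/-- Bessel's inequality on a unit interval, `ENNReal` version. -/
theorem bessel (a : ℝ) {f : ℝ → ℂ} (hf : AEStronglyMeasurable f (volume.restrict (Ioc a (a + 1))))
    (B : Finset ℤ) :
    ∑ k ∈ B, ‖∫ x in Ioc a (a + 1), f x * ee (-(k * x))‖ₑ ^ 2
      ≤ ∫⁻ x in Ioc a (a + 1), ‖f x‖ₑ ^ 2 := by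
  by_cases hfin : ∫⁻ x in Ioc a (a + 1), ‖f x‖ₑ ^ 2 = ∞
  · rw [hfin]; exact le_top
  have hmem : MemLp f 2 (volume.restrict (Ioc a (a + 1))) := by
    refine ⟨hf, ?_⟩
    rw [eLpNorm_lt_top_iff_lintegral_rpow_enorm_lt_top (by norm_num) (by norm_num)]
    have : (2 : ℝ≥0∞).toReal = ((2 : ℕ) : ℝ) := by norm_num
    simp_rw [this, ENNReal.rpow_natCast]
    exact lt_of_le_of_ne le_top hfin
  have hsum := parseval_Ioc a hmem
  have h1 := sum_le_hasSum B (fun i _ => by (clear * -; positivity)) hsum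
  have h2 : ∑ k ∈ B, ‖∫ x in Ioc a (a + 1), f x * ee (-(k * x))‖ₑ ^ 2
      = ENNReal.ofReal (∑ k ∈ B, ‖∫ x in Ioc a (a + 1), f x * ee (-(k * x))‖ ^ 2) := by
    rw [ENNReal.ofReal_sum_of_nonneg (fun i _ => by (clear * -; positivity))]
    refine Finset.sum_congr rfl fun k _ => ?_
    rw [ENNReal.ofReal_pow (norm_nonneg _), ofReal_norm]
  rw [h2]
  refine (ENNReal.ofReal_le_ofReal h1).trans ?_
  rw [ofReal_integral_eq_lintegral_ofReal]
  · refine lintegral_mono fun x => ?_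
    rw [ENNReal.ofReal_pow (norm_nonneg _), ofReal_norm]
  · exact (memLp_two_iff_integrable_sq_norm hf).1 hmem
  · exact Filter.Eventually.of_forall fun x => by (clear * -; positivity)

theorem bessel' (a : ℝ) {f : ℝ → ℂ} (hf : AEStronglyMeasurable f (volume.restrict (Ioc a (a + 1))))
    (B : Finset ℤ) :
    ∑ k ∈ B, ‖∫ x in Ioc a (a + 1), f x * ee (k * x)‖ₑ ^ 2
      ≤ ∫⁻ x in Ioc a (a + 1), ‖f x‖ₑ ^ 2 := by
  have h := bessel a (f := fun x => (starRingEnd ℂ) (f x)) (by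
    exact (Complex.continuous_conj.comp_aestronglyMeasurable hf)) B
  have e : ∀ k : ℤ, ‖∫ x in Ioc a (a + 1), f x * ee (k * x)‖ₑ
      = ‖∫ x in Ioc a (a + 1), (starRingEnd ℂ) (f x) * ee (-(k * x))‖ₑ := by
    intro k
    have : ∫ x in Ioc a (a + 1), (starRingEnd ℂ) (f x) * ee (-(k * x))
        = (starRingEnd ℂ) (∫ x in Ioc a (a + 1), f x * ee (k * x)) := by
      rw [← integral_conj]
      refine integral_congr_ae (Filter.Eventually.of_forall fun x => ?_)
      simp only [map_mul, ee_neg]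
    rw [this, RCLike.enorm_conj]
  simp_rw [e]
  refine h.trans (lintegral_mono fun x => ?_)
  rw [RCLike.enorm_conj]

end Vale.Agent.P122
end
end

section

section

namespace Vale.Agent.P122

open MeasureTheory Set
open scoped ENNReal

/-- Fourier coefficients on the unit interval -/
noncomputable def fc (g : ℝ → ℂ) (k : ℤ) : ℂ := ∫ x in Ioc (0:ℝ) 1, g x * ee (-(k * x))

/-- Gagliardo seminorm squared on the line -/
noncomputable def gag (s : ℝ) (g : ℝ → ℂ) : ℝ≥0∞ :=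
  ∫⁻ x, ∫⁻ y, ‖g x - g y‖ₑ ^ 2 / ENNReal.ofReal (|x - y| ^ (1 + 2 * s))

theorem enorm_add_sq_le (a b : ℂ) : ‖a + b‖ₑ ^ 2 ≤ 2 * (‖a‖ₑ ^ 2 + ‖b‖ₑ ^ 2) := by
  have h : ‖a + b‖ ^ 2 ≤ 2 * (‖a‖ ^ 2 + ‖b‖ ^ 2) := by
    have h1 := norm_add_le a b
    have h2 : ‖a + b‖ ^ 2 ≤ (‖a‖ + ‖b‖) ^ 2 := by
      apply pow_le_pow_left₀ (norm_nonneg _) h1
    nlinarith [sq_nonneg (‖a‖ - ‖b‖)]
  rw [← ofReal_norm, ← ofReal_norm, ← ofReal_norm, ← ENNReal.ofReal_pow (norm_nonneg _),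
    ← ENNReal.ofReal_pow (norm_nonneg _), ← ENNReal.ofReal_pow (norm_nonneg _),
    ← ENNReal.ofReal_add (by positivity) (by positivity),
    show (2:ℝ≥0∞) = ENNReal.ofReal 2 by norm_num, ← ENNReal.ofReal_mul (by norm_num)]
  exact ENNReal.ofReal_le_ofReal h

theorem diff_bound {g : ℝ → ℂ} (hg : Measurable g) (hs : ∀ x, x ∉ Ioc (0:ℝ) 1 → g x = 0)
    {h : ℝ} (h0 : 0 ≤ h) (h1 : h ≤ 1) (B : Finset ℤ) :
    ∑ k ∈ B, ‖ee (k * h) - 1‖ₑ ^ 2 * ‖fc g k‖ₑ ^ 2
      ≤ 2 * ∫⁻ x, ‖g (x + h) - g x‖ₑ ^ 2 := by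
  by_cases hint : Integrable g
  swap
  · have : ∀ k : ℤ, fc g k = 0 := by
      intro k
      unfold fc
      apply integral_undef
      intro hc
      apply hint
      have h2 : IntegrableOn g (Ioc (0:ℝ) 1) := by
        have := hc.norm
        refine (integrable_norm_iff (hg.aestronglyMeasurable)).1 ?_
        refine this.congr (Filter.Eventually.of_forall fun x => ?_)
        simp [norm_ee]
      rw [← integrableOn_univ]
      have h3 : IntegrableOn g (Ioc (0:ℝ) 1)ᶜ := by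
        refine (integrableOn_congr_fun (g := fun _ => (0:ℂ)) ?_ measurableSet_Ioc.compl).2 ?_
        · intro x hx
          exact hs x hx
        · exact integrableOn_zero
      have := h2.union h3
      rwa [union_compl_self] at this
    simp only [this, enorm_zero, ne_eq, OfNat.ofNat_ne_zero, not_false_eq_true, zero_pow, mul_zero, Finset.sum_const_zero, zero_le]
  set D : ℝ → ℂ := fun x => g (x + h) - g x with hD
  have hDm : Measurable D := (hg.comp (measurable_id.add_const h)).sub hg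
  have hfull : ∀ k : ℤ, fc g k = ∫ x, g x * ee (-(k * x)) := by
    intro k
    unfold fc
    rw [← integral_indicator measurableSet_Ioc]
    refine integral_congr_ae (Filter.Eventually.of_forall fun x => ?_)
    by_cases hx : x ∈ Ioc (0:ℝ) 1
    · simp only [hx, indicator_of_mem]
    · simp only [hx, not_false_eq_true, indicator_of_notMem, hs x hx, zero_mul]
  have hgi : ∀ k : ℤ, Integrable (fun x => g x * ee (-(k * x))) := by
    intro k
    refine hint.mul_bdd (c := 1) ?_ ?_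
    · exact (continuous_ee.comp (by fun_prop)).aestronglyMeasurable
    · exact Filter.Eventually.of_forall fun x => (norm_ee _).le
  have hshift : ∀ k : ℤ, ∫ x, g (x + h) * ee (-(k * x)) = ee (k * h) * fc g k := by
    intro k
    rw [hfull k, ← integral_const_mul]
    rw [← integral_add_right_eq_self (μ := volume) (fun x => ee (k * h) * (g x * ee (-(k * x)))) h]
    refine integral_congr_ae (Filter.Eventually.of_forall fun x => ?_)
    have : ee (-(k * x)) = ee (k * h) * ee (-(k * (x + h))) := by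
      rw [← ee_add]; congr 1; ring
    simp only [this]
    ring
  have hshifti : ∀ k : ℤ, Integrable (fun x => g (x + h) * ee (-(k * x))) := by
    intro k
    refine (hint.comp_add_right h).mul_bdd (c := 1) ?_ ?_
    · exact (continuous_ee.comp (by fun_prop)).aestronglyMeasurable
    · exact Filter.Eventually.of_forall fun x => (norm_ee _).le
  have hDfull : ∀ k : ℤ, (ee (k * h) - 1) * fc g k = ∫ x, D x * ee (-(k * x)) := by
    intro k
    have : ∀ x, D x * ee (-(k * x)) = g (x + h) * ee (-(k * x)) - g x * ee (-(k * x)) := by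
      intro x; simp only [hD]; ring
    simp_rw [this]
    rw [integral_sub (hshifti k) (hgi k), hshift, ← hfull]
    ring
  have hDi : ∀ k : ℤ, Integrable (fun x => D x * ee (-(k * x))) := by
    intro k
    have : ∀ x, D x * ee (-(k * x)) = g (x + h) * ee (-(k * x)) - g x * ee (-(k * x)) := by
      intro x; simp only [hD]; ring
    simp_rw [this]
    exact (hshifti k).sub (hgi k)
  have hsplit : ∀ k : ℤ, ∫ x, D x * ee (-(k * x))
      = (∫ x in Ioc (-1:ℝ) (-1 + 1), D x * ee (-(k * x)))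
        + ∫ x in Ioc (0:ℝ) (0 + 1), D x * ee (-(k * x)) := by
    intro k
    have hu : Ioc (-1:ℝ) (-1+1) ∪ Ioc (0:ℝ) (0+1) = Ioc (-1:ℝ) 1 := by
      have : (-1:ℝ) + 1 = 0 := by ring
      rw [this, zero_add]
      exact Ioc_union_Ioc_eq_Ioc (by norm_num) (by norm_num)
    rw [← setIntegral_union _ measurableSet_Ioc (hDi k).integrableOn (hDi k).integrableOn, hu]
    · rw [← integral_indicator measurableSet_Ioc]
      refine integral_congr_ae (Filter.Eventually.of_forall fun x => ?_)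
      by_cases hx : x ∈ Ioc (-1:ℝ) 1
      · simp only [hx, indicator_of_mem]
      · have a1 : g (x + h) = 0 := by
          apply hs
          intro hc
          apply hx
          rw [mem_Ioc] at hc ⊢
          constructor <;> linarith only [h0, hc, h1]
        have a2 : g x = 0 := by
          apply hs
          intro hc
          apply hx
          rw [mem_Ioc] at hc ⊢
          constructor <;> linarith only [hc]
        simp only [indicator, hx, if_false, hD, a1, a2]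
        simp
    · rw [disjoint_left]
      intro x hx hx'
      rw [mem_Ioc] at hx hx'
      linarith only [hx, hx']
  have step : ∀ k : ℤ, ‖ee (k * h) - 1‖ₑ ^ 2 * ‖fc g k‖ₑ ^ 2
      ≤ 2 * (‖∫ x in Ioc (-1:ℝ) (-1 + 1), D x * ee (-(k * x))‖ₑ ^ 2
        + ‖∫ x in Ioc (0:ℝ) (0 + 1), D x * ee (-(k * x))‖ₑ ^ 2) := by
    intro k
    rw [← mul_pow, ← enorm_mul, hDfull, hsplit]
    exact enorm_add_sq_le _ _
  calc ∑ k ∈ B, ‖ee (k * h) - 1‖ₑ ^ 2 * ‖fc g k‖ₑ ^ 2
      ≤ ∑ k ∈ B, 2 * (‖∫ x in Ioc (-1:ℝ) (-1 + 1), D x * ee (-(k * x))‖ₑ ^ 2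
        + ‖∫ x in Ioc (0:ℝ) (0 + 1), D x * ee (-(k * x))‖ₑ ^ 2) :=
        Finset.sum_le_sum fun k _ => step k
    _ = 2 * (∑ k ∈ B, ‖∫ x in Ioc (-1:ℝ) (-1 + 1), D x * ee (-(k * x))‖ₑ ^ 2
        + ∑ k ∈ B, ‖∫ x in Ioc (0:ℝ) (0 + 1), D x * ee (-(k * x))‖ₑ ^ 2) := by
        rw [← Finset.mul_sum, Finset.sum_add_distrib]
    _ ≤ 2 * ((∫⁻ x in Ioc (-1:ℝ) (-1 + 1), ‖D x‖ₑ ^ 2) + ∫⁻ x in Ioc (0:ℝ) (0 + 1), ‖D x‖ₑ ^ 2) := by
        gcongr
        · exact bessel (-1) hDm.aestronglyMeasurable B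
        · exact bessel 0 hDm.aestronglyMeasurable B
    _ ≤ 2 * ∫⁻ x, ‖D x‖ₑ ^ 2 := by
        gcongr
        rw [← lintegral_union measurableSet_Ioc]
        · exact setLIntegral_le_lintegral _ _
        · rw [disjoint_left]
          intro x hx hx'
          rw [mem_Ioc] at hx hx'
          linarith only [hx, hx']

end Vale.Agent.P122
end
end

section

section

namespace Vale.Agent.P122

open MeasureTheory Set
open scoped ENNReal

theorem gag_eq {s : ℝ} {g : ℝ → ℂ} (hg : Measurable g) :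
    gag s g = ∫⁻ h : ℝ, (ENNReal.ofReal (|h| ^ (1 + 2 * s)))⁻¹ * ∫⁻ x, ‖g (x + h) - g x‖ₑ ^ 2 := by
  unfold gag
  have hm : Measurable fun p : ℝ × ℝ =>
      ‖g p.1 - g p.2‖ₑ ^ 2 / ENNReal.ofReal (|p.1 - p.2| ^ (1 + 2 * s)) := by
    have h1 : Measurable fun p : ℝ × ℝ => ‖g p.1 - g p.2‖ₑ ^ 2 :=
      (((hg.comp measurable_fst).sub (hg.comp measurable_snd)).enorm).pow_const 2
    have h2 : Measurable fun p : ℝ × ℝ => ENNReal.ofReal (|p.1 - p.2| ^ (1 + 2 * s)) := by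
      apply ENNReal.measurable_ofReal.comp
      apply Measurable.pow_const
      exact (continuous_fst.sub continuous_snd).abs.measurable
    exact h1.div h2
  rw [lintegral_lintegral_swap hm.aemeasurable]
  have e1 : ∀ y : ℝ, ∫⁻ x, ‖g x - g y‖ₑ ^ 2 / ENNReal.ofReal (|x - y| ^ (1 + 2 * s))
      = ∫⁻ h, ‖g (y + h) - g y‖ₑ ^ 2 / ENNReal.ofReal (|h| ^ (1 + 2 * s)) := by
    intro y
    rw [← lintegral_add_left_eq_self _ y]
    refine lintegral_congr fun h => ?_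
    have : y + h - y = h := by ring
    rw [this]
  simp_rw [e1]
  have hm2 : Measurable fun p : ℝ × ℝ =>
      ‖g (p.1 + p.2) - g p.1‖ₑ ^ 2 / ENNReal.ofReal (|p.2| ^ (1 + 2 * s)) := by
    have h1 : Measurable fun p : ℝ × ℝ => ‖g (p.1 + p.2) - g p.1‖ₑ ^ 2 :=
      (((hg.comp (measurable_fst.add measurable_snd)).sub (hg.comp measurable_fst)).enorm).pow_const 2
    have h2 : Measurable fun p : ℝ × ℝ => ENNReal.ofReal (|p.2| ^ (1 + 2 * s)) := by
      apply ENNReal.measurable_ofReal.comp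
      apply Measurable.pow_const
      exact (continuous_snd).abs.measurable
    exact h1.div h2
  rw [lintegral_lintegral_swap hm2.aemeasurable]
  refine lintegral_congr fun h => ?_
  rw [← lintegral_const_mul]
  · refine lintegral_congr fun x => ?_
    rw [ENNReal.div_eq_inv_mul]
  · exact (((hg.comp (measurable_id.add_const h)).sub hg).enorm).pow_const 2

theorem enorm_ee_sub_one {θ : ℝ} (h1 : 1 / 4 ≤ |θ|) (h2 : |θ| ≤ 1 / 2) :
    2 ≤ ‖ee θ - 1‖ₑ ^ 2 := by
  have hn : ‖ee θ - 1‖ ^ 2 = 2 - 2 * Real.cos (2 * Real.pi * θ) := by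
    have he : ee θ = ⟨Real.cos (2 * Real.pi * θ), Real.sin (2 * Real.pi * θ)⟩ := by
      unfold ee
      rw [show (2 * Real.pi * Complex.I * θ : ℂ) = ((2 * Real.pi * θ : ℝ) : ℂ) * Complex.I by
        push_cast; ring]
      apply Complex.ext
      · rw [Complex.exp_ofReal_mul_I_re]
      · rw [Complex.exp_ofReal_mul_I_im]
    rw [Complex.sq_norm, Complex.normSq_apply, he]
    simp only [Complex.sub_re, Complex.one_re, Complex.sub_im, Complex.one_im]
    have := Real.sin_sq_add_cos_sq (2 * Real.pi * θ)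
    linarith
  have hc : Real.cos (2 * Real.pi * θ) ≤ 0 := by
    rw [← Real.cos_abs]
    have hpi := Real.pi_pos
    have : |2 * Real.pi * θ| = 2 * Real.pi * |θ| := by
      rw [abs_mul, abs_of_pos (by positivity)]
    rw [this]
    apply Real.cos_nonpos_of_pi_div_two_le_of_le
    · nlinarith only [h1, hpi]
    · nlinarith only [hpi, h2]
  rw [← ofReal_norm, ← ENNReal.ofReal_pow (norm_nonneg _), hn,
    show (2:ℝ≥0∞) = ENNReal.ofReal 2 by norm_num]
  exact ENNReal.ofReal_le_ofReal (by linarith only [hc])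

theorem weight_bound {s : ℝ} (hs : 0 ≤ s) {k : ℤ} (hk : k ≠ 0) :
    ENNReal.ofReal (|(k:ℝ)| ^ (2 * s)) ≤ ∫⁻ h in Ioc (0:ℝ) 1,
      (ENNReal.ofReal (|h| ^ (1 + 2 * s)))⁻¹ * ‖ee (k * h) - 1‖ₑ ^ 2 := by
  set a : ℝ := |(k:ℝ)| with ha
  have ha1 : 1 ≤ a := by
    have : (1:ℤ) ≤ |k| := Int.one_le_abs hk
    have h2 : ((1:ℤ):ℝ) ≤ ((|k| : ℤ) : ℝ) := by exact_mod_cast this
    simpa only [ha, ge_iff_le, Int.cast_one, Int.cast_abs] using h2
  have ha0 : 0 < a := by linarith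
  have hsub : Icc (1 / (4 * a)) (1 / (2 * a)) ⊆ Ioc (0:ℝ) 1 := by
    intro h hh
    constructor
    · exact lt_of_lt_of_le (by positivity) hh.1
    · refine hh.2.trans ?_
      rw [div_le_one (by positivity)]
      linarith only [ha1]
  refine le_trans ?_ (lintegral_mono_set hsub)
  have hlow : ∀ h ∈ Icc (1 / (4 * a)) (1 / (2 * a)),
      (ENNReal.ofReal ((1 / (2 * a)) ^ (1 + 2 * s)))⁻¹ * 2
        ≤ (ENNReal.ofReal (|h| ^ (1 + 2 * s)))⁻¹ * ‖ee (k * h) - 1‖ₑ ^ 2 := by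
    intro h hh
    have hpos : 0 < h := lt_of_lt_of_le (by positivity) hh.1
    apply mul_le_mul'
    · apply ENNReal.inv_le_inv.2
      apply ENNReal.ofReal_le_ofReal
      rw [abs_of_pos hpos]
      exact Real.rpow_le_rpow hpos.le hh.2 (by linarith only [hs])
    · apply enorm_ee_sub_one
      · rw [abs_mul, abs_of_pos hpos, ← ha]
        calc (1:ℝ)/4 = a * (1 / (4 * a)) := by (clear * - ha1; field_simp)
          _ ≤ a * h := by gcongr; exact hh.1
      · rw [abs_mul, abs_of_pos hpos, ← ha]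
        calc a * h ≤ a * (1 / (2 * a)) := by gcongr; exact hh.2
          _ = 1/2 := by field_simp
  refine le_trans ?_ (setLIntegral_mono' measurableSet_Icc hlow)
  rw [setLIntegral_const, Real.volume_Icc]
  have hpos2 : 0 < (1 / (2 * a)) ^ (1 + 2 * s) := by positivity
  rw [← ENNReal.ofReal_inv_of_pos hpos2, show (2:ℝ≥0∞) = ENNReal.ofReal 2 by norm_num,
    ← ENNReal.ofReal_mul (by positivity), ← ENNReal.ofReal_mul (by positivity)]
  apply ENNReal.ofReal_le_ofReal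
  have e : ((1 / (2 * a)) ^ (1 + 2 * s))⁻¹ = (2 * a) * (2 * a) ^ (2 * s) := by
    rw [one_div, Real.inv_rpow (by positivity), inv_inv, Real.rpow_add (by positivity), Real.rpow_one]
  rw [e]
  have e2 : (2 * a) * (2 * a) ^ (2 * s) * 2 * (1 / (2 * a) - 1 / (4 * a)) = (2 * a) ^ (2 * s) := by
    field_simp
    ring
  rw [e2]
  exact Real.rpow_le_rpow ha0.le (by linarith only [ha1]) (by linarith only [hs])

/-- Fourier coefficients are controlled by the Gagliardo seminorm. -/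
theorem sum_fc_le {s : ℝ} (hs : 0 ≤ s) {g : ℝ → ℂ} (hg : Measurable g)
    (hsupp : ∀ x, x ∉ Ioc (0:ℝ) 1 → g x = 0) (B : Finset ℤ) (hB : ∀ k ∈ B, k ≠ 0) :
    ∑ k ∈ B, ENNReal.ofReal (|(k:ℝ)| ^ (2 * s)) * ‖fc g k‖ₑ ^ 2 ≤ 2 * gag s g := by
  have hm : ∀ k : ℤ, Measurable fun h : ℝ =>
      (ENNReal.ofReal (|h| ^ (1 + 2 * s)))⁻¹ * ‖ee (k * h) - 1‖ₑ ^ 2 := by
    intro k
    apply Measurable.mul
    · apply Measurable.inv
      apply ENNReal.measurable_ofReal.comp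
      apply Measurable.pow_const
      exact continuous_abs.measurable
    · apply Measurable.pow_const
      apply Measurable.enorm
      apply Measurable.sub_const
      exact continuous_ee.measurable.comp (by fun_prop)
  calc ∑ k ∈ B, ENNReal.ofReal (|(k:ℝ)| ^ (2 * s)) * ‖fc g k‖ₑ ^ 2
      ≤ ∑ k ∈ B, (∫⁻ h in Ioc (0:ℝ) 1,
        (ENNReal.ofReal (|h| ^ (1 + 2 * s)))⁻¹ * ‖ee (k * h) - 1‖ₑ ^ 2) * ‖fc g k‖ₑ ^ 2 := by
        apply Finset.sum_le_sum
        intro k hk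
        gcongr
        exact weight_bound hs (hB k hk)
    _ = ∑ k ∈ B, (∫⁻ h in Ioc (0:ℝ) 1,
        ((ENNReal.ofReal (|h| ^ (1 + 2 * s)))⁻¹ * ‖ee (k * h) - 1‖ₑ ^ 2) * ‖fc g k‖ₑ ^ 2) := by
        apply Finset.sum_congr rfl
        intro k _
        rw [lintegral_mul_const _ (hm k)]
    _ = ∫⁻ h in Ioc (0:ℝ) 1, ∑ k ∈ B,
        ((ENNReal.ofReal (|h| ^ (1 + 2 * s)))⁻¹ * ‖ee (k * h) - 1‖ₑ ^ 2) * ‖fc g k‖ₑ ^ 2 := by
        rw [lintegral_finsetSum]
        intro k _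
        exact (hm k).mul_const _
    _ ≤ ∫⁻ h in Ioc (0:ℝ) 1, (ENNReal.ofReal (|h| ^ (1 + 2 * s)))⁻¹ *
          (2 * ∫⁻ x, ‖g (x + h) - g x‖ₑ ^ 2) := by
        apply setLIntegral_mono' measurableSet_Ioc
        intro h hh
        have := diff_bound hg hsupp hh.1.le hh.2 B
        calc ∑ k ∈ B, ((ENNReal.ofReal (|h| ^ (1 + 2 * s)))⁻¹ * ‖ee (k * h) - 1‖ₑ ^ 2) * ‖fc g k‖ₑ ^ 2
            = (ENNReal.ofReal (|h| ^ (1 + 2 * s)))⁻¹ *
              ∑ k ∈ B, ‖ee (k * h) - 1‖ₑ ^ 2 * ‖fc g k‖ₑ ^ 2 := by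
              rw [Finset.mul_sum]
              apply Finset.sum_congr rfl
              intro k _
              ring
          _ ≤ _ := by (clear * - this; gcongr)
    _ ≤ ∫⁻ h, (ENNReal.ofReal (|h| ^ (1 + 2 * s)))⁻¹ *
          (2 * ∫⁻ x, ‖g (x + h) - g x‖ₑ ^ 2) := setLIntegral_le_lintegral _ _
    _ = 2 * gag s g := by
        rw [gag_eq hg, ← lintegral_const_mul']
        · refine lintegral_congr fun h => ?_
          ring
        · norm_num

end Vale.Agent.P122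
end
end

section

section

namespace Vale.Agent.P122

open MeasureTheory Set
open scoped ENNReal

attribute [local irreducible] ext1 Phi

/-- finite partial sums of the extension operator -/
noncomputable def uB (B : Finset ℤ) (c : ℤ → ℝ → ℂ) (x : ℝ × ℝ × ℝ) : ℂ :=
  ∑ k ∈ B, ext1 (c k) x.1 x.2.2 * Phi (x.2.1 + k) x.2.2

theorem sm_ext1 {c : ℝ → ℂ} (hc : Measurable c) :
    StronglyMeasurable fun p : ℝ × ℝ => ext1 c p.1 p.2 := by
  unfold ext1
  have : StronglyMeasurable fun q : (ℝ × ℝ) × ℝ => c q.2 * ee (q.1.1 * q.2 + q.1.2 * q.2 ^ 2) := by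
    apply Measurable.stronglyMeasurable
    apply Measurable.mul
    · exact hc.comp measurable_snd
    · exact continuous_ee.measurable.comp (by fun_prop)
  exact this.integral_prod_right

theorem sm_Phi : StronglyMeasurable fun p : ℝ × ℝ => Phi p.1 p.2 := by
  unfold Phi
  have : StronglyMeasurable fun q : (ℝ × ℝ) × ℝ => ee (q.1.1 * q.2 + q.1.2 * q.2 ^ 2) := by
    apply Measurable.stronglyMeasurable
    exact continuous_ee.measurable.comp (by fun_prop)
  exact this.integral_prod_right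

theorem measurable_term {c : ℝ → ℂ} (hc : Measurable c) (k : ℤ) :
    Measurable fun x : ℝ × ℝ × ℝ => ext1 c x.1 x.2.2 * Phi (x.2.1 + k) x.2.2 := by
  have m1 : Measurable fun x : ℝ × ℝ × ℝ => (x.1, x.2.2) := by fun_prop
  have m2 : Measurable fun x : ℝ × ℝ × ℝ => (x.2.1 + (k:ℝ), x.2.2) := by fun_prop
  have h1 : Measurable fun x : ℝ × ℝ × ℝ => ext1 c x.1 x.2.2 :=
    (sm_ext1 hc).measurable.comp m1
  have h2 : Measurable fun x : ℝ × ℝ × ℝ => Phi (x.2.1 + k) x.2.2 :=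
    sm_Phi.measurable.comp m2
  exact h1.mul h2

theorem measurable_uB {B : Finset ℤ} {c : ℤ → ℝ → ℂ} (hc : ∀ k ∈ B, Measurable (c k)) :
    Measurable (uB B c) := by
  exact Finset.measurable_fun_sum B fun k hk => measurable_term (hc k hk) k

theorem Phi_eq (y t : ℝ) (k : ℤ) :
    Phi (y + k) t = ∫ ξ in Ioc (0:ℝ) (0 + 1), ee (y * ξ + t * ξ ^ 2) * ee (k * ξ) := by
  unfold Phi
  rw [integral_Icc_eq_integral_Ioc, zero_add]
  refine integral_congr_ae (Filter.Eventually.of_forall fun x => ?_)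
  simp only
  rw [← ee_add]
  congr 1
  ring

theorem sum_Phi_le (y t : ℝ) (B : Finset ℤ) : ∑ k ∈ B, ‖Phi (y + k) t‖ₑ ^ 2 ≤ 1 := by
  have h := bessel' 0 (f := fun ξ => ee (y * ξ + t * ξ ^ 2)) (by
    exact (continuous_ee.comp (by (clear * -; fun_prop))).aestronglyMeasurable) B
  simp_rw [Phi_eq]
  refine h.trans ?_
  simp only [zero_add, enorm_ee, one_pow, lintegral_const, MeasurableSet.univ, Measure.restrict_apply, univ_inter, Real.volume_Ioc, sub_zero, ENNReal.ofReal_one, mul_one, Std.le_refl]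

/-- Cauchy-Schwarz for finite sums. -/
theorem enorm_sum_mul_le (B : Finset ℤ) (a b : ℤ → ℂ) :
    ‖∑ k ∈ B, a k * b k‖ₑ ≤ (∑ k ∈ B, ‖a k‖ₑ ^ 2) ^ (1/2 : ℝ) * (∑ k ∈ B, ‖b k‖ₑ ^ 2) ^ (1/2 : ℝ) := by
  refine (enorm_sum_le _ _).trans ?_
  simp_rw [enorm_mul]
  have := ENNReal.inner_le_Lp_mul_Lq B (fun k => ‖a k‖ₑ) (fun k => ‖b k‖ₑ)
    (Real.HolderConjugate.two_two)
  simpa only [one_div, ge_iff_le, ENNReal.rpow_ofNat] using this

theorem uB_eq_integral {B : Finset ℤ} {c : ℤ → ℝ → ℂ} (hc : ∀ k ∈ B, Integrable (c k))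
    (x : ℝ × ℝ × ℝ) :
    uB B c x = ∫ ξ, (∑ k ∈ B, c k ξ * Phi (x.2.1 + k) x.2.2) * ee (x.1 * ξ + x.2.2 * ξ ^ 2) := by
  unfold uB ext1
  simp_rw [Finset.sum_mul]
  rw [integral_finsetSum]
  · apply Finset.sum_congr rfl
    intro k _
    rw [← integral_mul_const]
    refine integral_congr_ae (Filter.Eventually.of_forall fun ξ => ?_)
    simp only
    ring
  · intro k hk
    refine ((hc k hk).mul_const _).mul_bdd (c := 1) ?_ ?_
    · exact (continuous_ee.comp (by fun_prop)).aestronglyMeasurable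
    · exact Filter.Eventually.of_forall fun x => (norm_ee _).le

theorem enorm_uB_le {B : Finset ℤ} {c : ℤ → ℝ → ℂ} (hc : ∀ k ∈ B, Integrable (c k))
    (x : ℝ × ℝ × ℝ) : ‖uB B c x‖ₑ ≤ ∫⁻ ξ, (∑ k ∈ B, ‖c k ξ‖ₑ ^ 2) ^ (1/2 : ℝ) := by
  rw [uB_eq_integral hc]
  refine (enorm_integral_le_lintegral_enorm _).trans (lintegral_mono fun ξ => ?_)
  rw [enorm_mul, enorm_ee, mul_one]
  refine (enorm_sum_mul_le B _ _).trans ?_
  calc (∑ k ∈ B, ‖c k ξ‖ₑ ^ 2) ^ (1/2 : ℝ) * (∑ k ∈ B, ‖Phi (x.2.1 + k) x.2.2‖ₑ ^ 2) ^ (1/2 : ℝ)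
      ≤ (∑ k ∈ B, ‖c k ξ‖ₑ ^ 2) ^ (1/2 : ℝ) * 1 ^ (1/2 : ℝ) := by
        gcongr
        exact sum_Phi_le _ _ _
    _ = _ := by simp

end Vale.Agent.P122
end
end

section

section

namespace Vale.Agent.P122

open MeasureTheory Set
open scoped ENNReal NNReal

attribute [local irreducible] ext1 Phi

/-- The block estimate, as a predicate. -/
def BlockHyp (p : ℝ) (C : ℝ≥0) : Prop :=
  ∀ (B : Finset ℤ) (c : ℤ → ℝ → ℂ) (A : Set ℝ) (L : ℝ≥0), MeasurableSet A → A ⊆ Icc 0 1 →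
    (∀ k ∈ B, Measurable (c k)) → (∀ k ∈ B, ∀ ξ ∉ A, c k ξ = 0) →
    (∀ ξ, ∑ k ∈ B, ‖c k ξ‖ₑ ^ 2 ≤ (L : ℝ≥0∞) ^ 2) →
    ∫⁻ x : ℝ × ℝ × ℝ, ‖uB B c x‖ₑ ^ p
      ≤ C * (B.card : ℝ≥0∞) ^ ((p - 2) / 2) * (L : ℝ≥0∞) ^ p * volume A

theorem integrable_of_bdd {c : ℝ → ℂ} (hc : Measurable c) {A : Set ℝ} (hA : MeasurableSet A)
    (hA1 : A ⊆ Icc 0 1) (h0 : ∀ ξ ∉ A, c ξ = 0) {L : ℝ≥0} (hL : ∀ ξ, ‖c ξ‖ₑ ≤ L) :
    Integrable c := by
  have h1 : IntegrableOn c A := by
    refine Measure.integrableOn_of_bounded (M := L) ?_ hc.aestronglyMeasurable ?_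
    · refine ne_of_lt (lt_of_le_of_lt (measure_mono hA1) ?_)
      simp only [Real.volume_Icc, sub_zero, ENNReal.ofReal_one, ENNReal.one_lt_top]
    · refine Filter.Eventually.of_forall fun x => ?_
      have := hL x
      rw [← ofReal_norm] at this
      exact (ENNReal.ofReal_le_coe).1 this
  have h2 : c = A.indicator c := by
    ext ξ
    by_cases h : ξ ∈ A
    · simp [h]
    · simp [h, h0 ξ h]
  rw [h2]
  exact h1.integrable_indicator hA

theorem enorm_le_of_sum {B : Finset ℤ} {c : ℤ → ℝ → ℂ} {L : ℝ≥0} {ξ : ℝ}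
    (h : ∑ k ∈ B, ‖c k ξ‖ₑ ^ 2 ≤ (L : ℝ≥0∞) ^ 2) {k : ℤ} (hk : k ∈ B) : ‖c k ξ‖ₑ ≤ L := by
  have h1 : ‖c k ξ‖ₑ ^ 2 ≤ (L : ℝ≥0∞) ^ 2 :=
    (Finset.single_le_sum (f := fun k => ‖c k ξ‖ₑ ^ 2) (fun _ _ => zero_le) hk).trans h
  exact (ENNReal.pow_le_pow_left_iff (by norm_num)).1 h1

theorem sup_bound {B : Finset ℤ} {c : ℤ → ℝ → ℂ} {A : Set ℝ} {L : ℝ≥0} (hA : MeasurableSet A)
    (hA1 : A ⊆ Icc 0 1) (hc : ∀ k ∈ B, Measurable (c k)) (h0 : ∀ k ∈ B, ∀ ξ ∉ A, c k ξ = 0)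
    (hL : ∀ ξ, ∑ k ∈ B, ‖c k ξ‖ₑ ^ 2 ≤ (L : ℝ≥0∞) ^ 2) (x : ℝ × ℝ × ℝ) :
    ‖uB B c x‖ₑ ≤ L * volume A := by
  refine (enorm_uB_le (fun k hk => integrable_of_bdd (hc k hk) hA hA1 (h0 k hk)
    (fun ξ => enorm_le_of_sum (hL ξ) hk)) x).trans ?_
  calc ∫⁻ ξ, (∑ k ∈ B, ‖c k ξ‖ₑ ^ 2) ^ (1/2 : ℝ) ≤ ∫⁻ ξ, A.indicator (fun _ => (L : ℝ≥0∞)) ξ := by
        refine lintegral_mono fun ξ => ?_
        by_cases h : ξ ∈ A
        · simp only [h, indicator_of_mem]
          calc (∑ k ∈ B, ‖c k ξ‖ₑ ^ 2) ^ (1/2 : ℝ) ≤ ((L : ℝ≥0∞) ^ 2) ^ (1/2 : ℝ) := by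
                gcongr
                exact hL ξ
            _ = L := by
                rw [← ENNReal.rpow_natCast, ← ENNReal.rpow_mul]
                norm_num
        · simp only [h, not_false_eq_true, indicator_of_notMem]
          have : ∑ k ∈ B, ‖c k ξ‖ₑ ^ 2 = 0 := by
            apply Finset.sum_eq_zero
            intro k hk
            simp [h0 k hk ξ h]
          rw [this]
          simp only [one_div, inv_pos, Nat.ofNat_pos, ENNReal.zero_rpow_of_pos, Std.le_refl]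
    _ = L * volume A := by
        rw [lintegral_indicator hA, setLIntegral_const]

theorem one_level {p p0 : ℝ} {C : ℝ≥0} (hb : BlockHyp p0 C) (hp0 : 3 < p0) (hp : p0 < p)
    {B : Finset ℤ} {c : ℤ → ℝ → ℂ} {A : Set ℝ} {L : ℝ≥0} (hA : MeasurableSet A)
    (hA1 : A ⊆ Icc 0 1) (hc : ∀ k ∈ B, Measurable (c k)) (h0 : ∀ k ∈ B, ∀ ξ ∉ A, c k ξ = 0)
    (hL : ∀ ξ, ∑ k ∈ B, ‖c k ξ‖ₑ ^ 2 ≤ (L : ℝ≥0∞) ^ 2) :
    eLpNorm (uB B c) (ENNReal.ofReal p) volume
      ≤ (C : ℝ≥0∞) ^ (1 / p) * (B.card : ℝ≥0∞) ^ ((p0 - 2) / (2 * p)) * L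
        * (volume A) ^ ((1 + p - p0) / p) := by
  have hppos : 0 < p := by linarith only [hp0, hp]
  rw [eLpNorm_eq_lintegral_rpow_enorm_toReal (by simpa only [ne_eq, ENNReal.ofReal_eq_zero, not_le] using hppos) ENNReal.ofReal_ne_top,
    ENNReal.toReal_ofReal hppos.le]
  have hmain : ∫⁻ x, ‖uB B c x‖ₑ ^ p ≤ (L * volume A) ^ (p - p0) *
      (C * (B.card : ℝ≥0∞) ^ ((p0 - 2) / 2) * (L : ℝ≥0∞) ^ p0 * volume A) := by
    calc ∫⁻ x, ‖uB B c x‖ₑ ^ p ≤ ∫⁻ x, (L * volume A) ^ (p - p0) * ‖uB B c x‖ₑ ^ p0 := by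
          refine lintegral_mono fun x => ?_
          have : ‖uB B c x‖ₑ ^ p = ‖uB B c x‖ₑ ^ (p - p0) * ‖uB B c x‖ₑ ^ p0 := by
            rw [← ENNReal.rpow_add_of_nonneg _ _ (by linarith only [hp]) (by linarith only [hp0])]
            congr 1
            ring
          rw [this]
          gcongr
          exact sup_bound hA hA1 hc h0 hL x
      _ = (L * volume A) ^ (p - p0) * ∫⁻ x, ‖uB B c x‖ₑ ^ p0 := by
          rw [lintegral_const_mul]
          exact ((measurable_uB hc).enorm).pow_const _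
      _ ≤ _ := by
          gcongr
          exact hb B c A L hA hA1 hc h0 hL
  have hip : 0 ≤ 1 / p := by (clear * - hppos; positivity)
  calc (∫⁻ x, ‖uB B c x‖ₑ ^ p) ^ (1 / p)
      ≤ ((L * volume A) ^ (p - p0) *
      (C * (B.card : ℝ≥0∞) ^ ((p0 - 2) / 2) * (L : ℝ≥0∞) ^ p0 * volume A)) ^ (1 / p) := by
        (clear * - hmain hppos; gcongr)
    _ = ((L : ℝ≥0∞) ^ (p - p0) * (volume A) ^ (p - p0) *
      (C * (B.card : ℝ≥0∞) ^ ((p0 - 2) / 2) * (L : ℝ≥0∞) ^ p0 * (volume A) ^ (1:ℝ))) ^ (1 / p) := by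
        rw [ENNReal.mul_rpow_of_nonneg (L : ℝ≥0∞) (volume A) (by linarith only [hp] : (0:ℝ) ≤ p - p0),
          ENNReal.rpow_one]
    _ = (C * (B.card : ℝ≥0∞) ^ ((p0 - 2) / 2) * (L : ℝ≥0∞) ^ p *
        (volume A) ^ (1 + p - p0)) ^ (1 / p) := by
        congr 1
        have e1 : (L : ℝ≥0∞) ^ p = (L : ℝ≥0∞) ^ (p - p0) * (L : ℝ≥0∞) ^ p0 := by
          rw [← ENNReal.rpow_add_of_nonneg _ _ (by linarith only [hp]) (by linarith only [hp0])]
          congr 1; ring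
        have e2 : (volume A) ^ (1 + p - p0) = (volume A) ^ (p - p0) * (volume A) ^ (1:ℝ) := by
          rw [← ENNReal.rpow_add_of_nonneg _ _ (by linarith only [hp]) (by norm_num)]
          congr 1; ring
        rw [e1, e2]
        ring
    _ = _ := by
        rw [ENNReal.mul_rpow_of_nonneg _ _ hip, ENNReal.mul_rpow_of_nonneg _ _ hip,
          ENNReal.mul_rpow_of_nonneg _ _ hip, ← ENNReal.rpow_mul, ← ENNReal.rpow_mul,
          ← ENNReal.rpow_mul]
        have e1 : (p0 - 2) / 2 * (1 / p) = (p0 - 2) / (2 * p) := by (clear * - hppos; field_simp)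
        have e2 : p * (1 / p) = 1 := by field_simp
        have e3 : (1 + p - p0) * (1 / p) = (1 + p - p0) / p := by (clear * - hppos; field_simp)
        rw [e1, e2, e3, ENNReal.rpow_one]

end Vale.Agent.P122
end
end

section

section

namespace Vale.Agent.P122

open MeasureTheory Set
open scoped ENNReal NNReal

attribute [local irreducible] ext1 Phi

theorem ext1_sum {ι : Type*} (s : Finset ι) (c : ι → ℝ → ℂ) (hc : ∀ i ∈ s, Integrable (c i))
    (x t : ℝ) : ext1 (fun ξ => ∑ i ∈ s, c i ξ) x t = ∑ i ∈ s, ext1 (c i) x t := by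
  unfold ext1
  simp_rw [Finset.sum_mul]
  rw [integral_finsetSum]
  intro i hi
  refine (hc i hi).mul_bdd (c := 1) ?_ ?_
  · exact (continuous_ee.comp (by fun_prop)).aestronglyMeasurable
  · exact Filter.Eventually.of_forall fun x => (norm_ee _).le

theorem two_pow_calc (p p0 : ℝ) (hp : 0 < p) (i : ℕ) :
    (2 : ℝ≥0∞) ^ (i + 1) * ((((2 : ℝ≥0∞) ^ i) ^ p)⁻¹) ^ ((1 + p - p0) / p)
      = 2 * ((2 : ℝ≥0∞) ^ (-(p - p0))) ^ i := by
  have h2 : (2 : ℝ≥0∞) ≠ 0 := by norm_num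
  have h2' : (2 : ℝ≥0∞) ≠ ∞ := by norm_num
  rw [← ENNReal.rpow_natCast, ← ENNReal.rpow_natCast, ← ENNReal.rpow_natCast, ← ENNReal.rpow_mul,
    ← ENNReal.rpow_neg, ← ENNReal.rpow_mul, ← ENNReal.rpow_mul,
    ← ENNReal.rpow_add _ _ h2 h2']
  have e : ((i + 1 : ℕ) : ℝ) + -(↑i * p) * ((1 + p - p0) / p) = 1 + (-(p - p0) * ↑i) := by
    push_cast
    field_simp
    ring
  rw [e, ENNReal.rpow_add _ _ h2 h2', ENNReal.rpow_one]

section

variable (B : Finset ℤ) (c : ℤ → ℝ → ℂ) (lam : ℝ≥0)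

/-- squared size of the data -/
noncomputable def N2 (ξ : ℝ) : ℝ≥0∞ := ∑ k ∈ B, ‖c k ξ‖ₑ ^ 2

/-- dyadic level sets of the data -/
def lev (i : ℕ) : Set ℝ :=
  {ξ | ξ ∈ Icc (0:ℝ) 1 ∧ N2 B c ξ ≤ ((2 ^ i * lam : ℝ≥0) : ℝ≥0∞) ^ 2 ∧
    ∀ j < i, ((2 ^ j * lam : ℝ≥0) : ℝ≥0∞) ^ 2 < N2 B c ξ}

variable {B c lam}

theorem measurable_N2 (hc : ∀ k ∈ B, Measurable (c k)) : Measurable (N2 B c) := by
  unfold N2
  exact Finset.measurable_fun_sum B fun k hk => ((hc k hk).enorm).pow_const 2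

theorem measurableSet_lev (hc : ∀ k ∈ B, Measurable (c k)) (i : ℕ) :
    MeasurableSet (lev B c lam i) := by
  have hN := measurable_N2 hc
  have e : lev B c lam i = Icc (0:ℝ) 1 ∩ ({ξ | N2 B c ξ ≤ ((2 ^ i * lam : ℝ≥0) : ℝ≥0∞) ^ 2} ∩
      ⋂ j ∈ Finset.range i, {ξ | ((2 ^ j * lam : ℝ≥0) : ℝ≥0∞) ^ 2 < N2 B c ξ}) := by
    ext ξ
    simp only [lev, mem_Icc, ENNReal.coe_mul, ENNReal.coe_pow, ENNReal.coe_ofNat, mem_ofPred_eq, Finset.mem_range, mem_inter_iff, mem_iInter]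
  rw [e]
  apply measurableSet_Icc.inter
  apply (measurableSet_le hN measurable_const).inter
  exact Finset.measurableSet_biInter _ fun j _ => measurableSet_lt measurable_const hN

theorem lev_subset (i : ℕ) : lev B c lam i ⊆ Icc 0 1 := fun _ h => h.1

theorem lev_vol {p : ℝ} (hp : 0 < p) (hlam : 0 < lam) (hc : ∀ k ∈ B, Measurable (c k))
    (hN : ∫⁻ ξ, (N2 B c ξ) ^ (p / 2) ≤ (lam : ℝ≥0∞) ^ p) (i : ℕ) :
    volume (lev B c lam (i + 1)) ≤ (((2 : ℝ≥0∞) ^ i) ^ p)⁻¹ := by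
  have hlow : ∀ ξ ∈ lev B c lam (i + 1), ((2 : ℝ≥0∞) ^ i) ^ p * (lam : ℝ≥0∞) ^ p
      ≤ (N2 B c ξ) ^ (p / 2) := by
    intro ξ hξ
    have h1 := (hξ.2.2 i (by omega)).le
    calc ((2 : ℝ≥0∞) ^ i) ^ p * (lam : ℝ≥0∞) ^ p = (((2 ^ i * lam : ℝ≥0) : ℝ≥0∞) ^ 2) ^ (p / 2) := by
          rw [← ENNReal.mul_rpow_of_nonneg _ _ hp.le, ← ENNReal.rpow_natCast (_ : ℝ≥0∞) 2,
            ← ENNReal.rpow_mul]
          congr 1
          push_cast
          ring
      _ ≤ _ := by gcongr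
  have h2 : ((2 : ℝ≥0∞) ^ i) ^ p * (lam : ℝ≥0∞) ^ p * volume (lev B c lam (i + 1))
      ≤ (lam : ℝ≥0∞) ^ p := by
    calc ((2 : ℝ≥0∞) ^ i) ^ p * (lam : ℝ≥0∞) ^ p * volume (lev B c lam (i + 1))
        = ∫⁻ ξ in lev B c lam (i + 1), ((2 : ℝ≥0∞) ^ i) ^ p * (lam : ℝ≥0∞) ^ p := by
          rw [setLIntegral_const]
      _ ≤ ∫⁻ ξ in lev B c lam (i + 1), (N2 B c ξ) ^ (p / 2) :=
          setLIntegral_mono' (measurableSet_lev hc _) hlow
      _ ≤ ∫⁻ ξ, (N2 B c ξ) ^ (p / 2) := setLIntegral_le_lintegral _ _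
      _ ≤ _ := hN
  have hl0 : (lam : ℝ≥0∞) ^ p ≠ 0 := by
    apply (ENNReal.rpow_pos (by exact_mod_cast hlam) ENNReal.coe_ne_top).ne'
  have hl1 : (lam : ℝ≥0∞) ^ p ≠ ∞ := ENNReal.rpow_ne_top_of_nonneg hp.le ENNReal.coe_ne_top
  have h3 : ((2 : ℝ≥0∞) ^ i) ^ p * volume (lev B c lam (i + 1)) ≤ 1 := by
    rw [← ENNReal.mul_le_mul_iff_right hl0 hl1, mul_one]
    refine le_trans (le_of_eq ?_) h2
    ring
  have h4 : ((2 : ℝ≥0∞) ^ i) ^ p ≠ 0 := by
    apply (ENNReal.rpow_pos (by positivity) (by finiteness)).ne'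
  have h5 : ((2 : ℝ≥0∞) ^ i) ^ p ≠ ∞ := ENNReal.rpow_ne_top_of_nonneg hp.le (by finiteness)
  rw [← ENNReal.mul_le_mul_iff_right h4 h5, ENNReal.mul_inv_cancel h4 h5]
  exact h3

theorem lev_partition {M : ℝ≥0} (hlam : 0 < lam) (hM : ∀ ξ, N2 B c ξ ≤ (M : ℝ≥0∞) ^ 2) :
    ∃ I : ℕ, ∀ ξ ∈ Icc (0:ℝ) 1, ∃ i ∈ Finset.range (I + 1), ξ ∈ lev B c lam i ∧
      ∀ j, ξ ∈ lev B c lam j → j = i := by
  obtain ⟨I, hI⟩ : ∃ I : ℕ, M / lam < 2 ^ I := pow_unbounded_of_one_lt _ (by norm_num)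
  have hI' : M ≤ 2 ^ I * lam := by
    rw [div_lt_iff₀ hlam] at hI
    exact hI.le
  refine ⟨I, fun ξ hξ => ?_⟩
  have hex : ∃ i, N2 B c ξ ≤ ((2 ^ i * lam : ℝ≥0) : ℝ≥0∞) ^ 2 := by
    refine ⟨I, (hM ξ).trans ?_⟩
    gcongr
  classical
  refine ⟨Nat.find hex, ?_, ⟨hξ, Nat.find_spec hex, fun j hj => ?_⟩, fun j hj => ?_⟩
  · rw [Finset.mem_range]
    have : Nat.find hex ≤ I := Nat.find_le (by
      refine (hM ξ).trans ?_
      (clear * - hI'; gcongr))
    omega
  · exact not_le.1 (Nat.find_min hex hj)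
  · refine le_antisymm ?_ ?_
    · by_contra hcon
      exact absurd (Nat.find_spec hex) (not_le.2 (hj.2.2 _ (not_le.1 hcon)))
    · exact Nat.find_le hj.2.1

end

theorem level_sum {p p0 : ℝ} {C : ℝ≥0} (hb : BlockHyp p0 C) (hp0 : 3 < p0) (hp : p0 < p) :
    ∃ K : ℝ≥0, ∀ (B : Finset ℤ) (c : ℤ → ℝ → ℂ) (lam M : ℝ≥0), 0 < lam →
      (∀ k ∈ B, Measurable (c k)) → (∀ k ∈ B, ∀ ξ ∉ Icc (0:ℝ) 1, c k ξ = 0) →
      (∀ ξ, N2 B c ξ ≤ (M : ℝ≥0∞) ^ 2) → (∫⁻ ξ, (N2 B c ξ) ^ (p / 2) ≤ (lam : ℝ≥0∞) ^ p) →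
      eLpNorm (uB B c) (ENNReal.ofReal p) volume
        ≤ K * (B.card : ℝ≥0∞) ^ ((p0 - 2) / (2 * p)) * lam := by
  have hppos : 0 < p := by linarith
  set r : ℝ≥0∞ := (2 : ℝ≥0∞) ^ (-(p - p0)) with hr
  have hr1 : r < 1 := ENNReal.rpow_lt_one_of_one_lt_of_neg (by norm_num) (by linarith only [hp])
  have hrfin : (1 - r)⁻¹ ≠ ∞ := by
    rw [ENNReal.inv_ne_top]
    exact (tsub_pos_of_lt hr1).ne'
  have hCfin : (C : ℝ≥0∞) ^ (1 / p) ≠ ∞ :=
    ENNReal.rpow_ne_top_of_nonneg (by positivity) ENNReal.coe_ne_top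
  have hKfin : (C : ℝ≥0∞) ^ (1 / p) * (1 + 2 * (1 - r)⁻¹) ≠ ∞ :=
    ENNReal.mul_ne_top hCfin (ENNReal.add_ne_top.2 ⟨by norm_num, ENNReal.mul_ne_top (by norm_num) hrfin⟩)
  refine ⟨((C : ℝ≥0∞) ^ (1 / p) * (1 + 2 * (1 - r)⁻¹)).toNNReal, ?_⟩
  intro B c lam M hlam hc h0 hM hN
  rw [ENNReal.coe_toNNReal hKfin]
  obtain ⟨I, hI⟩ := lev_partition (B := B) (c := c) hlam hM
  classical
  set ci : ℕ → ℤ → ℝ → ℂ := fun i k => (lev B c lam i).indicator (c k) with hci
  have hcim : ∀ i, ∀ k ∈ B, Measurable (ci i k) := fun i k hk =>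
    (hc k hk).indicator (measurableSet_lev hc i)
  have hci0 : ∀ i, ∀ k ∈ B, ∀ ξ ∉ lev B c lam i, ci i k ξ = 0 := fun i k _ ξ hξ => by
    simp [hci, hξ]
  have hcib : ∀ i, ∀ ξ, ∑ k ∈ B, ‖ci i k ξ‖ₑ ^ 2 ≤ ((2 ^ i * lam : ℝ≥0) : ℝ≥0∞) ^ 2 := by
    intro i ξ
    by_cases hξ : ξ ∈ lev B c lam i
    · simp only [hci, hξ, indicator_of_mem]
      exact hξ.2.1
    · simp only [hci, hξ, not_false_eq_true, indicator_of_notMem, enorm_zero, ne_eq, OfNat.ofNat_ne_zero, zero_pow, Finset.sum_const_zero, ENNReal.coe_mul, ENNReal.coe_pow, ENNReal.coe_ofNat, zero_le]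
  have hcii : ∀ i, ∀ k ∈ B, Integrable (ci i k) := fun i k hk =>
    integrable_of_bdd (hcim i k hk) (measurableSet_lev hc i) (lev_subset i) (hci0 i k hk)
      (fun ξ => enorm_le_of_sum (hcib i ξ) hk)
  have hdec : ∀ k ∈ B, c k = fun ξ => ∑ i ∈ Finset.range (I + 1), ci i k ξ := by
    intro k hk
    ext ξ
    by_cases hξ : ξ ∈ Icc (0:ℝ) 1
    · obtain ⟨i, hi, hi1, hi2⟩ := hI ξ hξ
      rw [Finset.sum_eq_single_of_mem i hi]
      · simp [hci, hi1]
      · intro j _ hj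
        have : ξ ∉ lev B c lam j := fun h => hj (hi2 j h)
        simp [hci, this]
    · rw [h0 k hk ξ hξ]
      symm
      apply Finset.sum_eq_zero
      intro i _
      have : ξ ∉ lev B c lam i := fun h => hξ (lev_subset i h)
      simp [hci, this]
  have hsum : uB B c = ∑ i ∈ Finset.range (I + 1), uB B (ci i) := by
    ext x
    rw [Finset.sum_apply]
    unfold uB
    rw [Finset.sum_comm]
    apply Finset.sum_congr rfl
    intro k hk
    rw [← Finset.sum_mul]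
    congr 1
    conv_lhs => rw [hdec k hk]
    exact ext1_sum _ _ (fun i _ => hcii i k hk) _ _
  have hone : ∀ i, eLpNorm (uB B (ci i)) (ENNReal.ofReal p) volume
      ≤ (C : ℝ≥0∞) ^ (1 / p) * (B.card : ℝ≥0∞) ^ ((p0 - 2) / (2 * p)) * ((2 ^ i * lam : ℝ≥0) : ℝ≥0∞)
        * (volume (lev B c lam i)) ^ ((1 + p - p0) / p) := fun i =>
    one_level hb hp0 hp (measurableSet_lev hc i) (lev_subset i) (hcim i) (hci0 i) (hcib i)
  have hθ : 0 ≤ (1 + p - p0) / p := by
    apply div_nonneg <;> linarith only [hp0, hp]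
  rw [hsum]
  have hp1 : (1 : ℝ≥0∞) ≤ ENNReal.ofReal p := by
    rw [ENNReal.one_le_ofReal]; linarith only [hp0, hp]
  refine (eLpNorm_sum_le (fun i _ => (measurable_uB (hcim i)).aestronglyMeasurable) hp1).trans ?_
  set Q : ℝ≥0∞ := (C : ℝ≥0∞) ^ (1 / p) * (B.card : ℝ≥0∞) ^ ((p0 - 2) / (2 * p)) * lam with hQ
  have h_zero : eLpNorm (uB B (ci 0)) (ENNReal.ofReal p) volume ≤ Q := by
    refine (hone 0).trans ?_
    have hv : volume (lev B c lam 0) ≤ 1 := by
      refine (measure_mono (lev_subset 0)).trans ?_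
      simp only [Real.volume_Icc, sub_zero, ENNReal.ofReal_one, Std.le_refl]
    calc (C : ℝ≥0∞) ^ (1 / p) * (B.card : ℝ≥0∞) ^ ((p0 - 2) / (2 * p)) * ((2 ^ 0 * lam : ℝ≥0) : ℝ≥0∞)
        * (volume (lev B c lam 0)) ^ ((1 + p - p0) / p)
        ≤ (C : ℝ≥0∞) ^ (1 / p) * (B.card : ℝ≥0∞) ^ ((p0 - 2) / (2 * p)) * ((2 ^ 0 * lam : ℝ≥0) : ℝ≥0∞)
        * 1 ^ ((1 + p - p0) / p) := by (clear * - hv hθ; gcongr)
      _ = Q := by simp only [one_div, pow_zero, one_mul, ENNReal.one_rpow, mul_one, hQ]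
  have h_succ : ∀ i, eLpNorm (uB B (ci (i + 1))) (ENNReal.ofReal p) volume ≤ Q * (2 * r ^ i) := by
    intro i
    refine (hone (i + 1)).trans ?_
    calc (C : ℝ≥0∞) ^ (1 / p) * (B.card : ℝ≥0∞) ^ ((p0 - 2) / (2 * p)) *
          ((2 ^ (i + 1) * lam : ℝ≥0) : ℝ≥0∞) * (volume (lev B c lam (i + 1))) ^ ((1 + p - p0) / p)
        ≤ (C : ℝ≥0∞) ^ (1 / p) * (B.card : ℝ≥0∞) ^ ((p0 - 2) / (2 * p)) *
          ((2 ^ (i + 1) * lam : ℝ≥0) : ℝ≥0∞) * ((((2 : ℝ≥0∞) ^ i) ^ p)⁻¹) ^ ((1 + p - p0) / p) := by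
          gcongr
          exact lev_vol hppos hlam hc hN i
      _ = Q * ((2 : ℝ≥0∞) ^ (i + 1) * ((((2 : ℝ≥0∞) ^ i) ^ p)⁻¹) ^ ((1 + p - p0) / p)) := by
          rw [hQ]
          push_cast
          ring
      _ = Q * (2 * r ^ i) := by rw [two_pow_calc p p0 hppos i]
  rw [Finset.sum_range_succ']
  calc ∑ i ∈ Finset.range I, eLpNorm (uB B (ci (i + 1))) (ENNReal.ofReal p) volume
        + eLpNorm (uB B (ci 0)) (ENNReal.ofReal p) volume
      ≤ ∑ i ∈ Finset.range I, Q * (2 * r ^ i) + Q := by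
        gcongr with i _
        exact h_succ i
    _ = Q * (1 + 2 * ∑ i ∈ Finset.range I, r ^ i) := by
        rw [← Finset.mul_sum, ← Finset.mul_sum]
        ring
    _ ≤ Q * (1 + 2 * (1 - r)⁻¹) := by
        gcongr
        rw [← ENNReal.tsum_geometric]
        exact ENNReal.sum_le_tsum _
    _ = _ := by
        rw [hQ]
        ring

end Vale.Agent.P122
end
end

section

section

namespace Vale.Agent.P122

open MeasureTheory Set
open scoped ENNReal NNReal

attribute [local irreducible] ext1 Phi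

/-- squared Sobolev norm of order `s` on the line -/
noncomputable def Nsq (s : ℝ) (g : ℝ → ℂ) : ℝ≥0∞ := (∫⁻ x, ‖g x‖ₑ ^ 2) + gag s g

/-- index of the dyadic block of `k` -/
def blkIdx (k : ℤ) : ℕ := Nat.log 2 (k.natAbs + 1)

theorem blkIdx_lower {k : ℤ} {j : ℕ} (h : blkIdx k = j) : 2 ^ j ≤ k.natAbs + 1 := by
  unfold blkIdx at h
  rw [← h]
  exact Nat.pow_log_le_self 2 (by omega)

theorem blkIdx_upper {k : ℤ} {j : ℕ} (h : blkIdx k = j) : k.natAbs + 1 < 2 ^ (j + 1) := by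
  unfold blkIdx at h
  rw [← h]
  exact Nat.lt_pow_succ_log_self (by norm_num) _

theorem blkIdx_card {B : Finset ℤ} {j : ℕ} (h : ∀ k ∈ B, blkIdx k = j) : B.card ≤ 2 ^ (j + 2) := by
  have hsub : B ⊆ Finset.Ioo (-(2 ^ (j + 1) : ℤ)) (2 ^ (j + 1)) := by
    intro k hk
    have h1 := blkIdx_upper (h k hk)
    have h2 : (k.natAbs : ℤ) + 1 < 2 ^ (j + 1) := by exact_mod_cast h1
    rw [Finset.mem_Ioo]
    have h3 : |k| = (k.natAbs : ℤ) := by simp only [Nat.cast_natAbs, Int.cast_abs, Int.cast_eq]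
    constructor
    · have := neg_abs_le k
      omega
    · have := le_abs_self k
      omega
  refine (Finset.card_le_card hsub).trans ?_
  rw [Int.card_Ioo]
  have : (2:ℤ) ^ (j + 2) = 2 * 2 ^ (j + 1) := by ring
  have h4 : ((2:ℤ) ^ (j + 1) - -(2 ^ (j + 1)) - 1).toNat ≤ (2 ^ (j + 2) : ℕ) := by
    rw [Int.toNat_le]
    push_cast
    rw [this]
    linarith only []
  exact h4

theorem sum_fc_blk {s : ℝ} (hs : 0 ≤ s) {g : ℝ → ℂ} (hg : Measurable g)
    (hsupp : ∀ x, x ∉ Ioc (0:ℝ) 1 → g x = 0) {B : Finset ℤ} {j : ℕ} (hB : ∀ k ∈ B, blkIdx k = j) :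
    ∑ k ∈ B, ‖fc g k‖ₑ ^ 2 ≤ (2 : ℝ≥0∞) ^ (1 + 2 * s * (1 - (j : ℝ))) * Nsq s g := by
  have h2 : (2 : ℝ≥0∞) ≠ 0 := by norm_num
  have h2' : (2 : ℝ≥0∞) ≠ ∞ := by norm_num
  rcases Nat.eq_zero_or_pos j with hj | hj
  · subst hj
    have h1 : ∑ k ∈ B, ‖fc g k‖ₑ ^ 2 ≤ ∫⁻ x, ‖g x‖ₑ ^ 2 := by
      have := bessel 0 hg.aestronglyMeasurable B
      rw [zero_add] at this
      exact this.trans (setLIntegral_le_lintegral _ _)
    calc ∑ k ∈ B, ‖fc g k‖ₑ ^ 2 ≤ 1 * Nsq s g := by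
          rw [one_mul]
          exact h1.trans le_self_add
      _ ≤ _ := by
          gcongr
          apply ENNReal.one_le_rpow (by norm_num)
          push_cast
          have : 0 < 1 + 2 * s * (1 - 0) := by linarith
          exact this
  · have hne : ∀ k ∈ B, k ≠ 0 := by
      intro k hk h0
      have := hB k hk
      rw [h0] at this
      unfold blkIdx at this
      simp only [Int.natAbs_zero, zero_add, Nat.log_one_right] at this
      omega
    have hmain := sum_fc_le hs hg hsupp B hne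
    have hlow : ∀ k ∈ B, (2 : ℝ≥0∞) ^ (2 * s * ((j : ℝ) - 1)) ≤ ENNReal.ofReal (|(k:ℝ)| ^ (2 * s)) := by
      intro k hk
      have h1 := blkIdx_lower (hB k hk)
      have h3 : (2:ℝ) ^ ((j : ℝ) - 1) ≤ |(k:ℝ)| := by
        have h4 : ((k.natAbs : ℕ) : ℝ) = |(k:ℝ)| := by
          rw [Nat.cast_natAbs, Int.cast_abs]
        rw [← h4]
        obtain ⟨i, rfl⟩ : ∃ i, j = i + 1 := ⟨j - 1, by omega⟩
        have h5 : 2 ^ i ≤ k.natAbs := by
          have : 2 ^ (i + 1) = 2 * 2 ^ i := by ring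
          have h6 : 1 ≤ 2 ^ i := Nat.one_le_two_pow
          (clear * - h1 h6; omega)
        have h7 : ((i + 1 : ℕ) : ℝ) - 1 = (i : ℝ) := by push_cast; ring
        rw [h7, Real.rpow_natCast]
        exact_mod_cast h5
      have h4 : (2:ℝ) ^ (2 * s * ((j : ℝ) - 1)) ≤ |(k:ℝ)| ^ (2 * s) := by
        calc (2:ℝ) ^ (2 * s * ((j : ℝ) - 1)) = ((2:ℝ) ^ ((j : ℝ) - 1)) ^ (2 * s) := by
              rw [← Real.rpow_mul (by norm_num)]
              congr 1
              ring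
          _ ≤ _ := Real.rpow_le_rpow (by positivity) h3 (by linarith only [hs])
      calc (2 : ℝ≥0∞) ^ (2 * s * ((j : ℝ) - 1)) = ENNReal.ofReal ((2:ℝ) ^ (2 * s * ((j : ℝ) - 1))) := by
            rw [← ENNReal.ofReal_rpow_of_pos (by norm_num)]
            norm_num
        _ ≤ _ := ENNReal.ofReal_le_ofReal h4
    have h5 : (2 : ℝ≥0∞) ^ (2 * s * ((j : ℝ) - 1)) * ∑ k ∈ B, ‖fc g k‖ₑ ^ 2 ≤ 2 * gag s g := by
      rw [Finset.mul_sum]
      refine le_trans (Finset.sum_le_sum fun k hk => ?_) hmain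
      gcongr
      exact hlow k hk
    have hpos : (2 : ℝ≥0∞) ^ (2 * s * ((j : ℝ) - 1)) ≠ 0 :=
      (ENNReal.rpow_pos (by norm_num) h2').ne'
    have hfin : (2 : ℝ≥0∞) ^ (2 * s * ((j : ℝ) - 1)) ≠ ∞ :=
      ENNReal.rpow_ne_top_of_ne_zero h2 h2'
    rw [← ENNReal.mul_le_mul_iff_right hpos hfin]
    refine h5.trans ?_
    rw [← mul_assoc, ← ENNReal.rpow_add _ _ h2 h2']
    have e : 2 * s * ((j : ℝ) - 1) + (1 + 2 * s * (1 - (j : ℝ))) = 1 := by ring
    rw [e, ENNReal.rpow_one]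
    gcongr
    exact le_add_self

end Vale.Agent.P122
end
end

section

section

namespace Vale.Agent.P122

open MeasureTheory Set
open scoped ENNReal NNReal

attribute [local irreducible] ext1 Phi

theorem measurable_fc {F : ℝ × ℝ → ℂ} (hF : Measurable F) (k : ℤ) :
    Measurable fun ξ => fc (fun y => F (ξ, y)) k := by
  unfold fc
  have : StronglyMeasurable fun q : ℝ × ℝ => F (q.1, q.2) * ee (-(k * q.2)) := by
    apply Measurable.stronglyMeasurable
    apply Measurable.mul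
    · exact hF
    · exact continuous_ee.measurable.comp (by fun_prop)
  exact this.integral_prod_right.measurable

/-- truncated coefficient family -/
noncomputable def cG (F : ℝ × ℝ → ℂ) (G : Set ℝ) (k : ℤ) : ℝ → ℂ :=
  G.indicator fun ξ => fc (fun y => F (ξ, y)) k

theorem trunc_bound {p s : ℝ} (hp : 3 < p) (hs : 1 / (2 * p) < s)
    (hblock : ∀ p0 : ℝ, 3 < p0 → p0 < 4 → ∃ C : ℝ≥0, BlockHyp p0 C) :
    ∃ K : ℝ≥0, ∀ (S : Finset ℤ) (F : ℝ × ℝ → ℂ) (G : Set ℝ) (lam M : ℝ≥0), 0 < lam →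
      Measurable F → (∀ ξ y, y ∉ Ioc (0:ℝ) 1 → F (ξ, y) = 0) → MeasurableSet G → G ⊆ Icc 0 1 →
      (∀ ξ ∈ G, ∫⁻ y, ‖F (ξ, y)‖ₑ ^ 2 ≤ (M : ℝ≥0∞) ^ 2) →
      (∫⁻ ξ, (Nsq s (fun y => F (ξ, y))) ^ (p / 2) ≤ (lam : ℝ≥0∞) ^ p) →
      eLpNorm (uB S (cG F G)) (ENNReal.ofReal p) volume ≤ K * lam := by
  have hppos : 0 < p := by linarith
  have hs' : 1 < 2 * p * s := by
    rw [div_lt_iff₀ (by positivity)] at hs
    linarith only [hs]
  have hspos : 0 < s := by
    have : 0 < 1 / (2 * p) := by positivity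
    linarith
  obtain ⟨p0, h1, h2⟩ : ∃ p0, 3 < p0 ∧ p0 < min 4 (min p (2 + 2 * p * s)) := by
    apply exists_between
    rw [lt_min_iff, lt_min_iff]
    refine ⟨by norm_num, hp, by linarith only [hs']⟩
  rw [lt_min_iff, lt_min_iff] at h2
  obtain ⟨h4, hpp, hps⟩ := h2
  obtain ⟨C, hC⟩ := hblock p0 h1 h4
  obtain ⟨K0, hK0⟩ := level_sum hC h1 hpp
  set κ : ℝ := (p0 - 2) / (2 * p) with hκ
  have hκpos : 0 < κ := by
    rw [hκ]; apply div_pos <;> linarith only [h1, hpp]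
  have hκs : κ < s := by
    rw [hκ, div_lt_iff₀ (by positivity)]
    linarith only [hps]
  set r : ℝ≥0∞ := (2 : ℝ≥0∞) ^ (κ - s) with hr
  have hr1 : r < 1 := ENNReal.rpow_lt_one_of_one_lt_of_neg (by norm_num) (by linarith only [hκs])
  have hrfin : (1 - r)⁻¹ ≠ ∞ := by
    rw [ENNReal.inv_ne_top]
    exact (tsub_pos_of_lt hr1).ne'
  have h20 : (2 : ℝ≥0∞) ≠ 0 := by norm_num
  have h2t : (2 : ℝ≥0∞) ≠ ∞ := by norm_num
  set Q : ℝ≥0∞ := K0 * (2 : ℝ≥0∞) ^ (2 * κ + 1 / 2 + s) with hQ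
  have hQfin : Q ≠ ∞ := ENNReal.mul_ne_top ENNReal.coe_ne_top (ENNReal.rpow_ne_top_of_ne_zero h20 h2t)
  have hKfin : Q * (1 - r)⁻¹ ≠ ∞ := ENNReal.mul_ne_top hQfin hrfin
  refine ⟨(Q * (1 - r)⁻¹).toNNReal, ?_⟩
  intro S F G lam M hlam hF hsupp hG hG1 hM hN
  rw [ENNReal.coe_toNNReal hKfin]
  have hcm : ∀ k, Measurable (cG F G k) := fun k => (measurable_fc hF k).indicator hG
  have hFs : ∀ ξ, Measurable fun y => F (ξ, y) := fun ξ => hF.comp (by fun_prop)
  set J : ℕ := S.sup blkIdx + 1 with hJ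
  have hmaps : ∀ k ∈ S, blkIdx k ∈ Finset.range J := by
    intro k hk
    rw [Finset.mem_range, hJ]
    exact Nat.lt_succ_of_le (Finset.le_sup hk)
  have hsum : uB S (cG F G) = ∑ j ∈ Finset.range J, uB (S.filter fun k => blkIdx k = j) (cG F G) := by
    ext x
    rw [Finset.sum_apply]
    unfold uB
    rw [Finset.sum_fiberwise_of_maps_to hmaps]
  have hj : ∀ j : ℕ, eLpNorm (uB (S.filter fun k => blkIdx k = j) (cG F G)) (ENNReal.ofReal p) volume
      ≤ Q * lam * r ^ j := by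
    intro j
    set B := S.filter fun k => blkIdx k = j with hBdef
    have hB : ∀ k ∈ B, blkIdx k = j := fun k hk => (Finset.mem_filter.1 hk).2
    have hN2 : ∀ ξ, N2 B (cG F G) ξ
        ≤ (2 : ℝ≥0∞) ^ (1 + 2 * s * (1 - (j : ℝ))) * Nsq s (fun y => F (ξ, y)) := by
      intro ξ
      by_cases hξ : ξ ∈ G
      · unfold N2 cG
        simp only [hξ, indicator_of_mem]
        exact sum_fc_blk hspos.le (hFs ξ) (hsupp ξ) hB
      · have : N2 B (cG F G) ξ = 0 := by
          unfold N2 cG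
          simp [hξ]
        rw [this]
        exact zero_le
    have hN2M : ∀ ξ, N2 B (cG F G) ξ ≤ (M : ℝ≥0∞) ^ 2 := by
      intro ξ
      by_cases hξ : ξ ∈ G
      · unfold N2 cG
        simp only [hξ, indicator_of_mem]
        refine le_trans ?_ (hM ξ hξ)
        have := bessel 0 (hFs ξ).aestronglyMeasurable B
        rw [zero_add] at this
        exact this.trans (setLIntegral_le_lintegral _ _)
      · have : N2 B (cG F G) ξ = 0 := by
          unfold N2 cG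
          simp [hξ]
        rw [this]
        exact zero_le
    have hzero : ∀ k ∈ B, ∀ ξ ∉ Icc (0:ℝ) 1, cG F G k ξ = 0 := by
      intro k _ ξ hξ
      have : ξ ∉ G := fun h => hξ (hG1 h)
      simp [cG, this]
    set a : ℝ := (1 + 2 * s * (1 - (j : ℝ))) / 2 with ha
    set lamj : ℝ≥0 := (2 : ℝ≥0) ^ a * lam with hlamj
    have hlamj0 : 0 < lamj := by (clear * - hlam; positivity)
    have hlamjE : (lamj : ℝ≥0∞) = (2 : ℝ≥0∞) ^ a * lam := by
      rw [hlamj, ENNReal.coe_mul, ENNReal.coe_rpow_of_ne_zero (by norm_num)]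
      norm_num
    have hint : ∫⁻ ξ, (N2 B (cG F G) ξ) ^ (p / 2) ≤ (lamj : ℝ≥0∞) ^ p := by
      calc ∫⁻ ξ, (N2 B (cG F G) ξ) ^ (p / 2)
          ≤ ∫⁻ ξ, ((2 : ℝ≥0∞) ^ (1 + 2 * s * (1 - (j : ℝ)))) ^ (p / 2)
              * (Nsq s (fun y => F (ξ, y))) ^ (p / 2) := by
            refine lintegral_mono fun ξ => ?_
            rw [← ENNReal.mul_rpow_of_nonneg _ _ (by positivity)]
            exact ENNReal.rpow_le_rpow (hN2 ξ) (by positivity)
        _ = ((2 : ℝ≥0∞) ^ (1 + 2 * s * (1 - (j : ℝ)))) ^ (p / 2)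
              * ∫⁻ ξ, (Nsq s (fun y => F (ξ, y))) ^ (p / 2) := by
            rw [lintegral_const_mul']
            apply ENNReal.rpow_ne_top_of_nonneg (by positivity)
            exact ENNReal.rpow_ne_top_of_ne_zero h20 h2t
        _ ≤ ((2 : ℝ≥0∞) ^ (1 + 2 * s * (1 - (j : ℝ)))) ^ (p / 2) * (lam : ℝ≥0∞) ^ p := by
            (clear * - hN; gcongr)
        _ = (lamj : ℝ≥0∞) ^ p := by
            rw [hlamjE, ENNReal.mul_rpow_of_nonneg _ _ hppos.le, ← ENNReal.rpow_mul,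
              ← ENNReal.rpow_mul]
            congr 2
            rw [ha]
            ring
    have hres := hK0 B (cG F G) lamj M hlamj0 (fun k _ => hcm k) hzero hN2M hint
    refine hres.trans ?_
    have hcard : (B.card : ℝ≥0∞) ≤ (2 : ℝ≥0∞) ^ ((j : ℝ) + 2) := by
      have := blkIdx_card hB
      have h3 : (B.card : ℝ≥0∞) ≤ ((2 ^ (j + 2) : ℕ) : ℝ≥0∞) := by exact_mod_cast this
      refine h3.trans (le_of_eq ?_)
      push_cast
      rw [← ENNReal.rpow_natCast]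
      push_cast
      rfl
    calc (K0 : ℝ≥0∞) * (B.card : ℝ≥0∞) ^ ((p0 - 2) / (2 * p)) * lamj
        ≤ K0 * ((2 : ℝ≥0∞) ^ ((j : ℝ) + 2)) ^ κ * ((2 : ℝ≥0∞) ^ a * lam) := by
          rw [hlamjE]
          (clear * - hcard hκpos; gcongr)
      _ = K0 * ((2 : ℝ≥0∞) ^ (((j : ℝ) + 2) * κ) * (2 : ℝ≥0∞) ^ a) * lam := by
          rw [← ENNReal.rpow_mul]
          ring
      _ = K0 * ((2 : ℝ≥0∞) ^ (2 * κ + 1 / 2 + s) * r ^ j) * lam := by
          rw [hr, ← ENNReal.rpow_natCast (_ : ℝ≥0∞) j, ← ENNReal.rpow_mul,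
            ← ENNReal.rpow_add _ _ h20 h2t, ← ENNReal.rpow_add _ _ h20 h2t]
          congr 3
          rw [ha]
          ring
      _ = Q * lam * r ^ j := by
          rw [hQ]
          ring
  rw [hsum]
  have hp1 : (1 : ℝ≥0∞) ≤ ENNReal.ofReal p := by
    rw [ENNReal.one_le_ofReal]; linarith only [h1, hpp]
  refine (eLpNorm_sum_le (fun j _ =>
    (measurable_uB (fun k _ => hcm k)).aestronglyMeasurable) hp1).trans ?_
  calc ∑ j ∈ Finset.range J,
        eLpNorm (uB (S.filter fun k => blkIdx k = j) (cG F G)) (ENNReal.ofReal p) volume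
      ≤ ∑ j ∈ Finset.range J, Q * lam * r ^ j := Finset.sum_le_sum fun j _ => hj j
    _ = Q * lam * ∑ j ∈ Finset.range J, r ^ j := by rw [Finset.mul_sum]
    _ ≤ Q * lam * (1 - r)⁻¹ := by
        gcongr
        rw [← ENNReal.tsum_geometric]
        exact ENNReal.sum_le_tsum _
    _ = _ := by ring

end Vale.Agent.P122
end
end

section

section

namespace Vale.Agent.P122

open MeasureTheory Set Filter
open scoped ENNReal NNReal Topology

attribute [local irreducible] ext1 Phi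

/-- extension operator with flat measure -/
noncomputable def EF (F : ℝ × ℝ → ℂ) (x : ℝ × ℝ × ℝ) : ℂ :=
  ∫ ξ : ℝ × ℝ, F ξ * ee (x.1 * ξ.1 + x.2.1 * ξ.2 + x.2.2 * (ξ.1 ^ 2 + ξ.2 ^ 2))

/-- symmetric index set -/
noncomputable def Sn (n : ℕ) : Finset ℤ := Finset.Icc (-(n : ℤ)) n

theorem tendsto_Sn : Tendsto Sn atTop atTop := by
  apply tendsto_atTop_finset_of_monotone
  · intro m n hmn
    apply Finset.Icc_subset_Icc
    · have : (m : ℤ) ≤ n := by exact_mod_cast hmn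
      omega
    · exact_mod_cast hmn
  · intro k
    refine ⟨k.natAbs, ?_⟩
    unfold Sn
    rw [Finset.mem_Icc]
    omega

theorem memLp_two_of_lintegral {g : ℝ → ℂ} (hg : Measurable g) (h : ∫⁻ y, ‖g y‖ₑ ^ 2 ≠ ∞) :
    MemLp g 2 volume := by
  refine ⟨hg.aestronglyMeasurable, ?_⟩
  rw [eLpNorm_lt_top_iff_lintegral_rpow_enorm_lt_top (by norm_num) (by norm_num)]
  have : (2 : ℝ≥0∞).toReal = ((2 : ℕ) : ℝ) := by norm_num
  simp_rw [this, ENNReal.rpow_natCast]
  exact lt_of_le_of_ne le_top h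

theorem hasSum_inner {g : ℝ → ℂ} (hg : Measurable g) (hsupp : ∀ y, y ∉ Ioc (0:ℝ) 1 → g y = 0)
    (hfin : ∫⁻ y, ‖g y‖ₑ ^ 2 ≠ ∞) (y t : ℝ) :
    HasSum (fun k : ℤ => fc g k * Phi (y + k) t) (∫ v, g v * ee (y * v + t * v ^ 2)) := by
  have hg2 : MemLp g 2 (volume.restrict (Ioc (0:ℝ) (0 + 1))) :=
    (memLp_two_of_lintegral hg hfin).restrict _
  have he2 : MemLp (fun v : ℝ => ee (y * v + t * v ^ 2)) 2 (volume.restrict (Ioc (0:ℝ) (0 + 1))) := by
    have : IsFiniteMeasure (volume.restrict (Ioc (0:ℝ) (0 + 1))) := by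
      constructor
      simp only [zero_add, MeasurableSet.univ, Measure.restrict_apply, univ_inter, Real.volume_Ioc, sub_zero, ENNReal.ofReal_one, ENNReal.one_lt_top]
    refine MemLp.of_bound ?_ 1 ?_
    · exact (continuous_ee.comp (by fun_prop)).aestronglyMeasurable
    · exact Filter.Eventually.of_forall fun x => (norm_ee _).le
  have h := parseval_mul 0 hg2 he2
  have e1 : ∀ k : ℤ, (∫ x in Ioc (0:ℝ) (0 + 1), g x * ee (-(k * x))) = fc g k := by
    intro k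
    unfold fc
    rw [zero_add]
  have e2 : ∀ k : ℤ, (∫ x in Ioc (0:ℝ) (0 + 1), ee (y * x + t * x ^ 2) * ee (k * x))
      = Phi (y + k) t := fun k => (Phi_eq y t k).symm
  simp_rw [e1, e2] at h
  have e3 : (∫ x in Ioc (0:ℝ) (0 + 1), g x * ee (y * x + t * x ^ 2))
      = ∫ v, g v * ee (y * v + t * v ^ 2) := by
    rw [zero_add, ← integral_indicator measurableSet_Ioc]
    refine integral_congr_ae (Filter.Eventually.of_forall fun x => ?_)
    by_cases hx : x ∈ Ioc (0:ℝ) 1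
    · simp only [hx, indicator_of_mem]
    · simp only [hx, not_false_eq_true, indicator_of_notMem, hsupp x hx, zero_mul]
  rw [e3] at h
  exact h

/-- slice energy -/
noncomputable def en (F : ℝ × ℝ → ℂ) (ξ : ℝ) : ℝ≥0∞ := ∫⁻ y, ‖F (ξ, y)‖ₑ ^ 2

theorem measurable_en {F : ℝ × ℝ → ℂ} (hF : Measurable F) : Measurable (en F) := by
  unfold en
  have : Measurable fun q : ℝ × ℝ => ‖F (q.1, q.2)‖ₑ ^ 2 := (hF.enorm).pow_const 2
  exact this.lintegral_prod_right'

/-- good sets -/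
def Gn (F : ℝ × ℝ → ℂ) (n : ℕ) : Set ℝ := {ξ | ξ ∈ Icc (0:ℝ) 1 ∧ en F ξ ≤ ((n : ℝ≥0) : ℝ≥0∞) ^ 2}

theorem measurableSet_Gn {F : ℝ × ℝ → ℂ} (hF : Measurable F) (n : ℕ) : MeasurableSet (Gn F n) :=
  measurableSet_Icc.inter (measurableSet_le (measurable_en hF) measurable_const)

theorem sum_cG_le {F : ℝ × ℝ → ℂ} (hF : Measurable F) (G : Set ℝ) (S : Finset ℤ) (ξ : ℝ) :
    ∑ k ∈ S, ‖cG F G k ξ‖ₑ ^ 2 ≤ en F ξ := by
  by_cases hξ : ξ ∈ G
  · unfold cG
    simp only [hξ, indicator_of_mem]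
    have hFs : Measurable fun y => F (ξ, y) := hF.comp (by fun_prop)
    have := bessel 0 hFs.aestronglyMeasurable S
    rw [zero_add] at this
    exact this.trans (setLIntegral_le_lintegral _ _)
  · unfold cG
    simp only [hξ, not_false_eq_true, indicator_of_notMem, enorm_zero, ne_eq, OfNat.ofNat_ne_zero, zero_pow, Finset.sum_const_zero, zero_le]

theorem cG_integrable {F : ℝ × ℝ → ℂ} (hF : Measurable F) (n : ℕ) (k : ℤ) :
    Integrable (cG F (Gn F n) k) := by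
  refine integrable_of_bdd (A := Gn F n) (L := n) ((measurable_fc hF k).indicator
    (measurableSet_Gn hF n)) (measurableSet_Gn hF n) (fun ξ h => h.1) ?_ ?_
  · intro ξ hξ
    simp [cG, hξ]
  · intro ξ
    by_cases hξ : ξ ∈ Gn F n
    · have h1 := sum_cG_le hF (Gn F n) {k} ξ
      rw [Finset.sum_singleton] at h1
      have h2 := h1.trans hξ.2
      exact (ENNReal.pow_le_pow_left_iff (by norm_num)).1 h2
    · simp only [cG, hξ, not_false_eq_true, indicator_of_notMem, enorm_zero, ENNReal.coe_natCast, zero_le]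

theorem tendsto_uB {F : ℝ × ℝ → ℂ} (hF : Measurable F)
    (hs1 : ∀ ξ y, ξ ∉ Icc (0:ℝ) 1 → F (ξ, y) = 0) (hs2 : ∀ ξ y, y ∉ Ioc (0:ℝ) 1 → F (ξ, y) = 0)
    (hen : ∫⁻ ξ, (en F ξ) ^ (1/2 : ℝ) ≠ ∞) (x : ℝ × ℝ × ℝ) :
    Tendsto (fun n : ℕ => uB (Sn n) (cG F (Gn F n)) x) atTop (𝓝 (EF F x)) := by
  have hFint : Integrable F := by
    refine ⟨hF.aestronglyMeasurable, ?_⟩
    unfold HasFiniteIntegral
    rw [Measure.volume_eq_prod, lintegral_prod _ hF.enorm.aemeasurable]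
    refine lt_of_le_of_lt (lintegral_mono fun ξ => ?_) (lt_of_le_of_ne le_top hen)
    have hFs : Measurable fun y => F (ξ, y) := hF.comp (by fun_prop)
    calc ∫⁻ y, ‖F (ξ, y)‖ₑ = ∫⁻ y in Ioc (0:ℝ) 1, ‖F (ξ, y)‖ₑ * 1 := by
          rw [← lintegral_indicator measurableSet_Ioc]
          refine lintegral_congr fun y => ?_
          by_cases hy : y ∈ Ioc (0:ℝ) 1
          · simp only [mul_one, hy, indicator_of_mem]
          · simp only [hs2 ξ y hy, enorm_zero, mul_one, hy, not_false_eq_true, indicator_of_notMem]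
      _ ≤ (∫⁻ y in Ioc (0:ℝ) 1, ‖F (ξ, y)‖ₑ ^ (2:ℝ)) ^ (1/2 : ℝ)
          * (∫⁻ y in Ioc (0:ℝ) 1, (1 : ℝ≥0∞) ^ (2:ℝ)) ^ (1/2 : ℝ) := by
          apply ENNReal.lintegral_mul_le_Lp_mul_Lq _ Real.HolderConjugate.two_two
          · exact hFs.enorm.aemeasurable
          · exact aemeasurable_const
      _ ≤ (en F ξ) ^ (1/2 : ℝ) * 1 := by
          gcongr
          · unfold en
            refine le_trans (setLIntegral_le_lintegral _ _) (le_of_eq ?_)
            refine lintegral_congr fun y => ?_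
            rw [← ENNReal.rpow_natCast]
            norm_num
          · simp only [ENNReal.rpow_ofNat, one_pow, lintegral_const, MeasurableSet.univ, Measure.restrict_apply, univ_inter, Real.volume_Ioc, sub_zero, ENNReal.ofReal_one, mul_one, one_div, ENNReal.one_rpow, Std.le_refl]
      _ = _ := mul_one _
  have hEF : EF F x = ∫ ξ, (∫ v, F (ξ, v) * ee (x.2.1 * v + x.2.2 * v ^ 2)) *
      ee (x.1 * ξ + x.2.2 * ξ ^ 2) := by
    unfold EF
    rw [Measure.volume_eq_prod, integral_prod]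
    · refine integral_congr_ae (Filter.Eventually.of_forall fun ξ => ?_)
      simp only
      rw [← integral_mul_const]
      refine integral_congr_ae (Filter.Eventually.of_forall fun v => ?_)
      simp only
      rw [mul_assoc, ← ee_add]
      congr 2
      ring
    · rw [← Measure.volume_eq_prod]
      refine hFint.mul_bdd (c := 1) ?_ ?_
      · exact (continuous_ee.comp (by fun_prop)).aestronglyMeasurable
      · exact Filter.Eventually.of_forall fun x => (norm_ee _).le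
  rw [hEF]
  have hu : ∀ n : ℕ, uB (Sn n) (cG F (Gn F n)) x = ∫ ξ,
      (∑ k ∈ Sn n, cG F (Gn F n) k ξ * Phi (x.2.1 + k) x.2.2) * ee (x.1 * ξ + x.2.2 * ξ ^ 2) :=
    fun n => uB_eq_integral (fun k _ => cG_integrable hF n k) x
  simp_rw [hu]
  have hae : ∀ᵐ ξ : ℝ, en F ξ ≠ ∞ := by
    have h1 : ∀ᵐ ξ : ℝ, (en F ξ) ^ (1/2 : ℝ) < ∞ :=
      ae_lt_top ((measurable_en hF).pow_const _) hen
    filter_upwards [h1] with ξ hξ hc
    rw [hc, ENNReal.top_rpow_of_pos (by norm_num)] at hξ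
    exact lt_irrefl _ hξ
  refine tendsto_integral_of_dominated_convergence (fun ξ => ((en F ξ) ^ (1/2 : ℝ)).toReal) ?_ ?_ ?_ ?_
  · intro n
    apply AEStronglyMeasurable.mul
    · apply Measurable.aestronglyMeasurable
      exact Finset.measurable_fun_sum _ fun k _ =>
        (((measurable_fc hF k).indicator (measurableSet_Gn hF n))).mul_const _
    · exact (continuous_ee.comp (by fun_prop)).aestronglyMeasurable
  · exact integrable_toReal_of_lintegral_ne_top ((measurable_en hF).pow_const _).aemeasurable hen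
  · intro n
    filter_upwards [hae] with ξ hξ
    rw [norm_mul, norm_ee, mul_one]
    have h1 : ‖∑ k ∈ Sn n, cG F (Gn F n) k ξ * Phi (x.2.1 + k) x.2.2‖ₑ ≤ (en F ξ) ^ (1/2 : ℝ) := by
      refine (enorm_sum_mul_le _ _ _).trans ?_
      calc (∑ k ∈ Sn n, ‖cG F (Gn F n) k ξ‖ₑ ^ 2) ^ (1/2 : ℝ)
            * (∑ k ∈ Sn n, ‖Phi (x.2.1 + k) x.2.2‖ₑ ^ 2) ^ (1/2 : ℝ)
          ≤ (en F ξ) ^ (1/2 : ℝ) * 1 ^ (1/2 : ℝ) := by
            gcongr
            · exact sum_cG_le hF _ _ ξ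
            · exact sum_Phi_le _ _ _
        _ = _ := by simp
    have h2 : (en F ξ) ^ (1/2 : ℝ) ≠ ∞ := ENNReal.rpow_ne_top_of_nonneg (by norm_num) hξ
    rw [← toReal_enorm]
    exact ENNReal.toReal_mono h2 h1
  · filter_upwards [hae] with ξ hξ
    apply Tendsto.mul_const
    have hFs : Measurable fun y => F (ξ, y) := hF.comp (by fun_prop)
    by_cases hI : ξ ∈ Icc (0:ℝ) 1
    · have hsum := hasSum_inner hFs (hs2 ξ) hξ x.2.1 x.2.2
      have ht : Tendsto (fun n : ℕ => ∑ k ∈ Sn n, fc (fun y => F (ξ, y)) k * Phi (x.2.1 + k) x.2.2)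
          atTop (𝓝 (∫ v, F (ξ, v) * ee (x.2.1 * v + x.2.2 * v ^ 2))) := hsum.comp tendsto_Sn
      refine ht.congr' ?_
      obtain ⟨N, hN⟩ : ∃ N : ℕ, en F ξ ≤ N := by
        obtain ⟨N, hN⟩ := ENNReal.exists_nat_gt hξ
        exact ⟨N, hN.le⟩
      filter_upwards [eventually_ge_atTop (N + 1)] with n hn
      have hmem : ξ ∈ Gn F n := by
        refine ⟨hI, hN.trans ?_⟩
        have h3 : (N : ℝ≥0) ≤ (n : ℝ≥0) ^ 2 := by
          have h4 : N ≤ n ^ 2 := by nlinarith only [hn]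
          exact_mod_cast h4
        have h5 : ((N : ℝ≥0) : ℝ≥0∞) ≤ (((n : ℝ≥0) ^ 2 : ℝ≥0) : ℝ≥0∞) := ENNReal.coe_le_coe.2 h3
        simpa only [ENNReal.coe_natCast, ge_iff_le, ENNReal.coe_pow] using h5
      refine Finset.sum_congr rfl fun k _ => ?_
      simp [cG, hmem]
    · have hz : ∀ y, F (ξ, y) = 0 := fun y => hs1 ξ y hI
      have hnot : ∀ n, ξ ∉ Gn F n := fun n h => hI h.1
      simp only [cG, hnot, not_false_eq_true, indicator_of_notMem, zero_mul, Finset.sum_const_zero, hz, integral_zero, tendsto_const_nhds_iff]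

end Vale.Agent.P122
end
end

section

section

open MeasureTheory FourierTransform SchwartzMap
open scoped ENNReal

namespace Vale.Agent.P122

theorem lp_fourier_ae_eq (g : ℝ → ℂ) (h1 : Integrable g) (h2 : MemLp g 2) :
    ∀ᵐ x ∂(volume : Measure ℝ), (𝓕 (h2.toLp g : Lp ℂ 2 (volume : Measure ℝ)) : Lp ℂ 2 (volume : Measure ℝ)) x = 𝓕 g x := by
  have hcont : Continuous (𝓕 g) := by
    have := VectorFourier.fourierIntegral_continuous (𝕜 := ℝ) (V := ℝ) (W := ℝ) (E := ℂ)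
      Real.continuous_fourierChar (L := innerₗ ℝ) (μ := volume) (by
        exact continuous_inner) h1
    exact this
  apply ae_eq_of_integral_contDiff_smul_eq
  · exact (Lp.memLp _).locallyIntegrable (by norm_num)
  · exact hcont.locallyIntegrable
  · intro φ φ_smooth φ_cpt
    have hg₁ : HasCompactSupport (Complex.ofRealCLM ∘ φ) := φ_cpt.comp_left rfl
    have hg₂ : ContDiff ℝ ((⊤ : ℕ∞) : WithTop ℕ∞) (Complex.ofRealCLM ∘ φ) := Complex.ofRealCLM.contDiff.comp φ_smooth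
    set ψ : 𝓢(ℝ, ℂ) := hg₁.toSchwartzMap hg₂ with hψ
    have key := congrArg (fun T : 𝓢'(ℝ, ℂ) => T ψ)
      (MeasureTheory.Lp.fourier_toTemperedDistribution_eq (h2.toLp g : Lp ℂ 2 (volume : Measure ℝ)))
    simp only [TemperedDistribution.fourier_apply, Lp.toTemperedDistribution_apply] at key
    have e1 : ∫ x, φ x • (𝓕 (h2.toLp g : Lp ℂ 2 (volume : Measure ℝ)) : Lp ℂ 2 (volume : Measure ℝ)) x =
        ∫ x, ψ x • (𝓕 (h2.toLp g : Lp ℂ 2 (volume : Measure ℝ)) : Lp ℂ 2 (volume : Measure ℝ)) x := by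
      apply integral_congr_ae
      filter_upwards with x
      simp [hψ]
    rw [e1, ← key]
    have e2 : ∫ x, (𝓕 ψ) x • ((h2.toLp g : Lp ℂ 2 (volume : Measure ℝ)) x) = ∫ x, (𝓕 ψ) x • g x := by
      apply integral_congr_ae
      filter_upwards [h2.coeFn_toLp] with x hx
      rw [hx]
    rw [e2]
    have e3 : ∫ x, φ x • 𝓕 g x = ∫ x, ψ x • 𝓕 g x := by
      apply integral_congr_ae
      filter_upwards with x
      simp only [Complex.real_smul, hψ, HasCompactSupport.toSchwartzMap_toFun, Function.comp_apply, Complex.ofRealCLM_apply, smul_eq_mul]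
    rw [e3]
    have := VectorFourier.integral_fourierIntegral_smul_eq_flip (𝕜 := ℝ) (V := ℝ) (W := ℝ) (F := ℂ)
      (e := Real.fourierChar) (μ := volume) (ν := volume) (L := innerₗ ℝ) (f := fun x => ψ x) (g := g)
      Real.continuous_fourierChar continuous_inner ψ.integrable h1
    rw [SchwartzMap.fourier_coe]
    have hflip : (innerₗ ℝ).flip = innerₗ ℝ := by
      ext
      simp only [flip_innerₗ, innerₗ_apply_apply, inner_self_eq_norm_sq_to_K, norm_one, Real.ringHom_apply, one_pow]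
    rw [hflip] at this
    exact this

theorem lintegral_enorm_sq_fourier (g : ℝ → ℂ) (h1 : Integrable g) (h2 : MemLp g 2) :
    ∫⁻ x, ‖𝓕 g x‖ₑ ^ 2 = ∫⁻ x, ‖g x‖ₑ ^ 2 := by
  have hn : ‖(𝓕 (h2.toLp g : Lp ℂ 2 (volume : Measure ℝ)) : Lp ℂ 2 (volume : Measure ℝ))‖ₑ
      = ‖(h2.toLp g : Lp ℂ 2 (volume : Measure ℝ))‖ₑ := by
    rw [← ofReal_norm, ← ofReal_norm, Lp.norm_fourier_eq]
  have h3 : eLpNorm (𝓕 g) 2 volume = eLpNorm g 2 volume := by
    rw [Lp.enorm_def, Lp.enorm_def] at hn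
    rw [← eLpNorm_congr_ae (lp_fourier_ae_eq g h1 h2), hn]
    exact eLpNorm_congr_ae h2.coeFn_toLp
  have h4 : ∀ f : ℝ → ℂ, eLpNorm f 2 volume ^ 2 = ∫⁻ x, ‖f x‖ₑ ^ 2 := by
    intro f
    rw [eLpNorm_eq_lintegral_rpow_enorm_toReal (by norm_num) (by norm_num)]
    simp only [ENNReal.toReal_ofNat]
    rw [← ENNReal.rpow_natCast, ← ENNReal.rpow_mul]
    norm_num
  rw [← h4, ← h4, h3]

/-- Plancherel with the positive sign in the exponential. -/
theorem plancherel (g : ℝ → ℂ) (h1 : Integrable g) (h2 : MemLp g 2) :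
    ∫⁻ x : ℝ, ‖∫ ξ : ℝ, g ξ * ee (x * ξ)‖ₑ ^ 2
      = ∫⁻ ξ, ‖g ξ‖ₑ ^ 2 := by
  rw [← lintegral_enorm_sq_fourier g h1 h2]
  have h : ∀ x : ℝ, (∫ ξ : ℝ, g ξ * ee (x * ξ))
      = 𝓕 g (-x) := by
    intro x
    rw [Real.fourier_eq']
    apply integral_congr_ae
    filter_upwards with ξ
    simp only [RCLike.inner_apply, conj_trivial, smul_eq_mul]
    rw [mul_comm, ee]
    congr 2
    push_cast
    ring
  simp_rw [h]
  exact (lintegral_neg_eq_self (fun x : ℝ => ‖𝓕 g x‖ₑ ^ 2) (μ := volume))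

end Vale.Agent.P122
end
end

section

section

open MeasureTheory
open scoped ENNReal

namespace Vale.Agent.P122

theorem memLp_of_bdd_supp {α : Type*} [MeasurableSpace α] {μ : Measure α} {f : α → ℂ}
    (hf : AEStronglyMeasurable f μ) {B : ℝ} (hB : ∀ x, ‖f x‖ ≤ B) {s : Set α}
    (hs : MeasurableSet s) (hμs : μ s < ∞) (hsupp : ∀ x, x ∉ s → f x = 0) (p : ℝ≥0∞) :
    MemLp f p μ := by
  have h1 : f = s.indicator f := by
    ext x
    by_cases hx : x ∈ s
    · simp [hx]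
    · simp [hx, hsupp x hx]
  rw [h1, memLp_indicator_iff_restrict hs]
  have : IsFiniteMeasure (μ.restrict s) := ⟨by simpa only [MeasurableSet.univ, Measure.restrict_apply, Set.univ_inter] using hμs⟩
  exact MemLp.of_bound hf.restrict B (Filter.Eventually.of_forall hB)

theorem integrable_of_bdd_supp {α : Type*} [MeasurableSpace α] {μ : Measure α} {f : α → ℂ}
    (hf : AEStronglyMeasurable f μ) {B : ℝ} (hB : ∀ x, ‖f x‖ ≤ B) {s : Set α}
    (hs : MeasurableSet s) (hμs : μ s < ∞) (hsupp : ∀ x, x ∉ s → f x = 0) :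
    Integrable f μ := memLp_one_iff_integrable.mp (memLp_of_bdd_supp hf hB hs hμs hsupp 1)

/-- Bounded measurable functions supported in `[0,1]`. -/
structure Nice (c : ℝ → ℂ) : Prop where
  meas : Measurable c
  bdd : ∃ B : ℝ, ∀ ξ, ‖c ξ‖ ≤ B
  supp : ∀ ξ, ξ ∉ Set.Icc (0:ℝ) 1 → c ξ = 0

theorem Nice.mul_ee {c : ℝ → ℂ} (hc : Nice c) {φ : ℝ → ℝ} (hφ : Measurable φ) :
    Nice (fun ξ => c ξ * ee (φ ξ)) where
  meas := hc.meas.mul (continuous_ee.measurable.comp hφ)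
  bdd := by
    obtain ⟨B, hB⟩ := hc.bdd
    exact ⟨B, fun ξ => by rw [norm_mul, norm_ee, mul_one]; exact hB ξ⟩
  supp := fun ξ hξ => by rw [hc.supp ξ hξ, zero_mul]

theorem Nice.memLp {c : ℝ → ℂ} (hc : Nice c) (p : ℝ≥0∞) : MemLp c p volume := by
  obtain ⟨B, hB⟩ := hc.bdd
  exact memLp_of_bdd_supp hc.meas.aestronglyMeasurable hB measurableSet_Icc (by simp only [Real.volume_Icc, sub_zero, ENNReal.ofReal_one, ENNReal.one_lt_top]) hc.supp p

theorem Nice.integrable {c : ℝ → ℂ} (hc : Nice c) : Integrable c volume :=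
  memLp_one_iff_integrable.mp (hc.memLp 1)

theorem measurable_ext1 {c : ℝ → ℂ} (hc : Measurable c) :
    Measurable (fun p : ℝ × ℝ => ext1 c p.1 p.2) := by
  have h : StronglyMeasurable (Function.uncurry (fun (p : ℝ × ℝ) (ξ : ℝ) => c ξ * ee (p.1 * ξ + p.2 * ξ ^ 2))) := by
    apply Measurable.stronglyMeasurable
    apply Measurable.mul
    · exact hc.comp measurable_snd
    · apply continuous_ee.measurable.comp
      fun_prop
  exact h.integral_prod_right.measurable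

theorem measurable_ext1_left {c : ℝ → ℂ} (hc : Measurable c) (t : ℝ) :
    Measurable (fun x : ℝ => ext1 c x t) := by
  have h1 := measurable_ext1 hc
  have h2 : Measurable (fun x : ℝ => ((x, t) : ℝ × ℝ)) := by fun_prop
  have h3 := h1.comp h2
  exact h3

theorem ext1_eq (c : ℝ → ℂ) (x t : ℝ) :
    ext1 c x t = ∫ ξ, (c ξ * ee (t * ξ ^ 2)) * ee (x * ξ) := by
  unfold ext1
  congr 1
  ext ξ
  rw [ee_add]
  ring

theorem ext1_L2 {c : ℝ → ℂ} (hc : Nice c) (t : ℝ) :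
    ∫⁻ x, ‖ext1 c x t‖ₑ ^ 2 = ∫⁻ ξ, ‖c ξ‖ₑ ^ 2 := by
  have h := hc.mul_ee (φ := fun ξ => t * ξ ^ 2) (by fun_prop)
  simp_rw [ext1_eq]
  rw [plancherel _ h.integrable (h.memLp 2)]
  simp [enorm_mul, enorm_ee]

theorem rho_L1 {ι : Type*} (S : Finset ι) (c : ι → ℝ → ℂ) (hc : ∀ k, Nice (c k)) (t : ℝ) :
    ∫⁻ x, ∑ k ∈ S, ‖ext1 (c k) x t‖ₑ ^ 2 = ∫⁻ ξ, ∑ k ∈ S, ‖c k ξ‖ₑ ^ 2 := by
  rw [lintegral_finsetSum, lintegral_finsetSum]
  · exact Finset.sum_congr rfl fun k _ => ext1_L2 (hc k) t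
  · intro k _
    exact (hc k).meas.enorm.pow_const 2
  · intro k _
    exact (measurable_ext1_left (hc k).meas t).enorm.pow_const 2

/-- autocorrelation -/
noncomputable def corr (c : ℝ → ℂ) (t a : ℝ) : ℂ :=
  ∫ η, c (η + a) * (starRingEnd ℂ) (c η) * ee (t * (a ^ 2 + 2 * a * η))

theorem corr_kernel_meas {c : ℝ → ℂ} (hc : Measurable c) :
    Measurable (fun q : (ℝ × ℝ) × ℝ => c (q.2 + q.1.2) * (starRingEnd ℂ) (c q.2) * ee (q.1.1 * (q.1.2 ^ 2 + 2 * q.1.2 * q.2))) := by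
  apply Measurable.mul
  · apply Measurable.mul
    · exact hc.comp (by fun_prop)
    · exact (continuous_star.measurable).comp (hc.comp measurable_snd)
  · exact continuous_ee.measurable.comp (by fun_prop)

theorem corr_measurable {c : ℝ → ℂ} (hc : Measurable c) :
    Measurable (fun q : ℝ × ℝ => corr c q.1 q.2) :=
  (StronglyMeasurable.integral_prod_right (f := fun (q : ℝ × ℝ) (η : ℝ) =>
    c (η + q.2) * (starRingEnd ℂ) (c η) * ee (q.1 * (q.2 ^ 2 + 2 * q.2 * η)))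
    (corr_kernel_meas hc).stronglyMeasurable).measurable

theorem ext1_mul_conj {c : ℝ → ℂ} (hc : Nice c) (x t : ℝ) :
    ext1 c x t * (starRingEnd ℂ) (ext1 c x t) = ∫ a, corr c t a * ee (x * a) := by
  obtain ⟨B, hB⟩ := hc.bdd
  have hB0 : 0 ≤ B := (norm_nonneg _).trans (hB 0)
  have h1 : (starRingEnd ℂ) (ext1 c x t) = ∫ η, (starRingEnd ℂ) (c η) * ee (-(x * η + t * η ^ 2)) := by
    unfold ext1
    rw [← integral_conj]
    congr 1
    ext η
    rw [map_mul, ← ee_neg]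
  rw [h1, ← integral_const_mul]
  have h2 : ∀ η : ℝ, ext1 c x t * ((starRingEnd ℂ) (c η) * ee (-(x * η + t * η ^ 2)))
      = ∫ a, c (η + a) * (starRingEnd ℂ) (c η) * ee (t * (a ^ 2 + 2 * a * η)) * ee (x * a) := by
    intro η
    have h3 : ext1 c x t = ∫ a, c (η + a) * ee (x * (η + a) + t * (η + a) ^ 2) := by
      unfold ext1
      exact (integral_add_left_eq_self (fun ξ => c ξ * ee (x * ξ + t * ξ ^ 2)) η).symm
    rw [h3, ← integral_mul_const]
    congr 1
    ext a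
    have h4 : ee (x * (η + a) + t * (η + a) ^ 2) * ee (-(x * η + t * η ^ 2)) =
        ee (t * (a ^ 2 + 2 * a * η)) * ee (x * a) := by
      rw [← ee_add, ← ee_add]
      congr 1
      ring
    linear_combination (c (η + a) * (starRingEnd ℂ) (c η)) * h4
  simp_rw [h2]
  rw [integral_integral_swap]
  · congr 1
    ext a
    rw [integral_mul_const]
    rfl
  · apply integrable_of_bdd_supp (B := B * B) (s := Set.Icc (0:ℝ) 1 ×ˢ Set.Icc (-1:ℝ) 1)
    · apply Measurable.aestronglyMeasurable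
      apply Measurable.mul
      · apply Measurable.mul
        · apply Measurable.mul
          · exact hc.meas.comp (by fun_prop)
          · exact (continuous_star.measurable).comp (hc.meas.comp measurable_fst)
        · exact continuous_ee.measurable.comp (by fun_prop)
      · exact continuous_ee.measurable.comp (by fun_prop)
    · intro q
      simp only [Function.uncurry, norm_mul, norm_ee, mul_one, RCLike.norm_conj]
      gcongr
      · exact hB _
      · exact hB _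
    · exact measurableSet_Icc.prod measurableSet_Icc
    · rw [Measure.prod_prod]
      simp only [Real.volume_Icc, sub_zero, ENNReal.ofReal_one, sub_neg_eq_add, one_mul, ENNReal.ofReal_lt_top]
    · rintro ⟨η, a⟩ hq
      simp only [Function.uncurry]
      by_cases h5 : η ∈ Set.Icc (0:ℝ) 1
      · have h6 : η + a ∉ Set.Icc (0:ℝ) 1 := by
          intro h7
          apply hq
          refine ⟨h5, ?_, ?_⟩
          · have := h5.2; have := h7.1; simp only; (clear c hc x t B hB hB0 h1 h2 hq; linarith)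
          · have := h5.1; have := h7.2; simp only; linarith
        rw [hc.supp _ h6]
        simp
      · rw [hc.supp _ h5]
        simp

theorem norm_corr_le {c : ℝ → ℂ} {B : ℝ} (hc : Nice c) (hB : ∀ ξ, ‖c ξ‖ ≤ B) (t a : ℝ) :
    ‖corr c t a‖ ≤ B * B := by
  have hB0 : 0 ≤ B := (norm_nonneg _).trans (hB 0)
  have h1 : corr c t a = ∫ η in Set.Icc (0:ℝ) 1, c (η + a) * (starRingEnd ℂ) (c η) * ee (t * (a ^ 2 + 2 * a * η)) := by
    unfold corr
    symm
    apply setIntegral_eq_integral_of_forall_compl_eq_zero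
    intro η hη
    rw [hc.supp η hη]
    simp
  rw [h1]
  have h2 := norm_setIntegral_le_of_norm_le_const (μ := volume) (s := Set.Icc (0:ℝ) 1) (C := B * B)
    (f := fun η => c (η + a) * (starRingEnd ℂ) (c η) * ee (t * (a ^ 2 + 2 * a * η))) (by simp only [Real.volume_Icc, sub_zero, ENNReal.ofReal_one, ENNReal.one_lt_top]) (by
      intro η _
      rw [norm_mul, norm_mul, norm_ee, mul_one, RCLike.norm_conj]
      exact mul_le_mul (hB _) (hB _) (norm_nonneg _) hB0)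
  simpa only [ge_iff_le, Real.volume_real_Icc, sub_zero, zero_le_one, sup_of_le_left, mul_one] using h2

theorem corr_eq_zero {c : ℝ → ℂ} (hc : Nice c) (t a : ℝ) (ha : a ∉ Set.Icc (-1:ℝ) 1) :
    corr c t a = 0 := by
  unfold corr
  have : ∀ η : ℝ, c (η + a) * (starRingEnd ℂ) (c η) * ee (t * (a ^ 2 + 2 * a * η)) = 0 := by
    intro η
    by_cases h5 : η ∈ Set.Icc (0:ℝ) 1
    · have h6 : η + a ∉ Set.Icc (0:ℝ) 1 := by
        intro h7
        apply ha
        refine ⟨?_, ?_⟩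
        · have := h5.2; have := h7.1; (clear c hc t ha; linarith)
        · have := h5.1; have := h7.2; (clear c hc t ha; linarith)
      rw [hc.supp _ h6]
      simp
    · rw [hc.supp _ h5]
      simp only [map_zero, mul_zero, zero_mul]
  simp [this]

theorem corr_integrand_nice {c : ℝ → ℂ} (hc : Nice c) (a : ℝ) :
    Nice (fun η => c (η + a) * (starRingEnd ℂ) (c η)) where
  meas := (hc.meas.comp (by fun_prop)).mul ((continuous_star.measurable).comp hc.meas)
  bdd := by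
    obtain ⟨B, hB⟩ := hc.bdd
    have hB0 : 0 ≤ B := (norm_nonneg _).trans (hB 0)
    refine ⟨B * B, fun ξ => ?_⟩
    rw [norm_mul, RCLike.norm_conj]
    exact mul_le_mul (hB _) (hB _) (norm_nonneg _) hB0
  supp := by
    intro ξ hξ
    rw [hc.supp ξ hξ]
    simp

theorem Nice.finset_sum {ι : Type*} (S : Finset ι) {c : ι → ℝ → ℂ} (hc : ∀ k, Nice (c k)) :
    Nice (fun ξ => ∑ k ∈ S, c k ξ) where
  meas := Finset.measurable_fun_sum S fun k _ => (hc k).meas
  bdd := by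
    choose B hB using fun k => (hc k).bdd
    exact ⟨∑ k ∈ S, B k, fun ξ => norm_sum_le_of_le S fun k _ => hB k ξ⟩
  supp := fun ξ hξ => Finset.sum_eq_zero fun k _ => (hc k).supp ξ hξ

variable {ι : Type*}

/-- sum of autocorrelations -/
noncomputable def gsum (S : Finset ι) (c : ι → ℝ → ℂ) (t a : ℝ) : ℂ := ∑ k ∈ S, corr (c k) t a

noncomputable def kern (S : Finset ι) (c : ι → ℝ → ℂ) (a η : ℝ) : ℂ :=
  ∑ k ∈ S, c k (η + a) * (starRingEnd ℂ) (c k η)

theorem kern_nice (S : Finset ι) {c : ι → ℝ → ℂ} (hc : ∀ k, Nice (c k)) (a : ℝ) :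
    Nice (kern S c a) := Nice.finset_sum S (fun k => corr_integrand_nice (hc k) a)

theorem gsum_eq (S : Finset ι) {c : ι → ℝ → ℂ} (hc : ∀ k, Nice (c k)) (t a : ℝ) :
    gsum S c t a = ∫ η, kern S c a η * ee (t * (a ^ 2 + 2 * a * η)) := by
  unfold gsum kern
  simp_rw [Finset.sum_mul]
  rw [integral_finsetSum]
  · rfl
  · intro k _
    exact ((corr_integrand_nice (hc k) a).mul_ee (φ := fun η => t * (a ^ 2 + 2 * a * η)) (by fun_prop)).integrable

theorem gsum_measurable (S : Finset ι) {c : ι → ℝ → ℂ} (hc : ∀ k, Nice (c k)) :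
    Measurable (fun q : ℝ × ℝ => gsum S c q.1 q.2) :=
  Finset.measurable_fun_sum S fun k _ => corr_measurable (hc k).meas

theorem gsum_measurable_left (S : Finset ι) {c : ι → ℝ → ℂ} (hc : ∀ k, Nice (c k)) (t : ℝ) :
    Measurable (fun a : ℝ => gsum S c t a) := by
  have h1 := gsum_measurable S hc
  have h2 : Measurable (fun a : ℝ => ((t, a) : ℝ × ℝ)) := by fun_prop
  have h3 := h1.comp h2
  exact h3

theorem gsum_bdd (S : Finset ι) {c : ι → ℝ → ℂ} (hc : ∀ k, Nice (c k)) :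
    ∃ B : ℝ, ∀ t a, ‖gsum S c t a‖ ≤ B := by
  choose B hB using fun k => (hc k).bdd
  exact ⟨∑ k ∈ S, B k * B k, fun t a => norm_sum_le_of_le S fun k _ => norm_corr_le (hc k) (hB k) t a⟩

theorem gsum_memLp (S : Finset ι) {c : ι → ℝ → ℂ} (hc : ∀ k, Nice (c k)) (t : ℝ) (p : ℝ≥0∞) :
    MemLp (fun a => gsum S c t a) p volume := by
  obtain ⟨B, hB⟩ := gsum_bdd S hc
  refine memLp_of_bdd_supp (gsum_measurable_left S hc t).aestronglyMeasurable (hB t)
    (s := Set.Icc (-1:ℝ) 1) measurableSet_Icc (by simp only [Real.volume_Icc, sub_neg_eq_add, ENNReal.ofReal_lt_top]) ?_ p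
  intro a ha
  exact Finset.sum_eq_zero fun k _ => corr_eq_zero (hc k) t a ha

theorem corr_mul_ee_integrable {c : ℝ → ℂ} (hc : Nice c) (x t : ℝ) :
    Integrable (fun a => corr c t a * ee (x * a)) := by
  obtain ⟨B, hB⟩ := hc.bdd
  have h2 : Measurable (fun a : ℝ => ((t, a) : ℝ × ℝ)) := by fun_prop
  have h3 : Measurable (fun a : ℝ => corr c t a) := (corr_measurable hc.meas).comp h2
  apply integrable_of_bdd_supp (B := B * B) (s := Set.Icc (-1:ℝ) 1)
  · exact (h3.mul (continuous_ee.measurable.comp (by fun_prop))).aestronglyMeasurable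
  · intro a
    rw [norm_mul, norm_ee, mul_one]
    exact norm_corr_le hc hB t a
  · exact measurableSet_Icc
  · simp only [Real.volume_Icc, sub_neg_eq_add, ENNReal.ofReal_lt_top]
  · intro a ha
    rw [corr_eq_zero hc t a ha, zero_mul]

theorem sum_ext1_sq (S : Finset ι) {c : ι → ℝ → ℂ} (hc : ∀ k, Nice (c k)) (x t : ℝ) :
    ∑ k ∈ S, ‖ext1 (c k) x t‖ₑ ^ 2 = ‖∫ a, gsum S c t a * ee (x * a)‖ₑ := by
  have h1 : ∫ a, gsum S c t a * ee (x * a) = ∑ k ∈ S, ext1 (c k) x t * (starRingEnd ℂ) (ext1 (c k) x t) := by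
    unfold gsum
    simp_rw [Finset.sum_mul]
    rw [integral_finsetSum]
    · exact Finset.sum_congr rfl fun k _ => (ext1_mul_conj (hc k) x t).symm
    · exact fun k _ => corr_mul_ee_integrable (hc k) x t
  have h2 : ∀ z : ℂ, z * (starRingEnd ℂ) z = ((‖z‖ ^ 2 : ℝ) : ℂ) := by
    intro z
    rw [Complex.mul_conj, Complex.normSq_eq_norm_sq]
  rw [h1]
  simp_rw [h2]
  rw [← Complex.ofReal_sum, ← ofReal_norm, Complex.norm_real, Real.norm_of_nonneg (by positivity),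
    ENNReal.ofReal_sum_of_nonneg (fun _ _ => by positivity)]
  refine Finset.sum_congr rfl fun k _ => ?_
  rw [← ofReal_norm, ENNReal.ofReal_pow (norm_nonneg _)]

theorem rho_sq_eq (S : Finset ι) {c : ι → ℝ → ℂ} (hc : ∀ k, Nice (c k)) (t : ℝ) :
    ∫⁻ x, (∑ k ∈ S, ‖ext1 (c k) x t‖ₑ ^ 2) ^ 2 = ∫⁻ a, ‖gsum S c t a‖ₑ ^ 2 := by
  simp_rw [sum_ext1_sq S hc]
  exact plancherel _ (memLp_one_iff_integrable.mp (gsum_memLp S hc t 1)) (gsum_memLp S hc t 2)

theorem lintegral_comp_mul_left' {a : ℝ} (ha : a ≠ 0) {f : ℝ → ℝ≥0∞} (hf : Measurable f) :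
    ∫⁻ t, f (a * t) = ENNReal.ofReal |a⁻¹| * ∫⁻ t, f t := by
  rw [← lintegral_map hf (measurable_const_mul a), Real.map_volume_mul_left ha, lintegral_smul_measure]
  rfl

/-- Fourier transform of a nice function -/
theorem measurable_ft {c : ℝ → ℂ} (hc : Measurable c) :
    Measurable (fun τ : ℝ => ∫ η, c η * ee (τ * η)) := by
  have h : StronglyMeasurable (Function.uncurry (fun (τ : ℝ) (ξ : ℝ) => c ξ * ee (τ * ξ))) := by
    apply Measurable.stronglyMeasurable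
    apply Measurable.mul
    · exact hc.comp measurable_snd
    · exact continuous_ee.measurable.comp (by fun_prop)
  exact h.integral_prod_right.measurable

theorem gsum_eq' (S : Finset ι) {c : ι → ℝ → ℂ} (hc : ∀ k, Nice (c k)) (t a : ℝ) :
    gsum S c t a = ee (t * a ^ 2) * ∫ η, kern S c a η * ee (((2 * a) * t) * η) := by
  rw [gsum_eq S hc, ← integral_const_mul]
  congr 1
  ext η
  have : ee (t * (a ^ 2 + 2 * a * η)) = ee (t * a ^ 2) * ee (((2 * a) * t) * η) := by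
    rw [← ee_add]
    congr 1
    ring
  rw [this]
  ring

theorem gsum_sq_integral (S : Finset ι) {c : ι → ℝ → ℂ} (hc : ∀ k, Nice (c k)) {a : ℝ} (ha : a ≠ 0) :
    ∫⁻ t, ‖gsum S c t a‖ₑ ^ 2 = ENNReal.ofReal |(2 * a)⁻¹| * ∫⁻ η, ‖kern S c a η‖ₑ ^ 2 := by
  have hk := kern_nice S hc a
  simp_rw [gsum_eq' S hc, enorm_mul, enorm_ee, one_mul]
  rw [lintegral_comp_mul_left' (a := 2 * a) (by simpa using ha)
    (f := fun τ => ‖∫ η, kern S c a η * ee (τ * η)‖ₑ ^ 2) ((measurable_ft hk.meas).enorm.pow_const 2)]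
  rw [plancherel _ hk.integrable (hk.memLp 2)]

theorem sq_lintegral_le {f : ℝ → ℝ≥0∞} (hf : Measurable f) (hs : ∀ ξ, ξ ∉ Set.Icc (0:ℝ) 1 → f ξ = 0) :
    (∫⁻ ξ, f ξ) ^ 2 ≤ ∫⁻ ξ, f ξ ^ 2 := by
  have h1 : ∀ ξ, f ξ = (f ξ ^ 2) ^ (1/2 : ℝ) * ((Set.Icc (0:ℝ) 1).indicator 1 ξ) ^ (1/2 : ℝ) := by
    intro ξ
    by_cases hξ : ξ ∈ Set.Icc (0:ℝ) 1
    · simp only [Set.indicator_of_mem hξ, Pi.one_apply, ENNReal.one_rpow, mul_one]
      rw [← ENNReal.rpow_natCast, ← ENNReal.rpow_mul]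
      norm_num
    · rw [hs ξ hξ]
      simp only [ne_eq, OfNat.ofNat_ne_zero, not_false_eq_true, zero_pow, one_div, inv_pos, Nat.ofNat_pos, ENNReal.zero_rpow_of_pos, zero_mul]
  have h2 := ENNReal.lintegral_mul_norm_pow_le (μ := (volume : Measure ℝ)) (f := fun ξ => f ξ ^ 2)
    (g := (Set.Icc (0:ℝ) 1).indicator 1) (hf.pow_const 2).aemeasurable
    ((measurable_one.indicator measurableSet_Icc).aemeasurable) (p := 1/2) (q := 1/2)
    (by norm_num) (by norm_num) (by norm_num)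
  simp_rw [← h1] at h2
  rw [lintegral_indicator_one measurableSet_Icc] at h2
  simp only [Real.volume_Icc, sub_zero, ENNReal.ofReal_one, ENNReal.one_rpow, mul_one] at h2
  calc (∫⁻ ξ, f ξ) ^ 2 ≤ ((∫⁻ ξ, f ξ ^ 2) ^ (1/2 : ℝ)) ^ 2 := by gcongr
    _ = ∫⁻ ξ, f ξ ^ 2 := by
      rw [← ENNReal.rpow_natCast, ← ENNReal.rpow_mul]
      norm_num

theorem gsum_sq_le (S : Finset ι) {c : ι → ℝ → ℂ} (hc : ∀ k, Nice (c k)) (t a : ℝ) :
    ‖gsum S c t a‖ₑ ^ 2 ≤ ∫⁻ η, ‖kern S c a η‖ₑ ^ 2 := by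
  have hk := kern_nice S hc a
  rw [gsum_eq S hc]
  calc _ ≤ (∫⁻ η, ‖kern S c a η * ee (t * (a ^ 2 + 2 * a * η))‖ₑ) ^ 2 := by
        gcongr
        exact enorm_integral_le_lintegral_enorm _
    _ = (∫⁻ η, ‖kern S c a η‖ₑ) ^ 2 := by simp only [enorm_mul, enorm_ee, mul_one]
    _ ≤ _ := by
        apply sq_lintegral_le hk.meas.enorm
        intro ξ hξ
        rw [hk.supp ξ hξ]
        simp

/-- pointwise Cauchy-Schwarz -/
theorem kern_sq_le (S : Finset ι) (c : ι → ℝ → ℂ) (a η : ℝ) :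
    ‖kern S c a η‖ₑ ^ 2 ≤ (∑ k ∈ S, ‖c k (η + a)‖ₑ ^ 2) * (∑ k ∈ S, ‖c k η‖ₑ ^ 2) := by
  have h1 : ‖kern S c a η‖ ≤ ∑ k ∈ S, ‖c k (η + a)‖ * ‖c k η‖ := by
    unfold kern
    refine norm_sum_le_of_le S fun k _ => ?_
    rw [norm_mul, RCLike.norm_conj]
  have h2 : ‖kern S c a η‖ ^ 2 ≤ (∑ k ∈ S, ‖c k (η + a)‖ ^ 2) * (∑ k ∈ S, ‖c k η‖ ^ 2) :=
    (pow_le_pow_left₀ (norm_nonneg _) h1 2).trans (Finset.sum_mul_sq_le_sq_mul_sq _ _ _)
  have h3 : ∀ z : ℂ, ‖z‖ₑ ^ 2 = ENNReal.ofReal (‖z‖ ^ 2) := by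
    intro z
    rw [ENNReal.ofReal_pow (norm_nonneg _), ofReal_norm]
  simp_rw [h3]
  rw [← ENNReal.ofReal_sum_of_nonneg (fun _ _ => by positivity),
    ← ENNReal.ofReal_sum_of_nonneg (fun _ _ => by positivity), ← ENNReal.ofReal_mul (by positivity)]
  exact ENNReal.ofReal_le_ofReal h2

theorem kappa_le (S : Finset ι) {c : ι → ℝ → ℂ} (hc : ∀ k, Nice (c k)) (a : ℝ) :
    ∫⁻ η, ‖kern S c a η‖ₑ ^ 2 ≤ ∫⁻ η, (∑ k ∈ S, ‖c k η‖ₑ ^ 2) ^ 2 := by
  set N : ℝ → ℝ≥0∞ := fun η => ∑ k ∈ S, ‖c k η‖ₑ ^ 2 with hN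
  have hNm : Measurable N := Finset.measurable_fun_sum S fun k _ => (hc k).meas.enorm.pow_const 2
  have h1 : ∀ η, ‖kern S c a η‖ₑ ^ 2 ≤ (N (η + a) ^ 2) ^ (1/2 : ℝ) * (N η ^ 2) ^ (1/2 : ℝ) := by
    intro η
    have h2 := kern_sq_le S c a η
    have h3 : ∀ y : ℝ≥0∞, (y ^ 2) ^ (1/2 : ℝ) = y := by
      intro y
      rw [← ENNReal.rpow_natCast, ← ENNReal.rpow_mul]
      norm_num
    rw [h3, h3]
    exact h2
  calc _ ≤ ∫⁻ η, (N (η + a) ^ 2) ^ (1/2 : ℝ) * (N η ^ 2) ^ (1/2 : ℝ) := lintegral_mono h1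
    _ ≤ (∫⁻ η, N (η + a) ^ 2) ^ (1/2 : ℝ) * (∫⁻ η, N η ^ 2) ^ (1/2 : ℝ) := by
        apply ENNReal.lintegral_mul_norm_pow_le
        · exact ((hNm.comp (measurable_add_const a)).pow_const 2).aemeasurable
        · exact (hNm.pow_const 2).aemeasurable
        · norm_num
        · norm_num
        · norm_num
    _ = ∫⁻ η, N η ^ 2 := by
        rw [lintegral_add_right_eq_self (fun η => N η ^ 2) a, ← ENNReal.rpow_add_of_nonneg _ _ (by norm_num) (by norm_num)]
        norm_num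

theorem kern_eq_zero (S : Finset ι) {c : ι → ℝ → ℂ} (hc : ∀ k, Nice (c k)) {a : ℝ}
    (ha : a ∉ Set.Icc (-1:ℝ) 1) (η : ℝ) : kern S c a η = 0 := by
  unfold kern
  refine Finset.sum_eq_zero fun k _ => ?_
  by_cases h5 : η ∈ Set.Icc (0:ℝ) 1
  · have h6 : η + a ∉ Set.Icc (0:ℝ) 1 := by
      intro h7
      apply ha
      refine ⟨?_, ?_⟩
      · have := h5.2; have := h7.1; (clear c hc ha; linarith)
      · have := h5.1; have := h7.2; (clear c hc ha; linarith)
    rw [(hc k).supp _ h6]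
    simp
  · rw [(hc k).supp _ h5]
    simp

theorem weight_hoelder {θ : ℝ} (h0 : 0 < θ) (h1 : θ < 1) {G : ℝ → ℝ≥0∞} (hG : Measurable G)
    {κ : ℝ≥0∞} {b : ℝ≥0∞} (hb : ∀ t, G t ≤ κ) (hint : ∫⁻ t, G t ≤ b * κ) :
    ∫⁻ t : ℝ, ENNReal.ofReal ((1 + ‖t‖) ^ (-(2 * θ))) * G t
      ≤ (∫⁻ t : ℝ, ENNReal.ofReal ((1 + ‖t‖) ^ (-(2:ℝ)))) ^ θ * b ^ (1 - θ) * κ := by
  set W : ℝ → ℝ≥0∞ := fun t => ENNReal.ofReal ((1 + ‖t‖) ^ (-(2:ℝ))) with hW
  have hWm : Measurable W := by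
    apply ENNReal.measurable_ofReal.comp
    fun_prop
  have e1 : ∀ t : ℝ, ENNReal.ofReal ((1 + ‖t‖) ^ (-(2 * θ))) * G t
      = (W t * G t) ^ θ * (G t) ^ (1 - θ) := by
    intro t
    have hpos : 0 < 1 + ‖t‖ := by (clear * -; positivity)
    rw [ENNReal.mul_rpow_of_nonneg _ _ h0.le, mul_assoc, ← ENNReal.rpow_add_of_nonneg _ _ h0.le (by linarith only [h1])]
    congr 1
    · simp only [hW]
      rw [ENNReal.ofReal_rpow_of_pos (by positivity), ← Real.rpow_mul hpos.le]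
      congr 2
      ring
    · simp
  simp_rw [e1]
  calc _ ≤ (∫⁻ t, W t * G t) ^ θ * (∫⁻ t, G t) ^ (1 - θ) := by
        apply ENNReal.lintegral_mul_norm_pow_le
        · exact (hWm.mul hG).aemeasurable
        · exact hG.aemeasurable
        · exact h0.le
        · linarith only [h1]
        · ring
    _ ≤ (∫⁻ t, W t * κ) ^ θ * (b * κ) ^ (1 - θ) := by
        gcongr with t
        exact hb t
    _ = (∫⁻ t, W t) ^ θ * b ^ (1 - θ) * κ := by
        rw [lintegral_mul_const _ hWm, ENNReal.mul_rpow_of_nonneg _ _ h0.le,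
          ENNReal.mul_rpow_of_nonneg _ _ (by linarith only [h1] : 0 ≤ 1 - θ)]
        have : κ = κ ^ θ * κ ^ (1 - θ) := by
          rw [← ENNReal.rpow_add_of_nonneg _ _ h0.le (by linarith only [h1])]
          simp
        calc _ = (∫⁻ t, W t) ^ θ * b ^ (1 - θ) * (κ ^ θ * κ ^ (1 - θ)) := by ring
          _ = _ := by rw [← this]

theorem lintegral_abs_rpow_lt_top {θ : ℝ} (h0 : 0 < θ) (h1 : θ < 1) :
    ∫⁻ a in Set.Icc (-1:ℝ) 1, (ENNReal.ofReal |(2 * a)⁻¹|) ^ (1 - θ) < ∞ := by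
  have hpos : IntervalIntegrable (fun x : ℝ => |(2 * x)⁻¹| ^ (1 - θ)) volume 0 1 := by
    have h2 : IntervalIntegrable (fun x : ℝ => (2:ℝ) ^ (-(1 - θ)) * x ^ (-(1 - θ))) volume 0 1 :=
      (intervalIntegral.intervalIntegrable_rpow' (by linarith)).const_mul _
    refine h2.congr ?_
    rw [Set.uIoc_of_le (by norm_num)]
    intro x hx
    have hx0 : 0 < x := hx.1
    simp only
    rw [abs_of_pos (by positivity), Real.inv_rpow (by positivity), ← Real.rpow_neg (by positivity),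
      Real.mul_rpow (by norm_num) hx0.le]
  have hneg : IntervalIntegrable (fun x : ℝ => |(2 * x)⁻¹| ^ (1 - θ)) volume (-1) 0 := by
    have h3 := (IntervalIntegrable.iff_comp_neg (f := fun x : ℝ => |(2 * x)⁻¹| ^ (1 - θ)) (a := 0) (b := 1)).mp hpos
    simp only [neg_zero] at h3
    have h4 : (fun x : ℝ => |(2 * -x)⁻¹| ^ (1 - θ)) = (fun x : ℝ => |(2 * x)⁻¹| ^ (1 - θ)) := by
      ext x
      congr 1
      rw [mul_neg, inv_neg, abs_neg]
    rw [h4] at h3
    exact h3.symm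
  have h5 := hneg.trans hpos
  rw [intervalIntegrable_iff_integrableOn_Icc_of_le (by norm_num)] at h5
  have h6 := h5.2
  rw [hasFiniteIntegral_iff_enorm] at h6
  refine lt_of_le_of_lt (lintegral_mono fun a => ?_) h6
  rw [ENNReal.ofReal_rpow_of_nonneg (abs_nonneg _) (by linarith only [h1])]
  exact Real.ofReal_le_enorm _

/-- The weighted `L²` estimate for `ρ = ∑ |ext1 c_k|²`. -/
theorem rho_L2 {θ : ℝ} (h0 : 0 < θ) (h1 : θ < 1) : ∃ C : ℝ≥0∞, C ≠ ∞ ∧ ∀ (S : Finset ι) (c : ι → ℝ → ℂ),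
    (∀ k, Nice (c k)) →
    ∫⁻ t : ℝ, ENNReal.ofReal ((1 + ‖t‖) ^ (-(2 * θ))) * ∫⁻ x, (∑ k ∈ S, ‖ext1 (c k) x t‖ₑ ^ 2) ^ 2
      ≤ C * ∫⁻ ξ, (∑ k ∈ S, ‖c k ξ‖ₑ ^ 2) ^ 2 := by
  set W : ℝ → ℝ≥0∞ := fun t => ENNReal.ofReal ((1 + ‖t‖) ^ (-(2:ℝ))) with hW
  have hWfin : ∫⁻ t, W t < ∞ := by
    apply finite_integral_one_add_norm
    simp
  refine ⟨(∫⁻ t, W t) ^ θ * ∫⁻ a in Set.Icc (-1:ℝ) 1, (ENNReal.ofReal |(2 * a)⁻¹|) ^ (1 - θ), ?_, ?_⟩
  · apply ENNReal.mul_ne_top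
    · exact ENNReal.rpow_ne_top_of_nonneg h0.le hWfin.ne
    · exact (lintegral_abs_rpow_lt_top h0 h1).ne
  intro S c hc
  set N4 : ℝ≥0∞ := ∫⁻ ξ, (∑ k ∈ S, ‖c k ξ‖ₑ ^ 2) ^ 2 with hN4
  have hwm : Measurable (fun t : ℝ => ENNReal.ofReal ((1 + ‖t‖) ^ (-(2 * θ)))) := by
    apply ENNReal.measurable_ofReal.comp
    fun_prop
  have hgm := gsum_measurable S hc
  have e1 : ∀ t : ℝ, ENNReal.ofReal ((1 + ‖t‖) ^ (-(2 * θ))) * ∫⁻ x, (∑ k ∈ S, ‖ext1 (c k) x t‖ₑ ^ 2) ^ 2
      = ∫⁻ a, ENNReal.ofReal ((1 + ‖t‖) ^ (-(2 * θ))) * ‖gsum S c t a‖ₑ ^ 2 := by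
    intro t
    rw [rho_sq_eq S hc, lintegral_const_mul]
    exact (gsum_measurable_left S hc t).enorm.pow_const 2
  simp_rw [e1]
  rw [lintegral_lintegral_swap]
  swap
  · apply Measurable.aemeasurable
    exact (hwm.comp measurable_fst).mul (hgm.enorm.pow_const 2)
  have e2 : ∀ a : ℝ, a ≠ 0 → ∫⁻ t : ℝ, ENNReal.ofReal ((1 + ‖t‖) ^ (-(2 * θ))) * ‖gsum S c t a‖ₑ ^ 2
      ≤ (Set.Icc (-1:ℝ) 1).indicator (fun a => (∫⁻ t, W t) ^ θ * (ENNReal.ofReal |(2 * a)⁻¹|) ^ (1 - θ) * N4) a := by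
    intro a ha
    by_cases haI : a ∈ Set.Icc (-1:ℝ) 1
    · rw [Set.indicator_of_mem haI]
      refine (weight_hoelder h0 h1 (G := fun t => ‖gsum S c t a‖ₑ ^ 2) ?_ (κ := ∫⁻ η, ‖kern S c a η‖ₑ ^ 2)
        (b := ENNReal.ofReal |(2 * a)⁻¹|) ?_ ?_).trans ?_
      · have h2 : Measurable (fun t : ℝ => ((t, a) : ℝ × ℝ)) := by fun_prop
        have h3 := hgm.comp h2
        exact h3.enorm.pow_const 2
      · exact fun t => gsum_sq_le S hc t a
      · exact (gsum_sq_integral S hc ha).le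
      · gcongr
        exact kappa_le S hc a
    · rw [Set.indicator_of_notMem haI]
      have h4 : ∀ t, gsum S c t a = 0 := by
        intro t
        rw [gsum_eq S hc]
        simp [kern_eq_zero S hc haI]
      simp only [Real.norm_eq_abs, h4, enorm_zero, ne_eq, OfNat.ofNat_ne_zero, not_false_eq_true, zero_pow, mul_zero, lintegral_const, measure_univ_of_isAddLeftInvariant, zero_mul, Std.le_refl]
  calc _ ≤ ∫⁻ a, (Set.Icc (-1:ℝ) 1).indicator (fun a => (∫⁻ t, W t) ^ θ * (ENNReal.ofReal |(2 * a)⁻¹|) ^ (1 - θ) * N4) a := by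
        apply lintegral_mono_ae
        have h5 : ∀ᵐ a : ℝ, a ≠ 0 := by
          rw [ae_iff]
          simp
        filter_upwards [h5] with a ha
        exact e2 a ha
    _ = _ := by
        rw [lintegral_indicator measurableSet_Icc]
        have hm : Measurable (fun a : ℝ => (ENNReal.ofReal |(2 * a)⁻¹|) ^ (1 - θ)) := by
          apply Measurable.pow_const
          apply ENNReal.measurable_ofReal.comp
          (clear * -; fun_prop)
        rw [lintegral_mul_const _ (hm.const_mul _), lintegral_const_mul _ hm]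

end Vale.Agent.P122
end
end

section

section

open MeasureTheory

namespace Vale.Agent.P122

theorem hasDerivAt_e_sq (t x : ℝ) :
    HasDerivAt (fun x : ℝ => ee (t * x ^ 2)) ((4 * Real.pi * t * x : ℝ) * Complex.I * ee (t * x ^ 2)) x := by
  unfold ee
  have h1 : HasDerivAt (fun x : ℝ => (2 * Real.pi * Complex.I * ((t * x ^ 2 : ℝ) : ℂ) : ℂ))
      ((4 * Real.pi * t * x : ℝ) * Complex.I) x := by
    have h2 : HasDerivAt (fun x : ℝ => t * x ^ 2) (t * (2 * x)) x := by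
      simpa only [Nat.cast_ofNat, Nat.add_one_sub_one, pow_one] using (hasDerivAt_pow 2 x).const_mul t
    have h3 := h2.ofReal_comp.const_mul (2 * Real.pi * Complex.I : ℂ)
    refine h3.congr_deriv ?_
    push_cast
    ring
  exact h1.cexp.congr_deriv (mul_comm _ _)

/-- integration by parts bound: for `0 < a ≤ b`, `|∫_a^b e(t x^2) dx| ≤ 1/(2π|t| a)`. -/
theorem norm_integral_e_sq_le {t a b : ℝ} (ht : 0 < t) (ha : 0 < a) (hab : a ≤ b) :
    ‖∫ x in a..b, ee (t * x ^ 2)‖ ≤ 1 / (2 * Real.pi * t * a) := by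
  have hpi := Real.pi_pos
  have hb : 0 < b := ha.trans_le hab
  set F : ℝ → ℂ := fun x => ee (t * x ^ 2) * (((4 * Real.pi * t * x)⁻¹ : ℝ) : ℂ) * (-Complex.I) with hF
  have hpos : ∀ x ∈ Set.uIcc a b, 0 < x := by
    intro x hx
    rw [Set.uIcc_of_le hab] at hx
    exact ha.trans_le hx.1
  have hder : ∀ x ∈ Set.uIcc a b, HasDerivAt F
      (ee (t * x ^ 2) + ee (t * x ^ 2) * ((-(4 * Real.pi * t) * ((4 * Real.pi * t * x)⁻¹)^2 : ℝ) : ℂ) * (-Complex.I)) x := by
    intro x hx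
    have hx0 := hpos x hx
    have hne : (4 * Real.pi * t * x) ≠ 0 := by positivity
    have h1 : HasDerivAt (fun x : ℝ => (4 * Real.pi * t * x)⁻¹) (-(4 * Real.pi * t) * ((4 * Real.pi * t * x)⁻¹)^2) x := by
      have h0 : HasDerivAt (fun x : ℝ => 4 * Real.pi * t * x) (4 * Real.pi * t) x := by
        simpa using (hasDerivAt_id x).const_mul (4 * Real.pi * t)
      refine (h0.inv hne).congr_deriv ?_
      rw [inv_pow, div_eq_mul_inv]
    have h2 := ((hasDerivAt_e_sq t x).mul h1.ofReal_comp).mul_const (-Complex.I)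
    refine h2.congr_deriv ?_
    have h3 : ((4 * Real.pi * t * x : ℝ) : ℂ) * (((4 * Real.pi * t * x)⁻¹ : ℝ) : ℂ) = 1 := by
      rw [← Complex.ofReal_mul, mul_inv_cancel₀ hne, Complex.ofReal_one]
    have h4 : ((4 * Real.pi * t * x : ℝ) : ℂ) * Complex.I * ee (t * x ^ 2) * (((4 * Real.pi * t * x)⁻¹ : ℝ) : ℂ) * (-Complex.I)
        = ee (t * x ^ 2) := by
      have : ((4 * Real.pi * t * x : ℝ) : ℂ) * Complex.I * ee (t * x ^ 2) * (((4 * Real.pi * t * x)⁻¹ : ℝ) : ℂ) * (-Complex.I)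
        = (((4 * Real.pi * t * x : ℝ) : ℂ) * (((4 * Real.pi * t * x)⁻¹ : ℝ) : ℂ)) * ee (t * x ^ 2) * (-(Complex.I * Complex.I)) := by ring
      rw [this, h3, Complex.I_mul_I]; ring
    rw [add_mul, h4]
  have hcont1 : ContinuousOn (fun x : ℝ => ee (t * x ^ 2)) (Set.uIcc a b) := by
    apply Continuous.continuousOn
    exact continuous_ee.comp (by fun_prop)
  have hcont2 : ContinuousOn (fun x : ℝ => ee (t * x ^ 2) * ((-(4 * Real.pi * t) * ((4 * Real.pi * t * x)⁻¹)^2 : ℝ) : ℂ) * (-Complex.I)) (Set.uIcc a b) := by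
    apply ContinuousOn.mul _ continuousOn_const
    apply hcont1.mul
    apply Complex.continuous_ofReal.comp_continuousOn
    apply ContinuousOn.mul continuousOn_const
    apply ContinuousOn.pow
    apply ContinuousOn.inv₀ (by fun_prop)
    intro x hx
    have := hpos x hx
    (clear * - ht this; positivity)
  have hint1 : IntervalIntegrable _ volume a b := hcont1.intervalIntegrable
  have hint2 : IntervalIntegrable _ volume a b := hcont2.intervalIntegrable
  have hFTC := intervalIntegral.integral_eq_sub_of_hasDerivAt hder (hint1.add hint2)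
  rw [intervalIntegral.integral_add hint1 hint2] at hFTC
  have hGder : ∀ x ∈ Set.uIcc a b, HasDerivAt (fun x : ℝ => -(4 * Real.pi * t * x)⁻¹)
      ((4 * Real.pi * t) * ((4 * Real.pi * t * x)⁻¹)^2) x := by
    intro x hx
    have hx0 := hpos x hx
    have hne : (4 * Real.pi * t * x) ≠ 0 := by (clear * - ht hx0; positivity)
    have h0 : HasDerivAt (fun x : ℝ => 4 * Real.pi * t * x) (4 * Real.pi * t) x := by
      simpa only [id_eq, mul_one] using (hasDerivAt_id x).const_mul (4 * Real.pi * t)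
    refine (h0.inv hne).neg.congr_deriv ?_
    rw [inv_pow, div_eq_mul_inv]
    ring
  have hcont3 : ContinuousOn (fun x : ℝ => (4 * Real.pi * t) * ((4 * Real.pi * t * x)⁻¹)^2) (Set.uIcc a b) := by
    apply ContinuousOn.mul continuousOn_const
    apply ContinuousOn.pow
    apply ContinuousOn.inv₀ (by fun_prop)
    intro x hx
    have := hpos x hx
    (clear * - ht this; positivity)
  have hGFTC := intervalIntegral.integral_eq_sub_of_hasDerivAt hGder hcont3.intervalIntegrable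
  have hbound : ‖∫ x in a..b, ee (t * x ^ 2) * ((-(4 * Real.pi * t) * ((4 * Real.pi * t * x)⁻¹)^2 : ℝ) : ℂ) * (-Complex.I)‖
      ≤ ∫ x in a..b, (4 * Real.pi * t) * ((4 * Real.pi * t * x)⁻¹)^2 := by
    apply intervalIntegral.norm_integral_le_of_norm_le hab
    · filter_upwards with x hx
      rw [norm_mul, norm_mul, norm_ee, norm_neg, Complex.norm_I, Complex.norm_real, one_mul, mul_one,
        Real.norm_eq_abs, neg_mul, abs_neg, abs_of_nonneg (by (clear * - ht; positivity))]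
    · exact hcont3.intervalIntegrable
  have hnF : ∀ x, 0 < x → ‖F x‖ = (4 * Real.pi * t * x)⁻¹ := by
    intro x hx
    simp only [hF]
    rw [norm_mul, norm_mul, norm_ee, norm_neg, Complex.norm_I, Complex.norm_real, one_mul, mul_one,
        Real.norm_eq_abs, abs_of_nonneg (by positivity)]
  have heq : ∫ x in a..b, ee (t * x ^ 2) = F b - F a - ∫ x in a..b, ee (t * x ^ 2) * ((-(4 * Real.pi * t) * ((4 * Real.pi * t * x)⁻¹)^2 : ℝ) : ℂ) * (-Complex.I) := by
    rw [← hFTC]; ring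
  rw [heq]
  calc _ ≤ ‖F b - F a‖ + ‖∫ x in a..b, ee (t * x ^ 2) * ((-(4 * Real.pi * t) * ((4 * Real.pi * t * x)⁻¹)^2 : ℝ) : ℂ) * (-Complex.I)‖ := norm_sub_le _ _
    _ ≤ (‖F b‖ + ‖F a‖) + (-(4 * Real.pi * t * b)⁻¹ - -(4 * Real.pi * t * a)⁻¹) := by
        gcongr
        · exact norm_sub_le _ _
        · exact hbound.trans hGFTC.le
    _ = 1 / (2 * Real.pi * t * a) := by
        rw [hnF b hb, hnF a ha]
        field_simp
        ring

/-- for `t > 0`, `|∫_0^L e(t x^2) dx| ≤ 2/√t`. -/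
theorem norm_integral_e_sq_zero_le {t L : ℝ} (ht : 0 < t) (hL : 0 ≤ L) :
    ‖∫ x in (0:ℝ)..L, ee (t * x ^ 2)‖ ≤ 2 / Real.sqrt t := by
  have hs : 0 < Real.sqrt t := Real.sqrt_pos.mpr ht
  have hint : ∀ a b : ℝ, IntervalIntegrable (fun x : ℝ => ee (t * x ^ 2)) volume a b := by
    intro a b
    exact (continuous_ee.comp (by fun_prop)).intervalIntegrable _ _
  have htriv : ∀ a b : ℝ, a ≤ b → ‖∫ x in a..b, ee (t * x ^ 2)‖ ≤ b - a := by
    intro a b hab
    have := intervalIntegral.norm_integral_le_of_norm_le_const (a := a) (b := b) (C := 1)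
      (f := fun x : ℝ => ee (t * x ^ 2)) (fun x _ => (norm_ee _).le)
    rw [abs_of_nonneg (by linarith), one_mul] at this
    exact this
  rcases le_total L (1 / Real.sqrt t) with h | h
  · calc _ ≤ L - 0 := htriv 0 L hL
      _ ≤ 1 / Real.sqrt t := by linarith only [h]
      _ ≤ 2 / Real.sqrt t := by gcongr; norm_num
  · have hpos : 0 < 1 / Real.sqrt t := by positivity
    rw [← intervalIntegral.integral_add_adjacent_intervals (hint 0 (1 / Real.sqrt t)) (hint _ L)]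
    calc _ ≤ _ := norm_add_le _ _
      _ ≤ (1 / Real.sqrt t - 0) + 1 / (2 * Real.pi * t * (1 / Real.sqrt t)) := by
          gcongr
          · exact htriv _ _ hpos.le
          · exact norm_integral_e_sq_le ht hpos h
      _ ≤ 1 / Real.sqrt t + 1 / Real.sqrt t := by
          have h1 : 2 * Real.pi * t * (1 / Real.sqrt t) = (2 * Real.pi) * Real.sqrt t := by
            have : t = Real.sqrt t * Real.sqrt t := (Real.mul_self_sqrt ht.le).symm
            field_simp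
            nlinarith only [this]
          rw [h1, sub_zero]
          gcongr
          have := Real.pi_gt_three
          nlinarith only [hs, this]
      _ = 2 / Real.sqrt t := by ring

theorem norm_integral_e_sq_le' {t : ℝ} (ht : 0 < t) (a b : ℝ) :
    ‖∫ x in a..b, ee (t * x ^ 2)‖ ≤ 4 / Real.sqrt t := by
  have hint : ∀ a b : ℝ, IntervalIntegrable (fun x : ℝ => ee (t * x ^ 2)) volume a b := by
    intro a b
    exact (continuous_ee.comp (by fun_prop)).intervalIntegrable _ _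
  have h0 : ∀ L : ℝ, ‖∫ x in (0:ℝ)..L, ee (t * x ^ 2)‖ ≤ 2 / Real.sqrt t := by
    intro L
    rcases le_total 0 L with hL | hL
    · exact norm_integral_e_sq_zero_le ht hL
    · have h1 : ∫ x in (0:ℝ)..L, ee (t * x ^ 2) = -∫ x in (0:ℝ)..(-L), ee (t * x ^ 2) := by
        have := intervalIntegral.integral_comp_neg (a := 0) (b := -L) (fun x : ℝ => ee (t * x ^ 2))
        simp only [neg_neg, neg_zero, even_two, Even.neg_pow] at this
        rw [this, intervalIntegral.integral_symm]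
      rw [h1, norm_neg]
      exact norm_integral_e_sq_zero_le ht (by linarith)
  rw [← intervalIntegral.integral_interval_sub_left (hint 0 b) (hint 0 a)]
  calc _ ≤ _ := norm_sub_le _ _
    _ ≤ 2 / Real.sqrt t + 2 / Real.sqrt t := add_le_add (h0 b) (h0 a)
    _ = 4 / Real.sqrt t := by ring

theorem norm_integral_e_quad_le_pos {t : ℝ} (ht : 0 < t) (y a b : ℝ) :
    ‖∫ x in a..b, ee (y * x + t * x ^ 2)‖ ≤ 4 / Real.sqrt t := by
  have h1 : ∀ x : ℝ, ee (y * x + t * x ^ 2) = ee (-(y ^ 2 / (4 * t))) * ee (t * (x + y / (2 * t)) ^ 2) := by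
    intro x
    rw [← ee_add]
    congr 1
    field_simp
    ring
  simp_rw [h1]
  rw [intervalIntegral.integral_const_mul, norm_mul, norm_ee, one_mul,
    intervalIntegral.integral_comp_add_right (fun x => ee (t * x ^ 2)) (y / (2 * t))]
  exact norm_integral_e_sq_le' ht _ _

theorem norm_integral_e_quad_le {t : ℝ} (ht : t ≠ 0) (y a b : ℝ) :
    ‖∫ x in a..b, ee (y * x + t * x ^ 2)‖ ≤ 4 / Real.sqrt |t| := by
  rcases lt_or_gt_of_ne ht with h | h
  · have h1 : ∫ x in a..b, ee (y * x + t * x ^ 2) =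
        (starRingEnd ℂ) (∫ x in a..b, ee ((-y) * x + (-t) * x ^ 2)) := by
      rw [← intervalIntegral.intervalIntegral_conj]
      congr 1
      ext x
      rw [← ee_neg]
      congr 1
      ring
    rw [h1, RCLike.norm_conj, abs_of_neg h]
    exact norm_integral_e_quad_le_pos (by linarith) _ _ _
  · rw [abs_of_pos h]
    exact norm_integral_e_quad_le_pos h _ _ _

/-- decay of the one dimensional extension of the constant function. -/
theorem norm_integral_e_quad_sq_le (y t : ℝ) :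
    ‖∫ x in (0:ℝ)..1, ee (y * x + t * x ^ 2)‖ ^ 2 ≤ 32 / (1 + |t|) := by
  have htriv : ‖∫ x in (0:ℝ)..1, ee (y * x + t * x ^ 2)‖ ≤ 1 := by
    have := intervalIntegral.norm_integral_le_of_norm_le_const (a := 0) (b := 1) (C := 1)
      (f := fun x : ℝ => ee (y * x + t * x ^ 2)) (fun x _ => (norm_ee _).le)
    simpa only [ge_iff_le, sub_zero, abs_one, mul_one] using this
  rcases le_total |t| 1 with h | h
  · calc _ ≤ (1:ℝ) ^ 2 := by gcongr
      _ ≤ 32 / (1 + |t|) := by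
        rw [one_pow, le_div_iff₀ (by positivity)]
        linarith
  · have ht : t ≠ 0 := by
      intro h0
      rw [h0] at h
      simp only [abs_zero] at h
      linarith only [h]
    have h1 := norm_integral_e_quad_le ht y 0 1
    have habs : 0 < |t| := by positivity
    calc _ ≤ (4 / Real.sqrt |t|) ^ 2 := by gcongr
      _ = 16 / |t| := by
        rw [div_pow, Real.sq_sqrt habs.le]; norm_num
      _ ≤ 32 / (1 + |t|) := by
        rw [div_le_div_iff₀ habs (by positivity)]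
        nlinarith only [h]

end Vale.Agent.P122
end
end

section

section

open MeasureTheory
open scoped ENNReal

namespace Vale.Agent.P122

theorem Phi_eq_interval (y t : ℝ) : Phi y t = ∫ ξ in (0:ℝ)..1, ee (y * ξ + t * ξ ^ 2) := by
  unfold Phi
  rw [intervalIntegral.integral_of_le zero_le_one, integral_Icc_eq_integral_Ioc]

theorem norm_Phi_sq_le (y t : ℝ) : ‖Phi y t‖ ^ 2 ≤ 32 / (1 + |t|) := by
  rw [Phi_eq_interval]
  exact norm_integral_e_quad_sq_le y t

theorem integral_ee_int (n : ℤ) :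
    ∫ ξ in (0:ℝ)..1, ee (n * ξ) = if n = 0 then 1 else 0 := by
  split_ifs with h
  · subst h
    simp only [ee, Int.cast_zero, zero_mul, Complex.ofReal_zero, mul_zero, Complex.exp_zero, intervalIntegral.integral_const, sub_zero, one_smul]
  · have h1 : ∀ ξ : ℝ, ee (n * ξ) = Complex.exp ((2 * Real.pi * Complex.I * n) * ξ) := by
      intro ξ
      unfold ee
      congr 1
      push_cast
      ring
    simp_rw [h1]
    have hne : (2 * Real.pi * Complex.I * n : ℂ) ≠ 0 := by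
      have := Complex.two_pi_I_ne_zero
      have h2 : (n : ℂ) ≠ 0 := by exact_mod_cast h
      exact mul_ne_zero this h2
    rw [integral_exp_mul_complex hne]
    have h3 : Complex.exp ((2 * Real.pi * Complex.I * n) * (1:ℝ)) = 1 := by
      rw [Complex.exp_eq_one_iff]
      exact ⟨n, by push_cast; ring⟩
    rw [h3]
    simp

theorem sum_ee_sq_integral (B : Finset ℤ) (a : ℤ → ℂ) :
    ∫⁻ ξ in Set.Icc (0:ℝ) 1, ‖∑ k ∈ B, a k * ee (k * ξ)‖ₑ ^ 2 = ∑ k ∈ B, ‖a k‖ₑ ^ 2 := by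
  have hcont : Continuous (fun ξ : ℝ => ∑ k ∈ B, a k * ee (k * ξ)) := by
    apply continuous_finsetSum
    intro k _
    exact continuous_const.mul (continuous_ee.comp (by fun_prop))
  have h1 : ∀ ξ : ℝ, ‖∑ k ∈ B, a k * ee (k * ξ)‖ₑ ^ 2 = ENNReal.ofReal (‖∑ k ∈ B, a k * ee (k * ξ)‖ ^ 2) := by
    intro ξ
    rw [ENNReal.ofReal_pow (norm_nonneg _), ofReal_norm]
  simp_rw [h1]
  rw [← ofReal_integral_eq_lintegral_ofReal]
  rotate_left
  · exact ((hcont.norm.pow 2).continuousOn).integrableOn_compact isCompact_Icc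
  · exact Filter.Eventually.of_forall fun ξ => by positivity
  have h2 : (∑ k ∈ B, ‖a k‖ₑ ^ 2) = ENNReal.ofReal (∑ k ∈ B, ‖a k‖ ^ 2) := by
    rw [ENNReal.ofReal_sum_of_nonneg (fun _ _ => by positivity)]
    refine Finset.sum_congr rfl fun k _ => ?_
    rw [ENNReal.ofReal_pow (norm_nonneg _), ofReal_norm]
  rw [h2]
  congr 1
  have h3 : ((∫ ξ in Set.Icc (0:ℝ) 1, ‖∑ k ∈ B, a k * ee (k * ξ)‖ ^ 2 : ℝ) : ℂ) = ((∑ k ∈ B, ‖a k‖ ^ 2 : ℝ) : ℂ) := by
    rw [← integral_complex_ofReal, integral_Icc_eq_integral_Ioc, ← intervalIntegral.integral_of_le zero_le_one]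
    have h4 : ∀ ξ : ℝ, ((‖∑ k ∈ B, a k * ee (k * ξ)‖ ^ 2 : ℝ) : ℂ)
        = ∑ k ∈ B, ∑ l ∈ B, (a k * (starRingEnd ℂ) (a l)) * ee (((k - l : ℤ) : ℝ) * ξ) := by
      intro ξ
      rw [← Complex.normSq_eq_norm_sq, ← Complex.mul_conj, map_sum, Finset.sum_mul_sum]
      refine Finset.sum_congr rfl fun k _ => Finset.sum_congr rfl fun l _ => ?_
      have h5 : ee (((k - l : ℤ) : ℝ) * ξ) = ee (k * ξ) * (starRingEnd ℂ) (ee (l * ξ)) := by
        rw [← ee_neg, ← ee_add]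
        congr 1
        push_cast
        ring
      rw [h5, map_mul]
      ring
    simp_rw [h4]
    have hi : ∀ (z : ℂ) (n : ℤ), IntervalIntegrable (fun ξ : ℝ => z * ee (n * ξ)) volume 0 1 := by
      intro z n
      exact (continuous_const.mul (continuous_ee.comp (by fun_prop))).intervalIntegrable _ _
    rw [intervalIntegral.integral_finsetSum]
    · have h6 : ∀ k ∈ B, ∫ ξ in (0:ℝ)..1, ∑ l ∈ B, (a k * (starRingEnd ℂ) (a l)) * ee (((k - l : ℤ) : ℝ) * ξ)
          = ((‖a k‖ ^ 2 : ℝ) : ℂ) := by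
        intro k hk
        rw [intervalIntegral.integral_finsetSum]
        · simp_rw [intervalIntegral.integral_const_mul, integral_ee_int]
          rw [Finset.sum_eq_single k]
          · simp [Complex.mul_conj, Complex.normSq_eq_norm_sq]
          · intro l _ hl
            have : k - l ≠ 0 := by
              intro h
              apply hl
              omega
            simp [this]
          · intro h
            exact absurd hk h
        · intro l _
          exact hi _ _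
      rw [Finset.sum_congr rfl h6]
      push_cast
      rfl
    · intro k _
      apply Continuous.intervalIntegrable
      apply continuous_finsetSum
      intro l _
      exact continuous_const.mul (continuous_ee.comp (by fun_prop))
  exact_mod_cast h3

theorem sumPhi_eq (B : Finset ℤ) (a : ℤ → ℂ) (y t : ℝ) :
    ∑ k ∈ B, a k * Phi (y + k) t =
      ∫ ξ, ((Set.Icc (0:ℝ) 1).indicator (fun ξ => (∑ k ∈ B, a k * ee (k * ξ)) * ee (t * ξ ^ 2)) ξ) * ee (y * ξ) := by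
  have h1 : ∀ ξ : ℝ, ((Set.Icc (0:ℝ) 1).indicator (fun ξ => (∑ k ∈ B, a k * ee (k * ξ)) * ee (t * ξ ^ 2)) ξ) * ee (y * ξ)
      = (Set.Icc (0:ℝ) 1).indicator (fun ξ => ∑ k ∈ B, a k * ee ((y + k) * ξ + t * ξ ^ 2)) ξ := by
    intro ξ
    by_cases h : ξ ∈ Set.Icc (0:ℝ) 1
    · simp only [Set.indicator_of_mem h]
      rw [Finset.sum_mul, Finset.sum_mul]
      refine Finset.sum_congr rfl fun k _ => ?_
      have : ee ((y + k) * ξ + t * ξ ^ 2) = ee (k * ξ) * ee (t * ξ ^ 2) * ee (y * ξ) := by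
        rw [← ee_add, ← ee_add]
        congr 1
        ring
      rw [this]
      ring
    · simp only [Set.indicator_of_notMem h, zero_mul]
  simp_rw [h1]
  rw [integral_indicator measurableSet_Icc, integral_finsetSum]
  · refine Finset.sum_congr rfl fun k _ => ?_
    rw [integral_const_mul]
    rfl
  · intro k _
    exact ((continuous_const.mul (continuous_ee.comp (by fun_prop))).continuousOn).integrableOn_compact isCompact_Icc

theorem nice_sum (B : Finset ℤ) (a : ℤ → ℂ) (t : ℝ) :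
    Nice ((Set.Icc (0:ℝ) 1).indicator (fun ξ => (∑ k ∈ B, a k * ee (k * ξ)) * ee (t * ξ ^ 2))) where
  meas := by
    apply Measurable.indicator _ measurableSet_Icc
    apply Continuous.measurable
    apply Continuous.mul
    · apply continuous_finsetSum
      intro k _
      exact continuous_const.mul (continuous_ee.comp (by fun_prop))
    · exact continuous_ee.comp (by fun_prop)
  bdd := by
    refine ⟨∑ k ∈ B, ‖a k‖, fun ξ => ?_⟩
    refine (norm_indicator_le_norm_self _ _).trans ?_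
    rw [norm_mul, norm_ee, mul_one]
    refine norm_sum_le_of_le B fun k _ => ?_
    rw [norm_mul, norm_ee, mul_one]
  supp := fun ξ hξ => Set.indicator_of_notMem hξ _

theorem sumPhi_L2 (B : Finset ℤ) (a : ℤ → ℂ) (t : ℝ) :
    ∫⁻ y, ‖∑ k ∈ B, a k * Phi (y + k) t‖ₑ ^ 2 = ∑ k ∈ B, ‖a k‖ₑ ^ 2 := by
  simp_rw [sumPhi_eq]
  have hn := nice_sum B a t
  rw [plancherel _ hn.integrable (hn.memLp 2), ← sum_ee_sq_integral, ← lintegral_indicator measurableSet_Icc]
  congr 1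
  ext ξ
  by_cases h : ξ ∈ Set.Icc (0:ℝ) 1
  · simp only [Set.indicator_of_mem h, enorm_mul, enorm_ee, mul_one]
  · simp only [Set.indicator_of_notMem h, enorm_zero, ne_eq, OfNat.ofNat_ne_zero, not_false_eq_true, zero_pow]

theorem sumPhi_sup (B : Finset ℤ) (a : ℤ → ℂ) (y t : ℝ) :
    ‖∑ k ∈ B, a k * Phi (y + k) t‖ₑ ^ 2
      ≤ (B.card : ℝ≥0∞) * ENNReal.ofReal (32 / (1 + |t|)) * ∑ k ∈ B, ‖a k‖ₑ ^ 2 := by
  have h1 : ‖∑ k ∈ B, a k * Phi (y + k) t‖ ^ 2 ≤ (B.card : ℝ) * (32 / (1 + |t|)) * ∑ k ∈ B, ‖a k‖ ^ 2 := by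
    have h2 : ‖∑ k ∈ B, a k * Phi (y + k) t‖ ≤ ∑ k ∈ B, ‖a k‖ * ‖Phi (y + k) t‖ := by
      refine norm_sum_le_of_le B fun k _ => ?_
      rw [norm_mul]
    have h3 : (∑ k ∈ B, ‖a k‖ * ‖Phi (y + k) t‖) ^ 2 ≤ (∑ k ∈ B, ‖a k‖ ^ 2) * (∑ k ∈ B, ‖Phi (y + k) t‖ ^ 2) :=
      Finset.sum_mul_sq_le_sq_mul_sq _ _ _
    have h4 : ∑ k ∈ B, ‖Phi (y + k) t‖ ^ 2 ≤ (B.card : ℝ) * (32 / (1 + |t|)) := by
      have := Finset.sum_le_card_nsmul B (fun k : ℤ => ‖Phi (y + k) t‖ ^ 2) (32 / (1 + |t|)) (fun k _ => norm_Phi_sq_le _ _)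
      simpa only [ge_iff_le, nsmul_eq_mul] using this
    calc _ ≤ (∑ k ∈ B, ‖a k‖ * ‖Phi (y + k) t‖) ^ 2 := pow_le_pow_left₀ (norm_nonneg _) h2 2
      _ ≤ (∑ k ∈ B, ‖a k‖ ^ 2) * (∑ k ∈ B, ‖Phi (y + k) t‖ ^ 2) := h3
      _ ≤ (∑ k ∈ B, ‖a k‖ ^ 2) * ((B.card : ℝ) * (32 / (1 + |t|))) := by (clear * - h4; gcongr)
      _ = _ := by ring
  have h5 : ∀ z : ℂ, ‖z‖ₑ ^ 2 = ENNReal.ofReal (‖z‖ ^ 2) := by
    intro z
    rw [ENNReal.ofReal_pow (norm_nonneg _), ofReal_norm]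
  simp_rw [h5]
  rw [← ENNReal.ofReal_sum_of_nonneg (fun _ _ => by positivity), ← ENNReal.ofReal_natCast,
    ← ENNReal.ofReal_mul (by (clear * -; positivity)), ← ENNReal.ofReal_mul (by (clear * -; positivity))]
  exact ENNReal.ofReal_le_ofReal h1

theorem measurable_Phi : Measurable (fun q : ℝ × ℝ => Phi q.1 q.2) := by
  have h1 : (fun q : ℝ × ℝ => Phi q.1 q.2) = fun q : ℝ × ℝ =>
      ∫ ξ in Set.Icc (0:ℝ) 1, ee (q.1 * ξ + q.2 * ξ ^ 2) := rfl
  rw [h1]
  have h : StronglyMeasurable (Function.uncurry (fun (p : ℝ × ℝ) (ξ : ℝ) => ee (p.1 * ξ + p.2 * ξ ^ 2))) := by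
    apply Measurable.stronglyMeasurable
    exact continuous_ee.measurable.comp (by fun_prop)
  exact (h.integral_prod_right (ν := volume.restrict (Set.Icc (0:ℝ) 1))).measurable

/-- the function `u` of a block -/
noncomputable def blk (B : Finset ℤ) (c : ℤ → ℝ → ℂ) (x : ℝ × ℝ × ℝ) : ℂ :=
  ∑ k ∈ B, ext1 (c k) x.1 x.2.2 * Phi (x.2.1 + k) x.2.2

theorem measurable_blk (B : Finset ℤ) {c : ℤ → ℝ → ℂ} (hc : ∀ k, Measurable (c k)) :
    Measurable (blk B c) := by
  unfold blk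
  apply Finset.measurable_fun_sum
  intro k _
  apply Measurable.mul
  · have h1 := (measurable_ext1 (hc k)).comp (by fun_prop : Measurable fun x : ℝ × ℝ × ℝ => (x.1, x.2.2))
    exact h1
  · have h1 := measurable_Phi.comp (by fun_prop : Measurable fun x : ℝ × ℝ × ℝ => (x.2.1 + (k:ℝ), x.2.2))
    exact h1

theorem blk_inner {p : ℝ} (hp : 2 ≤ p) (B : Finset ℤ) (c : ℤ → ℝ → ℂ) (x1 t : ℝ) :
    ∫⁻ x2, ‖blk B c (x1, x2, t)‖ₑ ^ p ≤
      ((B.card : ℝ≥0∞) * ENNReal.ofReal (32 / (1 + |t|))) ^ ((p - 2) / 2)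
        * (∑ k ∈ B, ‖ext1 (c k) x1 t‖ₑ ^ 2) ^ (p / 2) := by
  set ρ : ℝ≥0∞ := ∑ k ∈ B, ‖ext1 (c k) x1 t‖ₑ ^ 2 with hρ
  set m : ℝ≥0∞ := (B.card : ℝ≥0∞) * ENNReal.ofReal (32 / (1 + |t|)) with hm
  have h1 : ∀ x2 : ℝ, ‖blk B c (x1, x2, t)‖ₑ ^ p ≤ (m * ρ) ^ ((p - 2) / 2) * ‖blk B c (x1, x2, t)‖ₑ ^ 2 := by
    intro x2
    have h2 : ‖blk B c (x1, x2, t)‖ₑ ^ p = (‖blk B c (x1, x2, t)‖ₑ ^ 2) ^ ((p - 2) / 2) * ‖blk B c (x1, x2, t)‖ₑ ^ 2 := by
      rw [← ENNReal.rpow_natCast, ← ENNReal.rpow_mul, ← ENNReal.rpow_add_of_nonneg]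
      · congr 1
        push_cast
        ring
      · push_cast
        linarith
      · norm_num
    rw [h2]
    gcongr
    exact sumPhi_sup B (fun k => ext1 (c k) x1 t) x2 t
  have hmeas : Measurable (fun x2 : ℝ => ‖blk B c (x1, x2, t)‖ₑ ^ 2) := by
    unfold blk
    apply Measurable.pow_const
    apply Measurable.enorm
    apply Finset.measurable_fun_sum
    intro k _
    have h1 := measurable_Phi.comp (by fun_prop : Measurable fun x : ℝ => (x + (k:ℝ), t))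
    have h2 : Measurable (fun x : ℝ => Phi (x + (k:ℝ)) t) := h1
    exact h2.const_mul (ext1 (c k) x1 t)
  calc _ ≤ ∫⁻ x2, (m * ρ) ^ ((p - 2) / 2) * ‖blk B c (x1, x2, t)‖ₑ ^ 2 := lintegral_mono h1
    _ = (m * ρ) ^ ((p - 2) / 2) * ρ := by
        rw [lintegral_const_mul _ hmeas]
        congr 1
        exact sumPhi_L2 B (fun k => ext1 (c k) x1 t) t
    _ = m ^ ((p - 2) / 2) * ρ ^ (p / 2) := by
        rw [ENNReal.mul_rpow_of_nonneg _ _ (by linarith only [hp]), mul_assoc]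
        congr 1
        nth_rewrite 2 [← ENNReal.rpow_one ρ]
        rw [← ENNReal.rpow_add_of_nonneg _ _ (by linarith only [hp]) (by norm_num)]
        congr 1
        ring

theorem measurable_rho (B : Finset ℤ) {c : ℤ → ℝ → ℂ} (hc : ∀ k, Measurable (c k)) :
    Measurable (fun q : ℝ × ℝ => ∑ k ∈ B, ‖ext1 (c k) q.2 q.1‖ₑ ^ 2) := by
  apply Finset.measurable_fun_sum
  intro k _
  have h1 := (measurable_ext1 (hc k)).comp (by fun_prop : Measurable fun x : ℝ × ℝ => (x.2, x.1))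
  exact (h1.enorm).pow_const 2

/-- Hölder step: the weighted integral of `ρ^{p/2}`. -/
theorem rho_weighted {p : ℝ} (hp3 : 3 < p) (hp4 : p < 4) : ∃ C : ℝ≥0∞, C ≠ ∞ ∧ ∀ (B : Finset ℤ) (c : ℤ → ℝ → ℂ),
    (∀ k, Nice (c k)) →
    ∫⁻ t, ∫⁻ x, (ENNReal.ofReal (32 / (1 + |t|))) ^ ((p - 2) / 2) * (∑ k ∈ B, ‖ext1 (c k) x t‖ₑ ^ 2) ^ (p / 2)
      ≤ C * (∫⁻ ξ, ∑ k ∈ B, ‖c k ξ‖ₑ ^ 2) ^ (2 - p / 2) * (∫⁻ ξ, (∑ k ∈ B, ‖c k ξ‖ₑ ^ 2) ^ 2) ^ (p / 2 - 1) := by
  set θ : ℝ := (p - 3) / (2 * (p - 2)) with hθ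
  have hθ0 : 0 < θ := by
    apply div_pos <;> linarith
  have hθ1 : θ < 1 := by
    rw [hθ, div_lt_one (by linarith only [hp3])]
    linarith only [hp3]
  obtain ⟨C, hC, hCb⟩ := rho_L2 (ι := ℤ) hθ0 hθ1
  set α : ℝ := (p - 2) * (1 - 2 * θ) / (4 - p) with hα
  have hα1 : 1 < α := by
    have h1 : (p - 2) * (1 - 2 * θ) = 1 := by
      rw [hθ]
      have : p - 2 ≠ 0 := by linarith only [hp3]
      field_simp
      ring
    rw [hα, h1, lt_div_iff₀ (by linarith only [hp4])]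
    linarith only [hp3]
  set W1 : ℝ≥0∞ := ∫⁻ t : ℝ, ENNReal.ofReal ((1 + ‖t‖) ^ (-α)) with hW1
  have hW1fin : W1 < ∞ := by
    apply finite_integral_one_add_norm
    simpa only [Module.finrank_self, Nat.cast_one] using hα1
  have hq1 : 0 < 2 - p / 2 := by linarith only [hp4]
  have hq2 : 0 < p / 2 - 1 := by linarith only [hp3]
  refine ⟨(ENNReal.ofReal 32) ^ ((p - 2) / 2) * W1 ^ (2 - p / 2) * C ^ (p / 2 - 1), ?_, ?_⟩
  · apply ENNReal.mul_ne_top
    · apply ENNReal.mul_ne_top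
      · exact ENNReal.rpow_ne_top_of_nonneg (by linarith only [hp3]) ENNReal.ofReal_ne_top
      · exact ENNReal.rpow_ne_top_of_nonneg hq1.le hW1fin.ne
    · exact ENNReal.rpow_ne_top_of_nonneg hq2.le hC
  intro B c hc
  have hρm := measurable_rho B (fun k => (hc k).meas)
  set f : ℝ × ℝ → ℝ≥0∞ := fun q => ENNReal.ofReal ((1 + ‖q.1‖) ^ (-α)) * ∑ k ∈ B, ‖ext1 (c k) q.2 q.1‖ₑ ^ 2 with hf
  set g : ℝ × ℝ → ℝ≥0∞ := fun q => ENNReal.ofReal ((1 + ‖q.1‖) ^ (-(2 * θ))) * (∑ k ∈ B, ‖ext1 (c k) q.2 q.1‖ₑ ^ 2) ^ 2 with hg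
  have hw1 : Measurable (fun q : ℝ × ℝ => ENNReal.ofReal ((1 + ‖q.1‖) ^ (-α))) := by
    apply ENNReal.measurable_ofReal.comp
    fun_prop
  have hw2 : Measurable (fun q : ℝ × ℝ => ENNReal.ofReal ((1 + ‖q.1‖) ^ (-(2 * θ)))) := by
    apply ENNReal.measurable_ofReal.comp
    fun_prop
  have hfm : Measurable f := hw1.mul hρm
  have hgm : Measurable g := hw2.mul (hρm.pow_const 2)
  have hfgm : Measurable (fun q : ℝ × ℝ => f q ^ (2 - p / 2) * g q ^ (p / 2 - 1)) :=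
    (hfm.pow_const _).mul (hgm.pow_const _)
  have key : ∀ q : ℝ × ℝ, (ENNReal.ofReal (32 / (1 + |q.1|))) ^ ((p - 2) / 2) * (∑ k ∈ B, ‖ext1 (c k) q.2 q.1‖ₑ ^ 2) ^ (p / 2)
      = (ENNReal.ofReal 32) ^ ((p - 2) / 2) * (f q ^ (2 - p / 2) * g q ^ (p / 2 - 1)) := by
    intro q
    have hpos : 0 < 1 + ‖q.1‖ := by (clear * -; positivity)
    simp only [hf, hg]
    rw [ENNReal.mul_rpow_of_nonneg _ _ hq1.le, ENNReal.mul_rpow_of_nonneg _ _ hq2.le]
    have e1 : ENNReal.ofReal (32 / (1 + |q.1|)) = ENNReal.ofReal 32 * ENNReal.ofReal ((1 + ‖q.1‖)⁻¹) := by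
      rw [← ENNReal.ofReal_mul (by norm_num), div_eq_mul_inv, Real.norm_eq_abs]
    rw [e1, ENNReal.mul_rpow_of_nonneg _ _ (by linarith only [hp3] : 0 ≤ (p - 2) / 2)]
    have e2 : (ENNReal.ofReal ((1 + ‖q.1‖)⁻¹)) ^ ((p - 2) / 2) =
        (ENNReal.ofReal ((1 + ‖q.1‖) ^ (-α))) ^ (2 - p / 2) * (ENNReal.ofReal ((1 + ‖q.1‖) ^ (-(2 * θ)))) ^ (p / 2 - 1) := by
      rw [ENNReal.ofReal_rpow_of_pos (by (clear * -; positivity)), ENNReal.ofReal_rpow_of_pos (by (clear * -; positivity)),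
        ENNReal.ofReal_rpow_of_pos (by (clear * -; positivity)), ← ENNReal.ofReal_mul (by (clear * -; positivity)),
        ← Real.rpow_mul hpos.le, ← Real.rpow_mul hpos.le, ← Real.rpow_add hpos, ← Real.rpow_neg_one,
        ← Real.rpow_mul hpos.le]
      congr 2
      rw [hα]
      have : 4 - p ≠ 0 := by linarith only [hp4]
      field_simp
      ring
    have e3 : ∀ y : ℝ≥0∞, y ^ (p / 2) = y ^ (2 - p / 2) * (y ^ 2) ^ (p / 2 - 1) := by
      intro y
      rw [← ENNReal.rpow_natCast, ← ENNReal.rpow_mul, ← ENNReal.rpow_add_of_nonneg _ _ hq1.le (by push_cast; linarith only [hp3])]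
      congr 1
      push_cast
      ring
    rw [e2, e3]
    ring
  calc _ = ∫⁻ t, ∫⁻ x, (ENNReal.ofReal 32) ^ ((p - 2) / 2) * (f (t, x) ^ (2 - p / 2) * g (t, x) ^ (p / 2 - 1)) := by
        refine lintegral_congr fun t => lintegral_congr fun x => ?_
        exact key (t, x)
    _ = ∫⁻ q : ℝ × ℝ, (ENNReal.ofReal 32) ^ ((p - 2) / 2) * (f q ^ (2 - p / 2) * g q ^ (p / 2 - 1)) := by
        rw [Measure.volume_eq_prod, lintegral_prod]
        exact (hfgm.const_mul _).aemeasurable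
    _ = (ENNReal.ofReal 32) ^ ((p - 2) / 2) * ∫⁻ q : ℝ × ℝ, f q ^ (2 - p / 2) * g q ^ (p / 2 - 1) := by
        rw [lintegral_const_mul _ hfgm]
    _ ≤ (ENNReal.ofReal 32) ^ ((p - 2) / 2) * ((∫⁻ q : ℝ × ℝ, f q) ^ (2 - p / 2) * (∫⁻ q : ℝ × ℝ, g q) ^ (p / 2 - 1)) := by
        gcongr
        exact ENNReal.lintegral_mul_norm_pow_le hfm.aemeasurable hgm.aemeasurable hq1.le hq2.le (by ring)
    _ ≤ (ENNReal.ofReal 32) ^ ((p - 2) / 2) * ((W1 * ∫⁻ ξ, ∑ k ∈ B, ‖c k ξ‖ₑ ^ 2) ^ (2 - p / 2)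
          * (C * ∫⁻ ξ, (∑ k ∈ B, ‖c k ξ‖ₑ ^ 2) ^ 2) ^ (p / 2 - 1)) := by
        gcongr
        · rw [Measure.volume_eq_prod, lintegral_prod _ hfm.aemeasurable]
          simp only [hf]
          have : ∀ t : ℝ, ∫⁻ x : ℝ, ENNReal.ofReal ((1 + ‖t‖) ^ (-α)) * ∑ k ∈ B, ‖ext1 (c k) x t‖ₑ ^ 2
              = ENNReal.ofReal ((1 + ‖t‖) ^ (-α)) * ∫⁻ ξ, ∑ k ∈ B, ‖c k ξ‖ₑ ^ 2 := by
            intro t
            rw [lintegral_const_mul, rho_L1 B c hc t]
            exact Finset.measurable_fun_sum _ fun k _ => (measurable_ext1_left (hc k).meas t).enorm.pow_const 2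
          simp_rw [this]
          rw [lintegral_mul_const]
          apply ENNReal.measurable_ofReal.comp
          fun_prop
        · rw [Measure.volume_eq_prod, lintegral_prod _ hgm.aemeasurable]
          simp only [hg]
          refine le_trans (le_of_eq ?_) (hCb B c hc)
          refine lintegral_congr fun t => ?_
          rw [lintegral_const_mul]
          exact (Finset.measurable_fun_sum _ fun k _ => (measurable_ext1_left (hc k).meas t).enorm.pow_const 2).pow_const 2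
    _ = _ := by
        rw [ENNReal.mul_rpow_of_nonneg _ _ hq1.le, ENNReal.mul_rpow_of_nonneg _ _ hq2.le]
        ring

theorem lintegral_triple {F : ℝ × ℝ × ℝ → ℝ≥0∞} (hF : Measurable F) :
    ∫⁻ x, F x = ∫⁻ t, ∫⁻ x1, ∫⁻ x2, F (x1, x2, t) := by
  rw [Measure.volume_eq_prod, lintegral_prod _ hF.aemeasurable]
  have h1 : ∀ x1 : ℝ, ∫⁻ q : ℝ × ℝ, F (x1, q) = ∫⁻ t, ∫⁻ x2, F (x1, x2, t) := by
    intro x1
    have hm : Measurable (fun q : ℝ × ℝ => F (x1, q)) := hF.comp (by fun_prop)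
    rw [Measure.volume_eq_prod, lintegral_prod_symm _ hm.aemeasurable]
  simp_rw [h1]
  rw [lintegral_lintegral_swap]
  apply Measurable.aemeasurable
  apply Measurable.lintegral_prod_right'
    (f := fun q : (ℝ × ℝ) × ℝ => F (q.1.1, q.2, q.1.2))
  exact hF.comp (by (clear * -; fun_prop))

theorem block_nice {p : ℝ} (hp3 : 3 < p) (hp4 : p < 4) : ∃ C : ℝ≥0∞, C ≠ ∞ ∧ ∀ (B : Finset ℤ) (c : ℤ → ℝ → ℂ),
    (∀ k, Nice (c k)) →
    ∫⁻ x : ℝ × ℝ × ℝ, ‖blk B c x‖ₑ ^ p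
      ≤ C * (B.card : ℝ≥0∞) ^ ((p - 2) / 2) * (∫⁻ ξ, ∑ k ∈ B, ‖c k ξ‖ₑ ^ 2) ^ (2 - p / 2)
        * (∫⁻ ξ, (∑ k ∈ B, ‖c k ξ‖ₑ ^ 2) ^ 2) ^ (p / 2 - 1) := by
  obtain ⟨C, hC, hCb⟩ := rho_weighted hp3 hp4
  refine ⟨C, hC, ?_⟩
  intro B c hc
  have hbm : Measurable (fun x => ‖blk B c x‖ₑ ^ p) := (measurable_blk B (fun k => (hc k).meas)).enorm.pow_const p
  rw [lintegral_triple hbm]
  have hρm := measurable_rho B (fun k => (hc k).meas)
  calc _ ≤ ∫⁻ t, ∫⁻ x1, ((B.card : ℝ≥0∞) * ENNReal.ofReal (32 / (1 + |t|))) ^ ((p - 2) / 2)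
        * (∑ k ∈ B, ‖ext1 (c k) x1 t‖ₑ ^ 2) ^ (p / 2) := by
        refine lintegral_mono fun t => lintegral_mono fun x1 => ?_
        exact blk_inner (by linarith) B c x1 t
    _ = ∫⁻ t, ∫⁻ x1, (B.card : ℝ≥0∞) ^ ((p - 2) / 2) * ((ENNReal.ofReal (32 / (1 + |t|))) ^ ((p - 2) / 2)
        * (∑ k ∈ B, ‖ext1 (c k) x1 t‖ₑ ^ 2) ^ (p / 2)) := by
        refine lintegral_congr fun t => lintegral_congr fun x1 => ?_
        rw [ENNReal.mul_rpow_of_nonneg _ _ (by linarith only [hp3] : 0 ≤ (p - 2) / 2), mul_assoc]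
    _ = (B.card : ℝ≥0∞) ^ ((p - 2) / 2) * ∫⁻ t, ∫⁻ x1, ((ENNReal.ofReal (32 / (1 + |t|))) ^ ((p - 2) / 2)
        * (∑ k ∈ B, ‖ext1 (c k) x1 t‖ₑ ^ 2) ^ (p / 2)) := by
        have hm1 : Measurable (fun q : ℝ × ℝ => ((ENNReal.ofReal (32 / (1 + |q.1|))) ^ ((p - 2) / 2)
          * (∑ k ∈ B, ‖ext1 (c k) q.2 q.1‖ₑ ^ 2) ^ (p / 2))) := by
          apply Measurable.mul
          · apply Measurable.pow_const
            apply ENNReal.measurable_ofReal.comp
            fun_prop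
          · exact hρm.pow_const _
        have h2 : ∀ t : ℝ, ∫⁻ x1, (B.card : ℝ≥0∞) ^ ((p - 2) / 2) * ((ENNReal.ofReal (32 / (1 + |t|))) ^ ((p - 2) / 2)
          * (∑ k ∈ B, ‖ext1 (c k) x1 t‖ₑ ^ 2) ^ (p / 2)) = (B.card : ℝ≥0∞) ^ ((p - 2) / 2) * ∫⁻ x1, ((ENNReal.ofReal (32 / (1 + |t|))) ^ ((p - 2) / 2)
          * (∑ k ∈ B, ‖ext1 (c k) x1 t‖ₑ ^ 2) ^ (p / 2)) := by
          intro t
          rw [lintegral_const_mul]
          have h3 := hm1.comp (by fun_prop : Measurable fun x : ℝ => (t, x))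
          exact h3
        simp_rw [h2]
        rw [lintegral_const_mul]
        exact hm1.lintegral_prod_right'
    _ ≤ (B.card : ℝ≥0∞) ^ ((p - 2) / 2) * (C * (∫⁻ ξ, ∑ k ∈ B, ‖c k ξ‖ₑ ^ 2) ^ (2 - p / 2)
          * (∫⁻ ξ, (∑ k ∈ B, ‖c k ξ‖ₑ ^ 2) ^ 2) ^ (p / 2 - 1)) := by
        gcongr
        exact hCb B c hc
    _ = _ := by ring

theorem block_lemma (p : ℝ) (hp3 : 3 < p) (hp4 : p < 4) : ∃ C : NNReal, ∀ (B : Finset ℤ) (c : ℤ → ℝ → ℂ)
    (A : Set ℝ) (L : NNReal), MeasurableSet A → A ⊆ Set.Icc 0 1 → (∀ k ∈ B, Measurable (c k)) →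
    (∀ k ∈ B, ∀ ξ ∉ A, c k ξ = 0) → (∀ ξ, ∑ k ∈ B, ‖c k ξ‖ₑ ^ 2 ≤ (L : ENNReal) ^ 2) →
    ∫⁻ x : ℝ × ℝ × ℝ, ‖∑ k ∈ B, ext1 (c k) x.1 x.2.2 * Phi (x.2.1 + k) x.2.2‖ₑ ^ p
      ≤ C * (B.card : ENNReal) ^ ((p - 2) / 2) * (L : ENNReal) ^ p * volume A := by
  obtain ⟨C, hC, hCb⟩ := block_nice hp3 hp4
  refine ⟨C.toNNReal, ?_⟩
  intro B c A L hA hAs hm hsupp hL
  have hq1 : 0 < 2 - p / 2 := by linarith
  have hq2 : 0 < p / 2 - 1 := by linarith only [hp3]
  set c' : ℤ → ℝ → ℂ := fun k => if k ∈ B then c k else 0 with hc'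
  have hcc : ∀ k ∈ B, c' k = c k := fun k hk => by simp [hc', hk]
  have hnice : ∀ k, Nice (c' k) := by
    intro k
    by_cases hk : k ∈ B
    · rw [hcc k hk]
      refine ⟨hm k hk, ⟨L, fun ξ => ?_⟩, fun ξ hξ => hsupp k hk ξ (fun h => hξ (hAs h))⟩
      have h1 : ‖c k ξ‖ₑ ^ 2 ≤ (L : ENNReal) ^ 2 :=
        (Finset.single_le_sum (f := fun k => ‖c k ξ‖ₑ ^ 2) (fun _ _ => zero_le) hk).trans (hL ξ)
      have h2 : ‖c k ξ‖ₑ ≤ L := by
        by_contra h
        push Not at h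
        exact absurd h1 (not_le.mpr (ENNReal.pow_lt_pow_left (by norm_num) h))
      rw [← ofReal_norm] at h2
      have h3 := ENNReal.toReal_mono ENNReal.coe_ne_top h2
      rwa [ENNReal.toReal_ofReal (norm_nonneg _)] at h3
    · have : c' k = 0 := by simp [hc', hk]
      rw [this]
      exact ⟨measurable_const, ⟨0, by simp⟩, by simp only [Set.mem_Icc, not_and, not_le, Pi.zero_apply, implies_true]⟩
  have e1 : ∀ x : ℝ × ℝ × ℝ, ∑ k ∈ B, ext1 (c k) x.1 x.2.2 * Phi (x.2.1 + k) x.2.2 = blk B c' x := by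
    intro x
    unfold blk
    exact Finset.sum_congr rfl fun k hk => by rw [hcc k hk]
  have e2 : ∀ ξ, ∑ k ∈ B, ‖c' k ξ‖ₑ ^ 2 = ∑ k ∈ B, ‖c k ξ‖ₑ ^ 2 := by
    intro ξ
    exact Finset.sum_congr rfl fun k hk => by rw [hcc k hk]
  have e3 : ∀ ξ, ∑ k ∈ B, ‖c' k ξ‖ₑ ^ 2 ≤ A.indicator (fun _ => (L : ENNReal) ^ 2) ξ := by
    intro ξ
    rw [e2]
    by_cases hξ : ξ ∈ A
    · rw [Set.indicator_of_mem hξ]
      exact hL ξ
    · rw [Set.indicator_of_notMem hξ]
      apply le_of_eq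
      apply Finset.sum_eq_zero
      intro k hk
      rw [hsupp k hk ξ hξ]
      simp
  simp_rw [e1]
  refine (hCb B c' hnice).trans ?_
  have f1 : ∫⁻ ξ, ∑ k ∈ B, ‖c' k ξ‖ₑ ^ 2 ≤ (L : ENNReal) ^ 2 * volume A := by
    refine (lintegral_mono e3).trans ?_
    rw [lintegral_indicator hA]
    simp only [lintegral_const, MeasurableSet.univ, Measure.restrict_apply, Set.univ_inter, Std.le_refl]
  have f2 : ∫⁻ ξ, (∑ k ∈ B, ‖c' k ξ‖ₑ ^ 2) ^ 2 ≤ ((L : ENNReal) ^ 2) ^ 2 * volume A := by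
    have h4 : ∀ ξ, (∑ k ∈ B, ‖c' k ξ‖ₑ ^ 2) ^ 2 ≤ A.indicator (fun _ => ((L : ENNReal) ^ 2) ^ 2) ξ := by
      intro ξ
      have := e3 ξ
      by_cases hξ : ξ ∈ A
      · rw [Set.indicator_of_mem hξ] at this ⊢
        (clear * - this; gcongr)
      · rw [Set.indicator_of_notMem hξ] at this ⊢
        rw [le_antisymm this zero_le]
        simp
    refine (lintegral_mono h4).trans ?_
    rw [lintegral_indicator hA]
    simp only [lintegral_const, MeasurableSet.univ, Measure.restrict_apply, Set.univ_inter, Std.le_refl]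
  calc _ ≤ C * (B.card : ℝ≥0∞) ^ ((p - 2) / 2) * ((L : ENNReal) ^ 2 * volume A) ^ (2 - p / 2)
        * (((L : ENNReal) ^ 2) ^ 2 * volume A) ^ (p / 2 - 1) := by
        (clear * - f1 hq1 f2 hq2; gcongr)
    _ = (C.toNNReal : ENNReal) * (B.card : ENNReal) ^ ((p - 2) / 2) * (L : ENNReal) ^ p * volume A := by
        rw [ENNReal.coe_toNNReal hC, ENNReal.mul_rpow_of_nonneg _ _ hq1.le, ENNReal.mul_rpow_of_nonneg _ _ hq2.le]
        have g1 : ((L : ENNReal) ^ 2) ^ (2 - p / 2) * (((L : ENNReal) ^ 2) ^ 2) ^ (p / 2 - 1) = (L : ENNReal) ^ p := by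
          rw [← ENNReal.rpow_natCast, ← ENNReal.rpow_natCast, ← ENNReal.rpow_mul, ← ENNReal.rpow_mul, ← ENNReal.rpow_mul,
            ← ENNReal.rpow_add_of_nonneg]
          · congr 1
            push_cast
            ring
          · push_cast
            linarith only [hp4]
          · push_cast
            linarith only [hp3]
        have g2 : (volume A) ^ (2 - p / 2) * (volume A) ^ (p / 2 - 1) = volume A := by
          rw [← ENNReal.rpow_add_of_nonneg _ _ hq1.le hq2.le]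
          have : 2 - p / 2 + (p / 2 - 1) = 1 := by ring
          rw [this, ENNReal.rpow_one]
        calc _ = C * (B.card : ℝ≥0∞) ^ ((p - 2) / 2) * (((L : ENNReal) ^ 2) ^ (2 - p / 2) * (((L : ENNReal) ^ 2) ^ 2) ^ (p / 2 - 1))
              * ((volume A) ^ (2 - p / 2) * (volume A) ^ (p / 2 - 1)) := by ring
          _ = _ := by rw [g1, g2]

end Vale.Agent.P122
end
end

section

section

namespace Vale.Agent.P122

open MeasureTheory Set Filter
open scoped ENNReal NNReal Topology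

attribute [local irreducible] ext1 Phi

theorem blockHyp_exists (p0 : ℝ) (h3 : 3 < p0) (h4 : p0 < 4) : ∃ C : ℝ≥0, BlockHyp p0 C := by
  obtain ⟨C, hC⟩ := block_lemma p0 h3 h4
  exact ⟨C, fun B c A L hA hA1 hc h0 hL => hC B c A L hA hA1 hc h0 hL⟩

theorem flat_bound {p s : ℝ} (hp : 3 < p) (hs : 1 / (2 * p) < s) :
    ∃ K : ℝ≥0, ∀ (F : ℝ × ℝ → ℂ) (lam : ℝ≥0), 0 < lam → Measurable F →
      (∀ ξ y, ξ ∉ Icc (0:ℝ) 1 → F (ξ, y) = 0) → (∀ ξ y, y ∉ Ioc (0:ℝ) 1 → F (ξ, y) = 0) →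
      (∫⁻ ξ, (Nsq s (fun y => F (ξ, y))) ^ (p / 2) ≤ (lam : ℝ≥0∞) ^ p) →
      eLpNorm (EF F) (ENNReal.ofReal p) volume ≤ K * lam := by
  obtain ⟨K, hK⟩ := trunc_bound hp hs blockHyp_exists
  refine ⟨K, ?_⟩
  intro F lam hlam hF hs1 hs2 hN
  have hen : ∫⁻ ξ, (en F ξ) ^ (1/2 : ℝ) ≠ ∞ := by
    have hle : ∀ ξ, (en F ξ) ^ (1/2 : ℝ)
        ≤ (Icc (0:ℝ) 1).indicator (fun _ => (1 : ℝ≥0∞)) ξ + (Nsq s (fun y => F (ξ, y))) ^ (p / 2) := by
      intro ξ
      by_cases hξ : ξ ∈ Icc (0:ℝ) 1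
      · simp only [hξ, indicator_of_mem]
        rcases le_total (en F ξ) 1 with h | h
        · calc (en F ξ) ^ (1/2 : ℝ) ≤ 1 ^ (1/2 : ℝ) := by (clear * - h; gcongr)
            _ = 1 := by simp only [one_div, ENNReal.one_rpow]
            _ ≤ _ := le_self_add
        · calc (en F ξ) ^ (1/2 : ℝ) ≤ (en F ξ) ^ (p / 2) := by
                apply ENNReal.rpow_le_rpow_of_exponent_le h
                linarith
            _ ≤ (Nsq s (fun y => F (ξ, y))) ^ (p / 2) := by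
                apply ENNReal.rpow_le_rpow _ (by linarith only [hp])
                exact le_self_add
            _ ≤ _ := le_add_self
      · have : en F ξ = 0 := by
          unfold en
          simp [hs1 ξ _ hξ]
        rw [this, ENNReal.zero_rpow_of_pos (by norm_num)]
        exact zero_le
    refine ne_of_lt (lt_of_le_of_lt (lintegral_mono hle) ?_)
    rw [lintegral_add_left (measurable_const.indicator measurableSet_Icc)]
    apply ENNReal.add_lt_top.2
    constructor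
    · rw [lintegral_indicator measurableSet_Icc]
      simp only [lintegral_const, MeasurableSet.univ, Measure.restrict_apply, univ_inter, Real.volume_Icc, sub_zero, ENNReal.ofReal_one, mul_one, ENNReal.one_lt_top]
    · refine lt_of_le_of_lt hN ?_
      exact (ENNReal.rpow_lt_top_of_nonneg (by linarith only [hp]) ENNReal.coe_ne_top)
  have hbd : ∀ n : ℕ, eLpNorm (uB (Sn n) (cG F (Gn F n))) (ENNReal.ofReal p) volume ≤ K * lam := by
    intro n
    exact hK (Sn n) F (Gn F n) lam n hlam hF hs2 (measurableSet_Gn hF n) (fun ξ h => h.1)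
      (fun ξ h => h.2) hN
  have hmeas : ∀ n : ℕ, AEStronglyMeasurable (uB (Sn n) (cG F (Gn F n))) volume := fun n =>
    (measurable_uB (fun k _ => (measurable_fc hF k).indicator
      (measurableSet_Gn hF n))).aestronglyMeasurable
  refine (Lp.eLpNorm_lim_le_liminf_eLpNorm hmeas (EF F)
    (Eventually.of_forall fun x => tendsto_uB hF hs1 hs2 hen x)).trans ?_
  calc atTop.liminf (fun n => eLpNorm (uB (Sn n) (cG F (Gn F n))) (ENNReal.ofReal p) volume)
      ≤ atTop.liminf (fun _ : ℕ => (K : ℝ≥0∞) * lam) :=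
        liminf_le_liminf (Eventually.of_forall hbd)
    _ = K * lam := by simp

end Vale.Agent.P122
end
end

section

section

namespace Vale.Agent.P122

open MeasureTheory Set Filter
open scoped ENNReal NNReal Topology

/-- kernel bound used for Lipschitz multipliers -/
noncomputable def Iker (s : ℝ) : ℝ≥0∞ :=
  ∫⁻ h : ℝ, ENNReal.ofReal (min (4 * h ^ 2) 9) / ENNReal.ofReal (|h| ^ (1 + 2 * s))

theorem lintegral_even {W : ℝ → ℝ≥0∞} (hW : ∀ x, W (-x) = W x) :
    ∫⁻ x, W x ≤ 2 * ∫⁻ x in Ioi (0:ℝ), W x := by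
  have h1 : ∫⁻ x, W x = (∫⁻ x in Iic (0:ℝ), W x) + ∫⁻ x in Ioi (0:ℝ), W x := by
    rw [← lintegral_union measurableSet_Ioi (Iic_disjoint_Ioi le_rfl), Iic_union_Ioi,
      Measure.restrict_univ]
  have h2 : ∫⁻ x in Iic (0:ℝ), W x = ∫⁻ x in Ioi (0:ℝ), W x := by
    rw [← lintegral_indicator measurableSet_Iic, ← lintegral_neg_eq_self,
      setLIntegral_congr (Ioi_ae_eq_Ici (a := (0:ℝ)) (μ := volume)),
      ← lintegral_indicator measurableSet_Ici]
    refine lintegral_congr fun x => ?_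
    by_cases hx : 0 ≤ x
    · have h3 : -x ∈ Iic (0:ℝ) := by simpa only [mem_Iic, Left.neg_nonpos_iff] using hx
      have h4 : x ∈ Ici (0:ℝ) := hx
      rw [indicator_of_mem h3, indicator_of_mem h4, hW]
    · have h3 : -x ∉ Iic (0:ℝ) := by simpa only [mem_Iic, Left.neg_nonpos_iff, not_le] using hx
      have h4 : x ∉ Ici (0:ℝ) := hx
      rw [indicator_of_notMem h3, indicator_of_notMem h4]
  rw [h1, h2, two_mul]

theorem Iker_lt_top {s : ℝ} (h0 : 0 < s) (h1 : s < 1) : Iker s < ∞ := by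
  unfold Iker
  refine lt_of_le_of_lt (lintegral_even fun x => by simp only [even_two, Even.neg_pow, ENNReal.ofReal_min, Nat.ofNat_nonneg, ENNReal.ofReal_mul, ENNReal.ofReal_ofNat, abs_neg]) ?_
  apply ENNReal.mul_lt_top (by norm_num)
  have hu : Ioi (0:ℝ) = Ioc 0 1 ∪ Ioi 1 := (Ioc_union_Ioi_eq_Ioi (by norm_num)).symm
  rw [hu, lintegral_union measurableSet_Ioi (by
    rw [disjoint_left]; intro x hx hx'; exact absurd hx.2 (not_le.2 hx'))]
  apply ENNReal.add_lt_top.2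
  constructor
  · have hint : IntegrableOn (fun x : ℝ => 4 * x ^ (1 - 2 * s)) (Ioc 0 1) := by
      have := (intervalIntegral.intervalIntegrable_rpow' (a := 0) (b := 1) (r := 1 - 2 * s)
        (by linarith only [h1])).const_mul 4
      rwa [intervalIntegrable_iff_integrableOn_Ioc_of_le (by norm_num)] at this
    refine lt_of_le_of_lt ?_ hint.2
    refine setLIntegral_mono' measurableSet_Ioc fun x hx => ?_
    have hx0 : 0 < x := hx.1
    rw [← ENNReal.ofReal_div_of_pos (by positivity)]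
    refine le_trans (ENNReal.ofReal_le_ofReal ?_) (Real.ofReal_le_enorm _)
    rw [abs_of_pos hx0, div_le_iff₀ (by positivity)]
    have : 4 * x ^ (1 - 2 * s) * x ^ (1 + 2 * s) = 4 * x ^ 2 := by
      rw [mul_assoc, ← Real.rpow_add hx0]
      have : 1 - 2 * s + (1 + 2 * s) = ((2 : ℕ) : ℝ) := by push_cast; ring
      rw [this, Real.rpow_natCast]
    rw [this]
    exact min_le_left _ _
  · have hint : IntegrableOn (fun x : ℝ => 9 * x ^ (-(1 + 2 * s))) (Ioi 1) :=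
      (integrableOn_Ioi_rpow_of_lt (by linarith only [h0]) (by norm_num)).const_mul 9
    refine lt_of_le_of_lt ?_ hint.2
    refine setLIntegral_mono' measurableSet_Ioi fun x hx => ?_
    have hx0 : 0 < x := lt_trans one_pos hx
    rw [← ENNReal.ofReal_div_of_pos (by positivity)]
    refine le_trans (ENNReal.ofReal_le_ofReal ?_) (Real.ofReal_le_enorm _)
    rw [abs_of_pos hx0, div_le_iff₀ (by positivity), mul_assoc, ← Real.rpow_add hx0]
    simp only [neg_add_rev, add_neg_add_add_cancel, neg_add_cancel, Real.rpow_zero, mul_one, inf_le_right]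

theorem mul_split (gx gy : ℂ) (mx my : ℝ) (hb : |my| ≤ 3) :
    ‖gx * mx - gy * my‖ₑ ^ 2
      ≤ 2 * (‖gx‖ₑ ^ 2 * ENNReal.ofReal ((mx - my) ^ 2) + 9 * ‖gx - gy‖ₑ ^ 2) := by
  have e : gx * mx - gy * my = gx * ((mx - my : ℝ) : ℂ) + (gx - gy) * my := by
    push_cast
    ring
  rw [e]
  refine (enorm_add_sq_le _ _).trans ?_
  gcongr
  · rw [enorm_mul, mul_pow]
    apply le_of_eq
    congr 1
    rw [← ofReal_norm, ← ENNReal.ofReal_pow (norm_nonneg _), Complex.norm_real, Real.norm_eq_abs,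
      sq_abs]
  · rw [enorm_mul, mul_pow, mul_comm]
    gcongr
    rw [← ofReal_norm, ← ENNReal.ofReal_pow (norm_nonneg _), Complex.norm_real, Real.norm_eq_abs,
      show (9 : ℝ≥0∞) = ENNReal.ofReal 9 by norm_num]
    apply ENNReal.ofReal_le_ofReal
    nlinarith only [hb, abs_nonneg my]

theorem Nsq_mul_le {s : ℝ} {g : ℝ → ℂ} (hg : Measurable g) {m : ℝ → ℝ}
    (hb : ∀ b, |m b| ≤ 3) (hl : ∀ b b', (m b - m b') ^ 2 ≤ min (4 * (b - b') ^ 2) 9) :
    Nsq s (fun b => g b * m b) ≤ (18 + 2 * Iker s) * Nsq s g := by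
  have h1 : ∫⁻ b, ‖g b * m b‖ₑ ^ 2 ≤ 9 * ∫⁻ b, ‖g b‖ₑ ^ 2 := by
    rw [← lintegral_const_mul' _ _ (by norm_num)]
    refine lintegral_mono fun b => ?_
    rw [enorm_mul, mul_pow, mul_comm]
    gcongr
    rw [← ofReal_norm, ← ENNReal.ofReal_pow (norm_nonneg _), Complex.norm_real, Real.norm_eq_abs,
      show (9 : ℝ≥0∞) = ENNReal.ofReal 9 by norm_num]
    apply ENNReal.ofReal_le_ofReal
    nlinarith only [abs_nonneg (m b), hb b]
  have hmk : Measurable fun h : ℝ =>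
      ENNReal.ofReal (min (4 * h ^ 2) 9) / ENNReal.ofReal (|h| ^ (1 + 2 * s)) := by
    apply Measurable.div
    · apply ENNReal.measurable_ofReal.comp
      fun_prop
    · apply ENNReal.measurable_ofReal.comp
      apply Measurable.pow_const
      exact continuous_abs.measurable
  have h2 : gag s (fun b => g b * m b) ≤ 2 * Iker s * (∫⁻ b, ‖g b‖ₑ ^ 2) + 18 * gag s g := by
    have hinner : ∀ x, ∫⁻ y, ‖g x * m x - g y * m y‖ₑ ^ 2 / ENNReal.ofReal (|x - y| ^ (1 + 2 * s))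
        ≤ 2 * Iker s * ‖g x‖ₑ ^ 2
          + 18 * ∫⁻ y, ‖g x - g y‖ₑ ^ 2 / ENNReal.ofReal (|x - y| ^ (1 + 2 * s)) := by
      intro x
      have hpt : ∀ y, ‖g x * m x - g y * m y‖ₑ ^ 2 / ENNReal.ofReal (|x - y| ^ (1 + 2 * s))
          ≤ 2 * ‖g x‖ₑ ^ 2 * (ENNReal.ofReal (min (4 * (x - y) ^ 2) 9)
              / ENNReal.ofReal (|x - y| ^ (1 + 2 * s)))
            + 18 * (‖g x - g y‖ₑ ^ 2 / ENNReal.ofReal (|x - y| ^ (1 + 2 * s))) := by
        intro y
        calc ‖g x * m x - g y * m y‖ₑ ^ 2 / ENNReal.ofReal (|x - y| ^ (1 + 2 * s))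
            ≤ (2 * (‖g x‖ₑ ^ 2 * ENNReal.ofReal (min (4 * (x - y) ^ 2) 9) + 9 * ‖g x - g y‖ₑ ^ 2))
              / ENNReal.ofReal (|x - y| ^ (1 + 2 * s)) := by
              gcongr
              refine (mul_split _ _ _ _ (hb y)).trans ?_
              gcongr
              exact hl x y
          _ = _ := by
              rw [mul_add, ENNReal.add_div]
              congr 1
              · rw [ENNReal.div_eq_inv_mul, ENNReal.div_eq_inv_mul]
                ring
              · rw [ENNReal.div_eq_inv_mul, ENNReal.div_eq_inv_mul]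
                ring
      refine (lintegral_mono hpt).trans ?_
      have hmk' : Measurable fun y : ℝ => ENNReal.ofReal (min (4 * (x - y) ^ 2) 9)
          / ENNReal.ofReal (|x - y| ^ (1 + 2 * s)) := hmk.comp (measurable_const.sub measurable_id)
      have e3 : ∫⁻ y, (ENNReal.ofReal (min (4 * (x - y) ^ 2) 9)
            / ENNReal.ofReal (|x - y| ^ (1 + 2 * s))) = Iker s :=
        lintegral_sub_left_eq_self (fun h : ℝ =>
          ENNReal.ofReal (min (4 * h ^ 2) 9) / ENNReal.ofReal (|h| ^ (1 + 2 * s))) x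
      rw [lintegral_add_left (hmk'.const_mul _), lintegral_const_mul _ hmk',
        lintegral_const_mul' _ _ (by norm_num), e3]
      apply le_of_eq
      ring
    unfold gag
    refine (lintegral_mono hinner).trans ?_
    rw [lintegral_add_left ((hg.enorm.pow_const 2).const_mul _),
      lintegral_const_mul _ (hg.enorm.pow_const 2), lintegral_const_mul' _ _ (by norm_num)]
  calc Nsq s (fun b => g b * m b)
      ≤ 9 * (∫⁻ b, ‖g b‖ₑ ^ 2) + (2 * Iker s * (∫⁻ b, ‖g b‖ₑ ^ 2) + 18 * gag s g) := by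
        unfold Nsq
        (clear * - h1 h2; gcongr)
    _ ≤ 18 * (∫⁻ b, ‖g b‖ₑ ^ 2) + (2 * Iker s * (∫⁻ b, ‖g b‖ₑ ^ 2) + 18 * gag s g)
        + 2 * Iker s * gag s g := by
        refine le_trans ?_ le_self_add
        gcongr
        norm_num
    _ = _ := by
        unfold Nsq
        ring

end Vale.Agent.P122
end
end

section

section

namespace Vale.Agent.P122

open MeasureTheory Set Filter
open scoped ENNReal NNReal Topology

/-- density of the surface measure -/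
noncomputable def dens (a b : ℝ) : ℝ := Real.sqrt (1 + 4 * a ^ 2 + 4 * b ^ 2)

/-- clamped density -/
noncomputable def mfun (a b : ℝ) : ℝ := dens a (max 0 (min b 1))

theorem clamp_mem (b : ℝ) : 0 ≤ max 0 (min b 1) ∧ max 0 (min b 1) ≤ 1 := by
  constructor
  · exact le_max_left _ _
  · exact max_le (by norm_num) (min_le_right _ _)

theorem clamp_lip (b b' : ℝ) : |max 0 (min b 1) - max 0 (min b' 1)| ≤ |b - b'| := by
  have h1 : |max 0 (min b 1) - max 0 (min b' 1)| ≤ |min b 1 - min b' 1| := by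
    rw [max_comm 0, max_comm 0]
    exact abs_max_sub_max_le_abs _ _ _
  refine h1.trans ?_
  have := abs_min_sub_min_le_max b 1 b' 1
  simpa only [ge_iff_le, sub_self, abs_zero, abs_nonneg, sup_of_le_left] using this

theorem mfun_bdd {a : ℝ} (ha : a ∈ Icc (0:ℝ) 1) (b : ℝ) : 0 ≤ mfun a b ∧ mfun a b ≤ 3 := by
  constructor
  · exact Real.sqrt_nonneg _
  · unfold mfun dens
    obtain ⟨h1, h2⟩ := clamp_mem b
    rw [Real.sqrt_le_left (by norm_num)]
    obtain ⟨h3, h4⟩ := ha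
    nlinarith only [h2, h4, h1, h3]

theorem mfun_lip {a : ℝ} (ha : a ∈ Icc (0:ℝ) 1) (b b' : ℝ) :
    (mfun a b - mfun a b') ^ 2 ≤ min (4 * (b - b') ^ 2) 9 := by
  apply le_min
  · have h1 : (max 0 (min b 1) - max 0 (min b' 1)) ^ 2 ≤ (b - b') ^ 2 := by
      rw [← sq_abs (b - b'), ← sq_abs (max 0 (min b 1) - max 0 (min b' 1))]
      exact pow_le_pow_left₀ (abs_nonneg _) (clamp_lip b b') 2
    refine le_trans ?_ (mul_le_mul_of_nonneg_left h1 (by norm_num))
    unfold mfun dens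
    set c := max 0 (min b 1)
    set c' := max 0 (min b' 1)
    have hc : 0 ≤ c := (clamp_mem b).1
    have hc' : 0 ≤ c' := (clamp_mem b').1
    have hA : 0 ≤ 1 + 4 * a ^ 2 + 4 * c ^ 2 := by (clear * -; positivity)
    have hA' : 0 ≤ 1 + 4 * a ^ 2 + 4 * c' ^ 2 := by (clear * -; positivity)
    have hs1 := Real.sq_sqrt hA
    have hs2 := Real.sq_sqrt hA'
    have hprod : 1 + 4 * a ^ 2 + 4 * c * c'
        ≤ Real.sqrt (1 + 4 * a ^ 2 + 4 * c ^ 2) * Real.sqrt (1 + 4 * a ^ 2 + 4 * c' ^ 2) := by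
      rw [← Real.sqrt_mul hA]
      apply Real.le_sqrt_of_sq_le
      nlinarith only [mul_nonneg (sq_nonneg a) (sq_nonneg (c - c'))]
    linarith
  · have h1 := mfun_bdd ha b
    have h2 := mfun_bdd ha b'
    nlinarith [h1.1, h1.2, h2.1, h2.2]

/-- flat data -/
noncomputable def Fd (f : ℝ × ℝ × ℝ → ℂ) : ℝ × ℝ → ℂ :=
  (Icc (0:ℝ) 1 ×ˢ Ioc (0:ℝ) 1).indicator fun ξ => f (graph ξ) * (dens ξ.1 ξ.2 : ℂ)

theorem measurable_graph : Measurable graph := by
  unfold graph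
  fun_prop

theorem measurable_Fd {f : ℝ × ℝ × ℝ → ℂ} (hf : Measurable f) : Measurable (Fd f) := by
  unfold Fd
  apply Measurable.indicator _ (measurableSet_Icc.prod measurableSet_Ioc)
  apply Measurable.mul
  · exact hf.comp measurable_graph
  · apply Complex.measurable_ofReal.comp
    unfold dens
    fun_prop

theorem extension_eq {f : ℝ × ℝ × ℝ → ℂ} (hf : Measurable f) (x : ℝ × ℝ × ℝ) :
    extension f x = EF (Fd f) x := by
  unfold extension surf
  have hm : Measurable fun ω : ℝ × ℝ × ℝ => f ω * Complex.exp (2 * Real.pi * Complex.I *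
    ((x.1 * ω.1 + x.2.1 * ω.2.1 + x.2.2 * ω.2.2 : ℝ) : ℂ)) := by
    apply hf.mul
    apply Complex.measurable_exp.comp
    apply Measurable.const_mul
    apply Complex.measurable_ofReal.comp
    fun_prop
  rw [integral_map measurable_graph.aemeasurable hm.aestronglyMeasurable,
    integral_withDensity_eq_integral_toReal_smul]
  · unfold EF
    have hset : (Icc (0:ℝ) 1 ×ˢ Ioc (0:ℝ) 1 : Set (ℝ × ℝ)) =ᵐ[volume] Icc (0:ℝ) 1 ×ˢ Icc (0:ℝ) 1 := by
      rw [Measure.volume_eq_prod]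
      exact Measure.set_prod_ae_eq (ae_eq_refl _) Ioc_ae_eq_Icc
    rw [← setIntegral_congr_set hset, ← integral_indicator (measurableSet_Icc.prod measurableSet_Ioc)]
    refine integral_congr_ae (Filter.Eventually.of_forall fun ξ => ?_)
    simp only [Fd]
    by_cases hξ : ξ ∈ (Icc (0:ℝ) 1 ×ˢ Ioc (0:ℝ) 1 : Set (ℝ × ℝ))
    · rw [indicator_of_mem hξ, indicator_of_mem hξ, ENNReal.toReal_ofReal (Real.sqrt_nonneg _)]
      unfold dens graph ee
      rw [Complex.real_smul]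
      push_cast
      ring
    · rw [indicator_of_notMem hξ, indicator_of_notMem hξ, zero_mul]
  · apply ENNReal.measurable_ofReal.comp
    fun_prop
  · exact Eventually.of_forall fun _ => ENNReal.ofReal_lt_top

end Vale.Agent.P122
end
end

section

section

namespace Vale.Agent.P122

open MeasureTheory Set Filter
open scoped ENNReal NNReal Topology

theorem Nsq_congr_ae {s : ℝ} {g1 g2 : ℝ → ℂ} (h : g1 =ᵐ[volume] g2) : Nsq s g1 = Nsq s g2 := by
  unfold Nsq gag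
  congr 1
  · apply lintegral_congr_ae
    filter_upwards [h] with x hx
    rw [hx]
  · apply lintegral_congr_ae
    filter_upwards [h] with x hx
    apply lintegral_congr_ae
    filter_upwards [h] with y hy
    rw [hx, hy]

theorem sobolevSq_eq (s : ℝ) (g : ℝ → ℂ) : sobolevSq s g = Nsq s g := rfl

theorem measurable_slice {f : ℝ × ℝ × ℝ → ℂ} (hf : Measurable f) (a : ℝ) :
    Measurable (slice f a) := by
  unfold slice
  apply Measurable.indicator _ measurableSet_Icc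
  apply hf.comp
  fun_prop

theorem Nsq_Fd_le {s : ℝ} {f : ℝ × ℝ × ℝ → ℂ} (hf : Measurable f) {a : ℝ} (ha : a ∈ Icc (0:ℝ) 1) :
    Nsq s (fun y => Fd f (a, y)) ≤ (18 + 2 * Iker s) * sobolevSq s (slice f a) := by
  have h1 : (fun y => Fd f (a, y)) =ᵐ[volume] fun y => slice f a y * mfun a y := by
    have h0 : ∀ᵐ y : ℝ, y ≠ 0 := by
      rw [ae_iff]
      simp
    filter_upwards [h0] with y hy
    unfold Fd slice
    by_cases hy1 : y ∈ Ioc (0:ℝ) 1
    · have hm : (a, y) ∈ (Icc (0:ℝ) 1 ×ˢ Ioc (0:ℝ) 1 : Set (ℝ × ℝ)) := ⟨ha, hy1⟩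
      have hy2 : y ∈ Icc (0:ℝ) 1 := ⟨hy1.1.le, hy1.2⟩
      rw [indicator_of_mem hm, indicator_of_mem hy2]
      unfold graph mfun
      rw [min_eq_left hy1.2, max_eq_right hy1.1.le]
    · have hm : (a, y) ∉ (Icc (0:ℝ) 1 ×ˢ Ioc (0:ℝ) 1 : Set (ℝ × ℝ)) := fun h => hy1 h.2
      have hy2 : y ∉ Icc (0:ℝ) 1 := by
        intro h
        exact hy1 ⟨lt_of_le_of_ne h.1 (Ne.symm hy), h.2⟩
      rw [indicator_of_notMem hm, indicator_of_notMem hy2, zero_mul]
  rw [Nsq_congr_ae h1, sobolevSq_eq]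
  apply Nsq_mul_le (measurable_slice hf a)
  · intro b
    have := mfun_bdd ha b
    rw [abs_of_nonneg this.1]
    exact this.2
  · exact mfun_lip ha

theorem Nsq_Fd_zero {s : ℝ} {f : ℝ × ℝ × ℝ → ℂ} {a : ℝ} (ha : a ∉ Icc (0:ℝ) 1) :
    Nsq s (fun y => Fd f (a, y)) = 0 := by
  have : (fun y => Fd f (a, y)) = fun _ => 0 := by
    ext y
    unfold Fd
    apply indicator_of_notMem
    intro h
    exact ha h.1
  rw [this]
  simp only [Nsq, enorm_zero, ne_eq, OfNat.ofNat_ne_zero, not_false_eq_true, zero_pow, lintegral_const, measure_univ_of_isAddLeftInvariant, zero_mul, gag, sub_self, ENNReal.zero_div, add_zero]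

/-- The extension estimate for data with `s > 1/(2p)` derivatives in one variable. -/
theorem extensionBound {p s : ℝ} (hp : 3 < p) (hs : 1 / (2 * p) < s) (hs1 : s < 1) :
    ExtensionBound p s := by
  have hppos : 0 < p := by linarith only [hp]
  have hspos : 0 < s := by
    have : 0 < 1 / (2 * p) := by positivity
    linarith only [hs, this]
  obtain ⟨K, hK⟩ := flat_bound hp hs
  set Cd : ℝ≥0∞ := 18 + 2 * Iker s with hCd
  have hCdfin : Cd ≠ ∞ := by
    rw [hCd]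
    exact ENNReal.add_ne_top.2 ⟨by norm_num, ENNReal.mul_ne_top (by norm_num) (Iker_lt_top hspos hs1).ne⟩
  have hCdh : Cd ^ (1/2 : ℝ) ≠ ∞ := ENNReal.rpow_ne_top_of_nonneg (by norm_num) hCdfin
  have hCfin : (K : ℝ≥0∞) * Cd ^ (1/2 : ℝ) + 1 ≠ ∞ :=
    ENNReal.add_ne_top.2 ⟨ENNReal.mul_ne_top ENNReal.coe_ne_top hCdh, by norm_num⟩
  refine ⟨((K : ℝ≥0∞) * Cd ^ (1/2 : ℝ) + 1).toNNReal, ?_⟩
  intro f hf
  rw [ENNReal.coe_toNNReal hCfin]
  set X : ℝ≥0∞ := (∫⁻ a in Icc (0:ℝ) 1, (sobolevSq s (slice f a)) ^ (p / 2)) ^ (1 / p) with hX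
  have hXp : ∫⁻ a in Icc (0:ℝ) 1, (sobolevSq s (slice f a)) ^ (p / 2) = X ^ p := by
    rw [hX, ← ENNReal.rpow_mul]
    have : 1 / p * p = 1 := by field_simp
    rw [this, ENNReal.rpow_one]
  by_cases hXt : X = ∞
  · rw [hXt, ENNReal.mul_top]
    · exact le_top
    · exact (lt_of_lt_of_le one_pos le_add_self).ne'
  have hext : extension f = EF (Fd f) := funext fun x => extension_eq hf x
  rw [hext]
  have hs1' : ∀ ξ y, ξ ∉ Icc (0:ℝ) 1 → Fd f (ξ, y) = 0 := by
    intro ξ y hξ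
    exact indicator_of_notMem (fun h => hξ h.1) _
  have hs2' : ∀ ξ y, y ∉ Ioc (0:ℝ) 1 → Fd f (ξ, y) = 0 := by
    intro ξ y hy
    exact indicator_of_notMem (fun h => hy h.2) _
  have hbound : ∫⁻ ξ, (Nsq s (fun y => Fd f (ξ, y))) ^ (p / 2) ≤ (Cd ^ (1/2 : ℝ) * X) ^ p := by
    calc ∫⁻ ξ, (Nsq s (fun y => Fd f (ξ, y))) ^ (p / 2)
        ≤ ∫⁻ ξ in Icc (0:ℝ) 1, Cd ^ (p / 2) * (sobolevSq s (slice f ξ)) ^ (p / 2) := by
          rw [← lintegral_indicator measurableSet_Icc]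
          refine lintegral_mono fun ξ => ?_
          by_cases hξ : ξ ∈ Icc (0:ℝ) 1
          · rw [indicator_of_mem hξ, ← ENNReal.mul_rpow_of_nonneg _ _ (by positivity)]
            exact ENNReal.rpow_le_rpow (Nsq_Fd_le hf hξ) (by positivity)
          · rw [indicator_of_notMem hξ, Nsq_Fd_zero hξ, ENNReal.zero_rpow_of_pos (by positivity)]
      _ = Cd ^ (p / 2) * X ^ p := by
          rw [lintegral_const_mul' _ _ (ENNReal.rpow_ne_top_of_nonneg (by positivity) hCdfin), hXp]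
      _ = _ := by
          have e5 : Cd ^ (p / 2) = (Cd ^ (1/2 : ℝ)) ^ p := by
            rw [← ENNReal.rpow_mul]
            congr 1
            ring
          rw [ENNReal.mul_rpow_of_nonneg _ _ hppos.le, e5]
  have hΛ : Cd ^ (1/2 : ℝ) * X ≠ ∞ := ENNReal.mul_ne_top hCdh hXt
  have hmain : eLpNorm (EF (Fd f)) (ENNReal.ofReal p) volume ≤ K * (Cd ^ (1/2 : ℝ) * X) := by
    apply ENNReal.le_of_forall_pos_le_add
    intro ε hε _
    set δ : ℝ≥0 := ε / (K + 1) with hδ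
    have hδ0 : 0 < δ := by (clear * - hε; positivity)
    have hlam := hK (Fd f) ((Cd ^ (1/2 : ℝ) * X).toNNReal + δ) (by (clear * - hε; positivity)) (measurable_Fd hf)
      hs1' hs2' (by
        refine hbound.trans ?_
        apply ENNReal.rpow_le_rpow _ hppos.le
        rw [ENNReal.coe_add, ENNReal.coe_toNNReal hΛ]
        exact le_self_add)
    refine hlam.trans ?_
    rw [ENNReal.coe_add, ENNReal.coe_toNNReal hΛ, mul_add]
    gcongr
    have h3 : K * δ ≤ ε := by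
      rw [hδ, ← mul_div_assoc, div_le_iff₀ (by (clear * -; positivity))]
      have : K ≤ K + 1 := le_self_add
      calc K * ε ≤ (K + 1) * ε := by (clear * - this; gcongr)
        _ = ε * (K + 1) := mul_comm _ _
    exact_mod_cast h3
  refine hmain.trans ?_
  rw [← mul_assoc]
  gcongr
  exact le_self_add

end Vale.Agent.P122
end
end

section

section

open MeasureTheory
open scoped ENNReal

namespace Vale.Agent.P122

theorem gag_eq_shift (s : ℝ) {g : ℝ → ℂ} (hg : Measurable g) :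
    ∫⁻ b, ∫⁻ b', ‖g b - g b'‖ₑ ^ 2 / ENNReal.ofReal (|b - b'| ^ (1 + 2 * s))
      = ∫⁻ h, (∫⁻ b, ‖g b - g (b + h)‖ₑ ^ 2) * (ENNReal.ofReal (|h| ^ (1 + 2 * s)))⁻¹ := by
  have h1 : ∀ b : ℝ, ∫⁻ b', ‖g b - g b'‖ₑ ^ 2 / ENNReal.ofReal (|b - b'| ^ (1 + 2 * s))
      = ∫⁻ h, ‖g b - g (b + h)‖ₑ ^ 2 * (ENNReal.ofReal (|h| ^ (1 + 2 * s)))⁻¹ := by
    intro b
    rw [← lintegral_add_left_eq_self _ b]
    refine lintegral_congr fun h => ?_
    rw [div_eq_mul_inv]
    congr 4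
    rw [← abs_neg]
    congr 1
    ring
  simp_rw [h1]
  rw [lintegral_lintegral_swap]
  · refine lintegral_congr fun h => ?_
    rw [lintegral_mul_const]
    exact ((hg.sub (hg.comp (measurable_add_const h))).enorm.pow_const 2)
  · apply Measurable.aemeasurable
    apply Measurable.mul
    · exact ((hg.comp measurable_fst).sub (hg.comp (by fun_prop))).enorm.pow_const 2
    · apply Measurable.inv
      apply ENNReal.measurable_ofReal.comp
      fun_prop

/-- the model integral -/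
noncomputable def modJ (s δ : ℝ) : ℝ≥0∞ :=
  ∫⁻ h : ℝ, ENNReal.ofReal (min |h| δ) * (ENNReal.ofReal (|h| ^ (1 + 2 * s)))⁻¹

theorem modJ_meas (s δ : ℝ) :
    Measurable (fun h : ℝ => ENNReal.ofReal (min |h| δ) * (ENNReal.ofReal (|h| ^ (1 + 2 * s)))⁻¹) := by
  apply Measurable.mul
  · apply ENNReal.measurable_ofReal.comp
    fun_prop
  · apply Measurable.inv
    apply ENNReal.measurable_ofReal.comp
    fun_prop

theorem modJ_scale (s : ℝ) {δ : ℝ} (hδ : 0 < δ) :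
    modJ s δ = ENNReal.ofReal (δ ^ (1 - 2 * s)) * modJ s 1 := by
  have h1 := lintegral_comp_mul_left' hδ.ne' (modJ_meas s δ)
  have h2 : ∀ h : ℝ, ENNReal.ofReal (min |δ * h| δ) * (ENNReal.ofReal (|δ * h| ^ (1 + 2 * s)))⁻¹
      = ENNReal.ofReal (δ ^ (- (2 * s))) * (ENNReal.ofReal (min |h| 1) * (ENNReal.ofReal (|h| ^ (1 + 2 * s)))⁻¹) := by
    intro h
    have e1 : min |δ * h| δ = δ * min |h| 1 := by
      rw [abs_mul, abs_of_pos hδ, mul_min_of_nonneg _ _ hδ.le, mul_one]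
    have e2 : |δ * h| ^ (1 + 2 * s) = δ ^ (1 + 2 * s) * |h| ^ (1 + 2 * s) := by
      rw [abs_mul, abs_of_pos hδ, Real.mul_rpow hδ.le (abs_nonneg _)]
    have e3 : (0:ℝ) < δ ^ (1 + 2 * s) := Real.rpow_pos_of_pos hδ _
    rw [e1, e2, ENNReal.ofReal_mul hδ.le, ENNReal.ofReal_mul e3.le,
      ENNReal.mul_inv (Or.inl (by simpa only [ne_eq, ENNReal.ofReal_eq_zero, not_le] using e3)) (Or.inl ENNReal.ofReal_ne_top)]
    have e4 : ENNReal.ofReal δ * (ENNReal.ofReal (δ ^ (1 + 2 * s)))⁻¹ = ENNReal.ofReal (δ ^ (-(2 * s))) := by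
      rw [← ENNReal.ofReal_inv_of_pos e3, ← ENNReal.ofReal_mul hδ.le, ← Real.rpow_neg hδ.le]
      congr 1
      nth_rewrite 1 [← Real.rpow_one δ]
      rw [← Real.rpow_add hδ]
      congr 1
      ring
    calc _ = (ENNReal.ofReal δ * (ENNReal.ofReal (δ ^ (1 + 2 * s)))⁻¹) * (ENNReal.ofReal (min |h| 1) * (ENNReal.ofReal (|h| ^ (1 + 2 * s)))⁻¹) := by ring
      _ = _ := by rw [e4]
  simp_rw [h2] at h1
  rw [lintegral_const_mul _ (modJ_meas s 1)] at h1
  have h3 : modJ s δ = ENNReal.ofReal δ * (ENNReal.ofReal (δ ^ (-(2 * s))) * modJ s 1) := by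
    unfold modJ
    rw [h1, ← mul_assoc, ← ENNReal.ofReal_mul hδ.le, abs_of_pos (by positivity), mul_inv_cancel₀ hδ.ne']
    simp only [ENNReal.ofReal_min, ENNReal.ofReal_one, one_mul]
  rw [h3, ← mul_assoc, ← ENNReal.ofReal_mul hδ.le]
  congr 2
  nth_rewrite 1 [← Real.rpow_one δ]
  rw [← Real.rpow_add hδ]
  congr 1

theorem modJ_fin {s : ℝ} (hs0 : 0 < s) (hs1 : s < 1/2) : modJ s 1 ≠ ∞ := by
  have h1 : ∀ h : ℝ, ENNReal.ofReal (min |h| 1) * (ENNReal.ofReal (|h| ^ (1 + 2 * s)))⁻¹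
      ≤ (Set.Icc (-1:ℝ) 1).indicator (fun a => (ENNReal.ofReal |(2 * a)⁻¹|) ^ (2 * s) * ENNReal.ofReal (2 ^ (2 * s))) h
        + ENNReal.ofReal (2 ^ (1 + 2 * s)) * ENNReal.ofReal ((1 + ‖h‖) ^ (-(1 + 2 * s))) := by
    intro h
    by_cases h0 : h = 0
    · subst h0
      simp only [abs_zero, zero_le_one, inf_of_le_left, ENNReal.ofReal_zero, zero_mul, mul_inv_rev, abs_mul, abs_inv, Nat.abs_ofNat, inv_nonneg, abs_nonneg, ENNReal.ofReal_mul, Nat.ofNat_pos, ENNReal.ofReal_inv_of_pos, ENNReal.ofReal_ofNat, Set.mem_Icc, Left.neg_nonpos_iff, and_self, Set.indicator_of_mem, inv_zero, norm_zero, add_zero, neg_add_rev, Real.one_rpow, ENNReal.ofReal_one, mul_one, zero_le]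
    have habs : 0 < |h| := abs_pos.mpr h0
    have hp : (0:ℝ) < |h| ^ (1 + 2 * s) := Real.rpow_pos_of_pos habs _
    rw [← ENNReal.ofReal_inv_of_pos hp, ← ENNReal.ofReal_mul (by positivity)]
    by_cases hI : h ∈ Set.Icc (-1:ℝ) 1
    · have hle : |h| ≤ 1 := abs_le.mpr ⟨hI.1, hI.2⟩
      rw [Set.indicator_of_mem hI]
      refine le_trans (le_of_eq ?_) le_self_add
      rw [ENNReal.ofReal_rpow_of_pos (by (clear * - h0; positivity)), ← ENNReal.ofReal_mul (by (clear * - h0; positivity))]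
      congr 1
      rw [min_eq_left hle, abs_inv, abs_mul, abs_of_pos (by norm_num : (0:ℝ) < 2), Real.inv_rpow (by positivity),
        Real.mul_rpow (by norm_num) habs.le, Real.rpow_add habs, Real.rpow_one]
      have : (0:ℝ) < 2 ^ (2 * s) := by positivity
      have h5 : (0:ℝ) < |h| ^ (2 * s) := Real.rpow_pos_of_pos habs _
      (clear * - h0; field_simp)
    · rw [Set.indicator_of_notMem hI, zero_add, ← ENNReal.ofReal_mul (by positivity)]
      apply ENNReal.ofReal_le_ofReal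
      have hgt : 1 < |h| := by
        by_contra hcon
        push Not at hcon
        exact hI (abs_le.mp hcon)
      rw [min_eq_right hgt.le, one_mul, Real.norm_eq_abs, Real.rpow_neg (by positivity), ← Real.inv_rpow (by positivity),
        ← Real.inv_rpow (by positivity), ← Real.mul_rpow (by norm_num) (by positivity)]
      apply Real.rpow_le_rpow (by positivity) _ (by linarith only [hs0])
      rw [inv_le_comm₀ habs (by positivity), mul_inv, inv_inv]
      linarith only [hgt]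
  have h2 : ∫⁻ h : ℝ, ((Set.Icc (-1:ℝ) 1).indicator (fun a => (ENNReal.ofReal |(2 * a)⁻¹|) ^ (2 * s) * ENNReal.ofReal (2 ^ (2 * s))) h
        + ENNReal.ofReal (2 ^ (1 + 2 * s)) * ENNReal.ofReal ((1 + ‖h‖) ^ (-(1 + 2 * s)))) < ∞ := by
    rw [lintegral_add_right]
    · apply ENNReal.add_lt_top.mpr
      constructor
      · rw [lintegral_indicator measurableSet_Icc, lintegral_mul_const]
        · apply ENNReal.mul_lt_top
          · have := lintegral_abs_rpow_lt_top (θ := 1 - 2 * s) (by linarith) (by linarith)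
            simpa only [mul_inv_rev, abs_mul, abs_inv, Nat.abs_ofNat, inv_nonneg, abs_nonneg, ENNReal.ofReal_mul,     Nat.ofNat_pos, ENNReal.ofReal_inv_of_pos, ENNReal.ofReal_ofNat, gt_iff_lt, sub_sub_cancel] using this
          · exact ENNReal.ofReal_lt_top
        · apply Measurable.pow_const
          apply ENNReal.measurable_ofReal.comp
          fun_prop
      · rw [lintegral_const_mul]
        · apply ENNReal.mul_lt_top ENNReal.ofReal_lt_top
          apply finite_integral_one_add_norm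
          simp only [Module.finrank_self, Nat.cast_one]
          linarith only [hs0]
        · apply ENNReal.measurable_ofReal.comp
          fun_prop
    · apply Measurable.const_mul
      apply ENNReal.measurable_ofReal.comp
      fun_prop
  exact ((lintegral_mono h1).trans_lt h2).ne

theorem gag_le_of_modulus {s : ℝ} {g : ℝ → ℂ} (hg : Measurable g) {δ : ℝ} (hδ : 0 < δ) {A : ℝ≥0∞}
    (hA : ∀ h, ∫⁻ b, ‖g b - g (b + h)‖ₑ ^ 2 ≤ A * ENNReal.ofReal (min |h| δ)) :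
    ∫⁻ b, ∫⁻ b', ‖g b - g b'‖ₑ ^ 2 / ENNReal.ofReal (|b - b'| ^ (1 + 2 * s))
      ≤ A * (ENNReal.ofReal (δ ^ (1 - 2 * s)) * modJ s 1) := by
  rw [gag_eq_shift s hg, ← modJ_scale s hδ]
  unfold modJ
  rw [← lintegral_const_mul _ (modJ_meas s δ)]
  refine lintegral_mono fun h => ?_
  rw [← mul_assoc]
  gcongr
  exact hA h

end Vale.Agent.P122
end
end

section

section

open MeasureTheory Set
open scoped ENNReal

namespace Vale.Agent.P122

/-- indicator of `[0,δ]` -/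
noncomputable def gInd (δ : ℝ) : ℝ → ℂ := (Icc (0:ℝ) δ).indicator (fun _ => 1)

theorem gInd_meas (δ : ℝ) : Measurable (gInd δ) := measurable_const.indicator measurableSet_Icc

theorem gInd_sub_le (δ h b : ℝ) (S : Set ℝ)
    (hS : b ∉ S → (b ∈ Icc (0:ℝ) δ ↔ b + h ∈ Icc (0:ℝ) δ)) :
    ‖gInd δ b - gInd δ (b + h)‖ₑ ^ 2 ≤ S.indicator 1 b := by
  unfold gInd
  by_cases hb : b ∈ S
  · rw [indicator_of_mem hb]
    have : ‖(Icc (0:ℝ) δ).indicator (fun _ => (1:ℂ)) b - (Icc (0:ℝ) δ).indicator (fun _ => (1:ℂ)) (b + h)‖ₑ ≤ 1 := by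
      by_cases h1 : b ∈ Icc (0:ℝ) δ <;> by_cases h2 : b + h ∈ Icc (0:ℝ) δ
      · simp only [indicator_of_mem h1, indicator_of_mem h2, sub_self, enorm_zero, zero_le]
      · simp only [indicator_of_mem h1, indicator_of_notMem h2, sub_zero, enorm_one, Std.le_refl]
      · simp only [indicator_of_notMem h1, indicator_of_mem h2, zero_sub, enorm_neg, enorm_one, Std.le_refl]
      · simp only [indicator_of_notMem h1, indicator_of_notMem h2, sub_self, enorm_zero, zero_le]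
    calc _ ≤ (1:ℝ≥0∞) ^ 2 := by gcongr
      _ = _ := by simp
  · have h3 := hS hb
    by_cases h1 : b ∈ Icc (0:ℝ) δ
    · have h2 := h3.mp h1
      simp only [indicator_of_mem h1, indicator_of_mem h2, sub_self, enorm_zero, ne_eq, OfNat.ofNat_ne_zero, not_false_eq_true, zero_pow, zero_le]
    · have h2 : b + h ∉ Icc (0:ℝ) δ := fun h4 => h1 (h3.mpr h4)
      simp only [indicator_of_notMem h1, indicator_of_notMem h2, sub_self, enorm_zero, ne_eq, OfNat.ofNat_ne_zero, not_false_eq_true, zero_pow, zero_le]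

theorem gInd_modulus {δ : ℝ} (hδ : 0 < δ) (h : ℝ) :
    ∫⁻ b, ‖gInd δ b - gInd δ (b + h)‖ₑ ^ 2 ≤ 4 * ENNReal.ofReal (min |h| δ) := by
  rcases le_total |h| δ with hle | hle
  · rw [min_eq_left hle]
    calc _ ≤ ∫⁻ b, (Icc (-|h|) |h| ∪ Icc (δ - |h|) (δ + |h|)).indicator 1 b := by
          refine lintegral_mono fun b => gInd_sub_le δ h b _ ?_
          intro hb
          simp only [mem_union, mem_Icc, not_or, not_and_or, not_le] at hb
          have h1 := le_abs_self h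
          have h2 := neg_abs_le h
          constructor
          · rintro ⟨h3, h4⟩
            constructor
            · rcases hb.1 with h5 | h5 <;> linarith
            · rcases hb.2 with h5 | h5 <;> linarith only [h1, h4, h5]
          · rintro ⟨h3, h4⟩
            constructor
            · rcases hb.1 with h5 | h5
              · linarith
              · linarith only [h1, h2, h5]
            · rcases hb.2 with h5 | h5
              · linarith only [h1, h2, h5]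
              · linarith
      _ = volume (Icc (-|h|) |h| ∪ Icc (δ - |h|) (δ + |h|)) := by
          rw [lintegral_indicator_one (measurableSet_Icc.union measurableSet_Icc)]
      _ ≤ volume (Icc (-|h|) |h|) + volume (Icc (δ - |h|) (δ + |h|)) := measure_union_le _ _
      _ = 4 * ENNReal.ofReal |h| := by
          rw [Real.volume_Icc, Real.volume_Icc, ← ENNReal.ofReal_add (by linarith [abs_nonneg h]) (by linarith [abs_nonneg h])]
          have : |h| - -|h| + (δ + |h| - (δ - |h|)) = 4 * |h| := by ring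
          rw [this, ENNReal.ofReal_mul (by norm_num)]
          norm_num
  · rw [min_eq_right hle]
    calc _ ≤ ∫⁻ b, (Icc 0 δ ∪ Icc (-h) (δ - h)).indicator 1 b := by
          refine lintegral_mono fun b => gInd_sub_le δ h b _ ?_
          intro hb
          simp only [mem_union, not_or] at hb
          constructor
          · intro h3
            exact absurd h3 hb.1
          · intro h3
            exfalso
            apply hb.2
            constructor
            · have := h3.1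
              linarith only [this]
            · have := h3.2
              linarith
      _ = volume (Icc 0 δ ∪ Icc (-h) (δ - h)) := by
          rw [lintegral_indicator_one (measurableSet_Icc.union measurableSet_Icc)]
      _ ≤ volume (Icc 0 δ) + volume (Icc (-h) (δ - h)) := measure_union_le _ _
      _ = 2 * ENNReal.ofReal δ := by
          rw [Real.volume_Icc, Real.volume_Icc, ← ENNReal.ofReal_add (by linarith) (by linarith)]
          have : δ - 0 + (δ - h - -h) = 2 * δ := by ring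
          rw [this, ENNReal.ofReal_mul (by norm_num)]
          norm_num
      _ ≤ 4 * ENNReal.ofReal δ := by
          gcongr
          norm_num

theorem sobolevSq_gInd {s δ : ℝ} (hs0 : 0 < s) (hδ : 0 < δ) (hδ1 : δ ≤ 1) :
    sobolevSq s (gInd δ) ≤ (1 + 4 * modJ s 1) * ENNReal.ofReal (δ ^ (1 - 2 * s)) := by
  unfold sobolevSq
  have h1 : ∫⁻ b, ‖gInd δ b‖ₑ ^ 2 ≤ ENNReal.ofReal (δ ^ (1 - 2 * s)) := by
    have h2 : ∀ b, ‖gInd δ b‖ₑ ^ 2 = (Icc (0:ℝ) δ).indicator 1 b := by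
      intro b
      unfold gInd
      by_cases hb : b ∈ Icc (0:ℝ) δ
      · simp only [indicator_of_mem hb, enorm_one, one_pow, Pi.one_apply]
      · simp only [indicator_of_notMem hb, enorm_zero, ne_eq, OfNat.ofNat_ne_zero, not_false_eq_true, zero_pow]
    simp_rw [h2]
    rw [lintegral_indicator_one measurableSet_Icc, Real.volume_Icc, sub_zero]
    apply ENNReal.ofReal_le_ofReal
    nth_rewrite 1 [← Real.rpow_one δ]
    exact Real.rpow_le_rpow_of_exponent_ge hδ hδ1 (by linarith)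
  have h3 := gag_le_of_modulus (s := s) (gInd_meas δ) hδ (gInd_modulus hδ)
  calc _ ≤ ENNReal.ofReal (δ ^ (1 - 2 * s)) + 4 * (ENNReal.ofReal (δ ^ (1 - 2 * s)) * modJ s 1) := add_le_add h1 h3
    _ = _ := by ring

/-- test function -/
noncomputable def fTest (δ : ℝ) : ℝ × ℝ × ℝ → ℂ :=
  (Icc (0:ℝ) δ ×ˢ (Icc (0:ℝ) δ ×ˢ (univ : Set ℝ))).indicator (fun _ => 1)

theorem fTest_meas (δ : ℝ) : Measurable (fTest δ) :=
  measurable_const.indicator (measurableSet_Icc.prod (measurableSet_Icc.prod MeasurableSet.univ))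

theorem slice_fTest {δ : ℝ} (hδ1 : δ ≤ 1) (a : ℝ) :
    slice (fTest δ) a = (Icc (0:ℝ) δ).indicator (fun _ => gInd δ) a := by
  ext b
  unfold slice fTest gInd
  by_cases ha : a ∈ Icc (0:ℝ) δ
  · rw [indicator_of_mem ha]
    by_cases hb : b ∈ Icc (0:ℝ) δ
    · have hb1 : b ∈ Icc (0:ℝ) 1 := ⟨hb.1, hb.2.trans hδ1⟩
      rw [indicator_of_mem hb1, indicator_of_mem hb, indicator_of_mem]
      exact ⟨ha, hb, trivial⟩
    · rw [indicator_of_notMem hb]
      by_cases hb1 : b ∈ Icc (0:ℝ) 1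
      · rw [indicator_of_mem hb1, indicator_of_notMem]
        rintro ⟨_, h, _⟩
        exact hb h
      · rw [indicator_of_notMem hb1]
  · rw [indicator_of_notMem ha]
    by_cases hb1 : b ∈ Icc (0:ℝ) 1
    · rw [indicator_of_mem hb1, indicator_of_notMem]
      · rfl
      · rintro ⟨h, _, _⟩
        exact ha h
    · rw [indicator_of_notMem hb1]
      rfl

theorem sobolevSq_zero (s : ℝ) : sobolevSq s 0 = 0 := by
  unfold sobolevSq
  simp

theorem rhs_le {p s δ : ℝ} (hp : 0 < p) (hs0 : 0 < s) (hδ : 0 < δ) (hδ1 : δ ≤ 1) :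
    ∫⁻ a in Icc (0:ℝ) 1, (sobolevSq s (slice (fTest δ) a)) ^ (p / 2)
      ≤ ENNReal.ofReal δ * ((1 + 4 * modJ s 1) * ENNReal.ofReal (δ ^ (1 - 2 * s))) ^ (p / 2) := by
  have h1 : ∀ a, (sobolevSq s (slice (fTest δ) a)) ^ (p / 2)
      ≤ (Icc (0:ℝ) δ).indicator (fun _ => ((1 + 4 * modJ s 1) * ENNReal.ofReal (δ ^ (1 - 2 * s))) ^ (p / 2)) a := by
    intro a
    rw [slice_fTest hδ1]
    by_cases ha : a ∈ Icc (0:ℝ) δ
    · rw [indicator_of_mem ha, indicator_of_mem ha]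
      gcongr
      exact sobolevSq_gInd hs0 hδ hδ1
    · rw [indicator_of_notMem ha, indicator_of_notMem ha]
      rw [sobolevSq_zero, ENNReal.zero_rpow_of_pos (by linarith only [hp])]
  calc _ ≤ ∫⁻ a in Icc (0:ℝ) 1, (Icc (0:ℝ) δ).indicator (fun _ => ((1 + 4 * modJ s 1) * ENNReal.ofReal (δ ^ (1 - 2 * s))) ^ (p / 2)) a :=
        lintegral_mono h1
    _ ≤ ∫⁻ a, (Icc (0:ℝ) δ).indicator (fun _ => ((1 + 4 * modJ s 1) * ENNReal.ofReal (δ ^ (1 - 2 * s))) ^ (p / 2)) a :=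
        lintegral_mono' Measure.restrict_le_self le_rfl
    _ = _ := by
        rw [lintegral_indicator measurableSet_Icc, lintegral_const]
        simp only [mul_comm, MeasurableSet.univ, Measure.restrict_apply, univ_inter, Real.volume_Icc, sub_zero]

theorem extension_eq_sq {f : ℝ × ℝ × ℝ → ℂ} (hf : Measurable f) (x : ℝ × ℝ × ℝ) :
    extension f x = ∫ ξ in Icc (0:ℝ) 1 ×ˢ Icc (0:ℝ) 1, Real.sqrt (1 + 4 * ξ.1 ^ 2 + 4 * ξ.2 ^ 2) •
      (f (graph ξ) * ee (x.1 * ξ.1 + x.2.1 * ξ.2 + x.2.2 * (ξ.1 ^ 2 + ξ.2 ^ 2))) := by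
  unfold extension surf
  have hg : Measurable graph := by
    unfold graph
    fun_prop
  have hE : Measurable (fun ω : ℝ × ℝ × ℝ => f ω * Complex.exp (2 * Real.pi * Complex.I *
    ((x.1 * ω.1 + x.2.1 * ω.2.1 + x.2.2 * ω.2.2 : ℝ) : ℂ))) := by
    apply hf.mul
    apply Complex.continuous_exp.measurable.comp
    apply Measurable.const_mul
    apply Complex.continuous_ofReal.measurable.comp
    fun_prop
  rw [integral_map hg.aemeasurable hE.aestronglyMeasurable]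
  rw [integral_withDensity_eq_integral_toReal_smul]
  · refine integral_congr_ae (Filter.Eventually.of_forall fun ξ => ?_)
    simp only
    rw [ENNReal.toReal_ofReal (Real.sqrt_nonneg _)]
    rfl
  · apply ENNReal.measurable_ofReal.comp
    fun_prop
  · exact Filter.Eventually.of_forall fun _ => ENNReal.ofReal_lt_top

theorem re_ee (θ : ℝ) : (ee θ).re = Real.cos (2 * Real.pi * θ) := by
  unfold ee
  rw [show (2 * Real.pi * Complex.I * θ : ℂ) = ((2 * Real.pi * θ : ℝ) : ℂ) * Complex.I by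
    push_cast; ring]
  exact Complex.exp_ofReal_mul_I_re _

theorem re_ee_ge {θ : ℝ} (h : |θ| ≤ 1/6) : 1/2 ≤ (ee θ).re := by
  rw [re_ee, ← Real.cos_abs, ← Real.cos_pi_div_three]
  have hpi := Real.pi_pos
  apply Real.cos_le_cos_of_nonneg_of_le_pi (abs_nonneg _)
  · linarith only [hpi]
  · rw [abs_mul, abs_of_pos (by positivity : 0 < 2 * Real.pi)]
    nlinarith only [h, hpi]

theorem extension_fTest_ge {δ : ℝ} (hδ : 0 < δ) (hδ1 : δ ≤ 1) {x : ℝ × ℝ × ℝ}
    (h1 : |x.1| ≤ 1 / (24 * δ)) (h2 : |x.2.1| ≤ 1 / (24 * δ)) (h3 : |x.2.2| ≤ 1 / (24 * δ ^ 2)) :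
    ENNReal.ofReal (δ ^ 2 / 2) ≤ ‖extension (fTest δ) x‖ₑ := by
  rw [extension_eq_sq (fTest_meas δ)]
  set D : Set (ℝ × ℝ) := Icc (0:ℝ) δ ×ˢ Icc (0:ℝ) δ with hD
  have hDm : MeasurableSet D := measurableSet_Icc.prod measurableSet_Icc
  set F : ℝ × ℝ → ℂ := fun ξ => Real.sqrt (1 + 4 * ξ.1 ^ 2 + 4 * ξ.2 ^ 2) •
      ee (x.1 * ξ.1 + x.2.1 * ξ.2 + x.2.2 * (ξ.1 ^ 2 + ξ.2 ^ 2)) with hF
  have hDsub : D ⊆ Icc (0:ℝ) 1 ×ˢ Icc (0:ℝ) 1 := by
    rintro ⟨a, b⟩ ⟨ha, hb⟩
    exact ⟨⟨ha.1, ha.2.trans hδ1⟩, ⟨hb.1, hb.2.trans hδ1⟩⟩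
  have e1 : ∫ ξ in Icc (0:ℝ) 1 ×ˢ Icc (0:ℝ) 1, Real.sqrt (1 + 4 * ξ.1 ^ 2 + 4 * ξ.2 ^ 2) •
      (fTest δ (graph ξ) * ee (x.1 * ξ.1 + x.2.1 * ξ.2 + x.2.2 * (ξ.1 ^ 2 + ξ.2 ^ 2)))
      = ∫ ξ in D, F ξ := by
    have e2 : ∀ ξ : ℝ × ℝ, Real.sqrt (1 + 4 * ξ.1 ^ 2 + 4 * ξ.2 ^ 2) •
      (fTest δ (graph ξ) * ee (x.1 * ξ.1 + x.2.1 * ξ.2 + x.2.2 * (ξ.1 ^ 2 + ξ.2 ^ 2))) = D.indicator F ξ := by
      intro ξ
      by_cases hξ : ξ ∈ D
      · rw [indicator_of_mem hξ]
        have : fTest δ (graph ξ) = 1 := by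
          unfold fTest graph
          rw [indicator_of_mem]
          exact ⟨hξ.1, hξ.2, trivial⟩
        rw [this, one_mul]
      · rw [indicator_of_notMem hξ]
        have : fTest δ (graph ξ) = 0 := by
          unfold fTest graph
          rw [indicator_of_notMem]
          rintro ⟨h4, h5, _⟩
          exact hξ ⟨h4, h5⟩
        rw [this, zero_mul, smul_zero]
    simp_rw [e2]
    rw [setIntegral_indicator hDm, inter_eq_right.mpr hDsub]
  rw [e1]
  have hFc : Continuous F := by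
    have c1 : Continuous (fun ξ : ℝ × ℝ => Real.sqrt (1 + 4 * ξ.1 ^ 2 + 4 * ξ.2 ^ 2)) := by (clear * -; fun_prop)
    have c2 : Continuous (fun ξ : ℝ × ℝ => ee (x.1 * ξ.1 + x.2.1 * ξ.2 + x.2.2 * (ξ.1 ^ 2 + ξ.2 ^ 2))) :=
      continuous_ee.comp (by fun_prop)
    exact c1.smul c2
  have hFi : IntegrableOn F D := hFc.continuousOn.integrableOn_compact (isCompact_Icc.prod isCompact_Icc)
  have hre : δ ^ 2 / 2 ≤ (∫ ξ in D, F ξ).re := by
    have h4 : (∫ ξ in D, F ξ).re = ∫ ξ in D, (F ξ).re := by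
      have := integral_re (𝕜 := ℂ) hFi
      exact this.symm
    rw [h4]
    have h5 : ∫ ξ in D, (1/2 : ℝ) = δ ^ 2 / 2 := by
      rw [setIntegral_const, measureReal_def, hD, Measure.volume_eq_prod, Measure.prod_prod, Real.volume_Icc, sub_zero,
        ← ENNReal.ofReal_mul hδ.le, ENNReal.toReal_ofReal (by positivity), smul_eq_mul]
      ring
    rw [← h5]
    apply setIntegral_mono_on
    · rw [integrableOn_const_iff]
      right
      rw [hD, Measure.volume_eq_prod, Measure.prod_prod]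
      simp only [Real.volume_Icc, sub_zero, ENNReal.ofReal_lt_top, ENNReal.mul_lt_top]
    · exact hFi.re
    · exact hDm
    · rintro ⟨a, b⟩ ⟨ha, hb⟩
      have ha0 : 0 ≤ a := ha.1
      have ha1 : a ≤ δ := ha.2
      have hb0 : 0 ≤ b := hb.1
      have hb1 : b ≤ δ := hb.2
      have hphase : |x.1 * a + x.2.1 * b + x.2.2 * (a ^ 2 + b ^ 2)| ≤ 1/6 := by
        calc _ ≤ |x.1 * a| + |x.2.1 * b| + |x.2.2 * (a ^ 2 + b ^ 2)| := abs_add_three _ _ _
          _ = |x.1| * a + |x.2.1| * b + |x.2.2| * (a ^ 2 + b ^ 2) := by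
            rw [abs_mul, abs_mul, abs_mul, abs_of_nonneg ha0, abs_of_nonneg hb0, abs_of_nonneg (by (clear * -; positivity) : 0 ≤ a ^ 2 + b ^ 2)]
          _ ≤ 1 / (24 * δ) * δ + 1 / (24 * δ) * δ + 1 / (24 * δ ^ 2) * (δ ^ 2 + δ ^ 2) := by (clear * - h1 ha1 ha0 hδ h2 hb1 hb0 h3; gcongr)
          _ = 1/6 := by
            field_simp
            norm_num
      have h6 := re_ee_ge hphase
      simp only [hF]
      rw [Complex.smul_re, smul_eq_mul]
      have h7 : 1 ≤ Real.sqrt (1 + 4 * a ^ 2 + 4 * b ^ 2) := by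
        rw [Real.one_le_sqrt]
        nlinarith only []
      nlinarith only [h6, h7]
  rw [← ofReal_norm]
  apply ENNReal.ofReal_le_ofReal
  exact hre.trans (Complex.re_le_norm _)

theorem lhs_ge {p δ : ℝ} (hp : 0 < p) (hδ : 0 < δ) (hδ1 : δ ≤ 1) :
    ENNReal.ofReal (δ ^ 2 / 2) ^ p * ENNReal.ofReal (1 / (1728 * δ ^ 4))
      ≤ ∫⁻ x : ℝ × ℝ × ℝ, ‖extension (fTest δ) x‖ₑ ^ p := by
  set r : ℝ := 1 / (24 * δ) with hr
  set r2 : ℝ := 1 / (24 * δ ^ 2) with hr2
  have hr0 : 0 < r := by positivity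
  have hr20 : 0 < r2 := by positivity
  set Q : Set (ℝ × ℝ × ℝ) := Icc (-r) r ×ˢ (Icc (-r) r ×ˢ Icc (-r2) r2) with hQ
  have hQm : MeasurableSet Q := measurableSet_Icc.prod (measurableSet_Icc.prod measurableSet_Icc)
  have hvol : volume Q = ENNReal.ofReal (1 / (1728 * δ ^ 4)) := by
    rw [hQ, Measure.volume_eq_prod, Measure.prod_prod, Measure.volume_eq_prod, Measure.prod_prod, Real.volume_Icc,
      Real.volume_Icc, ← ENNReal.ofReal_mul (by linarith only [hr0]), ← ENNReal.ofReal_mul (by linarith only [hr0])]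
    congr 1
    rw [hr, hr2]
    field_simp
    norm_num
  calc _ = ∫⁻ x in Q, ENNReal.ofReal (δ ^ 2 / 2) ^ p := by
        rw [setLIntegral_const, hvol]
    _ ≤ ∫⁻ x in Q, ‖extension (fTest δ) x‖ₑ ^ p := by
        apply setLIntegral_mono' hQm
        rintro ⟨x1, x2, t⟩ ⟨h1, h2, h3⟩
        gcongr
        exact extension_fTest_ge hδ hδ1 (abs_le.mpr h1) (abs_le.mpr h2) (abs_le.mpr h3)
    _ ≤ _ := setLIntegral_le_lintegral _ _

/-- The extension estimate fails for `s < 5/p - 3/2`. -/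
theorem not_extensionBound {p s : ℝ} (hp : 3 < p) (hs0 : 0 < s) (hs : s < 5 / p - 3 / 2) :
    ¬ ExtensionBound p s := by
  rintro ⟨C, hC⟩
  have hp0 : 0 < p := by linarith only [hp]
  have hs16 : s < 1/6 := by
    have : 5 / p < 5 / 3 := by
      apply div_lt_div_of_pos_left <;> linarith only [hp]
    linarith only [hs, this]
  set K : ℝ≥0∞ := 1 + 4 * modJ s 1 with hK
  have hKfin : K ≠ ∞ := by
    have := modJ_fin hs0 (by linarith only [hs16] : s < 1/2)
    exact ENNReal.add_ne_top.mpr ⟨by simp, ENNReal.mul_ne_top (by simp) this⟩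
  -- main inequality
  have main : ∀ δ : ℝ, 0 < δ → δ ≤ 1 →
      ENNReal.ofReal (δ ^ 2 / 2) ^ p * ENNReal.ofReal (1 / (1728 * δ ^ 4))
        ≤ (C : ℝ≥0∞) ^ p * (ENNReal.ofReal δ * (K * ENNReal.ofReal (δ ^ (1 - 2 * s))) ^ (p / 2)) := by
    intro δ hδ hδ1
    have h1 := hC (fTest δ) (fTest_meas δ)
    rw [eLpNorm_eq_lintegral_rpow_enorm_toReal (by simpa only [ne_eq, ENNReal.ofReal_eq_zero, not_le] using hp0) (by simp),
      ENNReal.toReal_ofReal hp0.le] at h1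
    have h2 : ∫⁻ x : ℝ × ℝ × ℝ, ‖extension (fTest δ) x‖ₑ ^ p
        ≤ (C : ℝ≥0∞) ^ p * (∫⁻ a in Icc (0:ℝ) 1, (sobolevSq s (slice (fTest δ) a)) ^ (p / 2)) := by
      have h3 := ENNReal.rpow_le_rpow h1 hp0.le
      rw [← ENNReal.rpow_mul, ENNReal.mul_rpow_of_nonneg _ _ hp0.le, ← ENNReal.rpow_mul] at h3
      have h4 : 1 / p * p = 1 := by field_simp
      rw [h4, ENNReal.rpow_one, ENNReal.rpow_one] at h3
      exact h3
    refine (lhs_ge hp0 hδ hδ1).trans (h2.trans ?_)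
    gcongr
    exact rhs_le hp0 hs0 hδ hδ1
  -- real form
  set D : ℝ := ((C : ℝ) ^ p * K.toReal ^ (p / 2)) * 1728 * 2 ^ p with hD
  have hD0 : 0 ≤ D := by (clear * -; positivity)
  set e : ℝ := -(3 * p / 2 - 5 + s * p) with he
  have he0 : 0 < e := by
    rw [he]
    have h5 : s * p < 5 - 3 / 2 * p := by
      have := mul_lt_mul_of_pos_right hs hp0
      have h6 : (5 / p - 3 / 2) * p = 5 - 3 / 2 * p := by (clear * - hp; field_simp)
      linarith only [this, h6]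
    linarith only [h5]
  have hreal : ∀ δ : ℝ, 0 < δ → δ ≤ 1 → δ ^ (-e) ≤ D := by
    intro δ hδ hδ1
    have h1 := main δ hδ hδ1
    have e1 : ENNReal.ofReal (δ ^ 2 / 2) ^ p * ENNReal.ofReal (1 / (1728 * δ ^ 4))
        = ENNReal.ofReal ((δ ^ 2 / 2) ^ p * (1 / (1728 * δ ^ 4))) := by
      rw [ENNReal.ofReal_rpow_of_pos (by (clear * - hδ; positivity)), ← ENNReal.ofReal_mul (by positivity)]
    have e2 : (C : ℝ≥0∞) ^ p * (ENNReal.ofReal δ * (K * ENNReal.ofReal (δ ^ (1 - 2 * s))) ^ (p / 2))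
        = ENNReal.ofReal ((C : ℝ) ^ p * (δ * (K.toReal * δ ^ (1 - 2 * s)) ^ (p / 2))) := by
      have g1 : ENNReal.ofReal ((C : ℝ) ^ p) = (C : ℝ≥0∞) ^ p := by
        rw [← ENNReal.ofReal_rpow_of_nonneg (by (clear * -; positivity)) hp0.le, ENNReal.ofReal_coe_nnreal]
      have g2 : ENNReal.ofReal ((K.toReal * δ ^ (1 - 2 * s)) ^ (p / 2)) = (K * ENNReal.ofReal (δ ^ (1 - 2 * s))) ^ (p / 2) := by
        rw [← ENNReal.ofReal_rpow_of_nonneg (by (clear * - hδ; positivity)) (by (clear * - hp; positivity)), ENNReal.ofReal_mul (by (clear * -; positivity)),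
          ENNReal.ofReal_toReal hKfin]
      rw [ENNReal.ofReal_mul (by (clear * -; positivity)), ENNReal.ofReal_mul hδ.le, g1, g2]
    rw [e1, e2] at h1
    have h2 := (ENNReal.ofReal_le_ofReal_iff (by (clear * - hδ; positivity))).mp h1
    have h3 : (δ ^ 2 / 2) ^ p * (1 / (1728 * δ ^ 4)) = δ ^ (2 * p - 4) / (2 ^ p * 1728) := by
      rw [Real.div_rpow (by positivity) (by norm_num), ← Real.rpow_natCast δ 2, ← Real.rpow_mul hδ.le,
        Real.rpow_sub hδ, ← Real.rpow_natCast δ 4]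
      push_cast
      (clear * - hδ; field_simp)
    have h4 : (C : ℝ) ^ p * (δ * (K.toReal * δ ^ (1 - 2 * s)) ^ (p / 2))
        = (C : ℝ) ^ p * K.toReal ^ (p / 2) * δ ^ (1 + (1 - 2 * s) * (p / 2)) := by
      rw [Real.mul_rpow (by (clear * -; positivity)) (by (clear * - hδ; positivity)), ← Real.rpow_mul hδ.le, Real.rpow_add hδ, Real.rpow_one]
      ring
    rw [h3, h4, div_le_iff₀ (by positivity)] at h2
    have h5 : δ ^ (-e) * δ ^ (1 + (1 - 2 * s) * (p / 2)) = δ ^ (2 * p - 4) := by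
      rw [← Real.rpow_add hδ]
      congr 1
      rw [he]
      ring
    rw [← h5] at h2
    have h6 : 0 < δ ^ (1 + (1 - 2 * s) * (p / 2)) := Real.rpow_pos_of_pos hδ _
    have h7 : δ ^ (-e) * δ ^ (1 + (1 - 2 * s) * (p / 2)) ≤ D * δ ^ (1 + (1 - 2 * s) * (p / 2)) := by
      refine h2.trans (le_of_eq ?_)
      rw [hD]
      ring
    exact le_of_mul_le_mul_right h7 h6
  have h8 := hreal ((D + 1) ^ (-(1 / e))) (by (clear * -; positivity)) (by
    apply Real.rpow_le_one_of_one_le_of_nonpos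
    · linarith only [hD0]
    · have : 0 < 1 / e := by (clear * - he0; positivity)
      linarith only [this])
  rw [← Real.rpow_mul (by (clear * -; positivity))] at h8
  have h9 : -(1 / e) * -e = 1 := by (clear * - he0; field_simp)
  rw [h9, Real.rpow_one] at h8
  linarith only [h8]

theorem sharp {s : ℝ} (h0 : 0 < s) (h1 : s < 1/6) : ∃ p : ℝ, 3 < p ∧ ¬ ExtensionBound p s := by
  refine ⟨5 / (3 / 2 + (s + 1 / 6) / 2), ?_, ?_⟩
  · rw [lt_div_iff₀ (by positivity)]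
    linarith
  · apply not_extensionBound
    · rw [lt_div_iff₀ (by positivity)]
      linarith
    · exact h0
    · rw [div_div_cancel₀ (by norm_num)]
      linarith

end Vale.Agent.P122
end
end

section

section

open MeasureTheory Set
open scoped ENNReal NNReal

namespace Vale.Agent.P122

theorem lintegral_real_eq_tsum {h : ℝ} (hh : 0 < h) {F : ℝ → ℝ≥0∞} (hF : Measurable F) :
    ∫⁻ b, F b = ∫⁻ b in Ioc (0:ℝ) h, ∑' n : ℤ, F (b + n * h) := by
  have h1 : (⋃ n : ℤ, Ioc (n • h) ((n + 1) • h)) = univ := iUnion_Ioc_zsmul hh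
  have h2 : Pairwise (Function.onFun Disjoint fun n : ℤ => Ioc (n • h) ((n + 1) • h)) := by
    exact pairwise_disjoint_Ioc_zsmul h
  rw [lintegral_tsum]
  · rw [← setLIntegral_univ, ← h1, lintegral_iUnion (fun n => measurableSet_Ioc) h2]
    congr 1
    ext n
    have h3 : ∫⁻ b in Ioc (0:ℝ) h, F (b + n * h) = ∫⁻ b in Ioc (n • h) ((n + 1) • h), F b := by
      rw [← lintegral_indicator measurableSet_Ioc, ← lintegral_indicator measurableSet_Ioc,
        ← lintegral_add_right_eq_self ((Ioc (n • h) ((n + 1) • h)).indicator F) (n * h)]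
      congr 1
      ext b
      have h4 : b ∈ Ioc (0:ℝ) h ↔ b + n * h ∈ Ioc (n • h) ((n + 1) • h) := by
        simp only [mem_Ioc, zsmul_eq_mul, Int.cast_add, Int.cast_one]
        constructor
        · rintro ⟨h5, h6⟩
          constructor <;> linarith only [h5, h6]
        · rintro ⟨h5, h6⟩
          constructor <;> linarith only [h5, h6]
      by_cases hb : b ∈ Ioc (0:ℝ) h
      · rw [indicator_of_mem hb, indicator_of_mem (h4.mp hb)]
      · rw [indicator_of_notMem hb, indicator_of_notMem (fun h5 => hb (h4.mpr h5))]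
    exact h3.symm
  · intro n
    exact (hF.comp (measurable_add_const _)).aemeasurable

/-- `∫ |G(b+h) - G(b)| db ≤ h Var(G)` -/
theorem lintegral_translate_sub_le {G : ℝ → ℂ} (hG : Measurable G) {h : ℝ} (hh : 0 < h) :
    ∫⁻ b, ‖G b - G (b + h)‖ₑ ≤ ENNReal.ofReal h * eVariationOn G univ := by
  rw [lintegral_real_eq_tsum hh]
  · have key : ∀ b : ℝ, ∑' n : ℤ, ‖G (b + n * h) - G (b + n * h + h)‖ₑ ≤ eVariationOn G univ := by
      intro b
      rw [ENNReal.tsum_eq_iSup_sum]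
      refine iSup_le fun S => ?_
      obtain ⟨M, hM⟩ : ∃ M : ℕ, ∀ n ∈ S, -(M:ℤ) ≤ n ∧ n < M := by
        refine ⟨(S.sup fun n => n.natAbs) + 1, fun n hn => ?_⟩
        have h1 : n.natAbs ≤ S.sup fun n => n.natAbs := Finset.le_sup (f := fun n : ℤ => n.natAbs) hn
        omega
      have h2 : S ⊆ (Finset.range (2 * M)).image (fun i : ℕ => (i : ℤ) - M) := by
        intro n hn
        have h3 := hM n hn
        rw [Finset.mem_image]
        refine ⟨(n + M).toNat, ?_, ?_⟩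
        · rw [Finset.mem_range]
          omega
        · omega
      have hu : Monotone (fun i : ℕ => b + ((i : ℤ) - M : ℤ) * h) := by
        intro i j hij
        have : ((i : ℤ) - M : ℤ) ≤ ((j : ℤ) - M : ℤ) := by omega
        have h4 : (((i : ℤ) - M : ℤ) : ℝ) ≤ (((j : ℤ) - M : ℤ) : ℝ) := by exact_mod_cast this
        simp only
        nlinarith only [hh, h4]
      calc _ ≤ ∑ n ∈ (Finset.range (2 * M)).image (fun i : ℕ => (i : ℤ) - M), ‖G (b + n * h) - G (b + n * h + h)‖ₑ :=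
            Finset.sum_le_sum_of_subset h2
        _ = ∑ i ∈ Finset.range (2 * M), edist (G (b + (((i + 1 : ℕ) : ℤ) - M : ℤ) * h)) (G (b + ((i : ℤ) - M : ℤ) * h)) := by
            rw [Finset.sum_image]
            · refine Finset.sum_congr rfl fun i _ => ?_
              rw [edist_comm, edist_eq_enorm_sub]
              congr 3
              push_cast
              ring
            · intro i _ j _ hij
              simpa using hij
        _ ≤ eVariationOn G univ := eVariationOn.sum_le hu (fun _ => mem_univ _)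
    calc _ ≤ ∫⁻ b in Ioc (0:ℝ) h, eVariationOn G univ := lintegral_mono fun b => key b
      _ = _ := by
        rw [setLIntegral_const, Real.volume_Ioc, sub_zero, mul_comm]
  · exact (hG.sub (hG.comp (measurable_add_const h))).enorm

theorem lintegral_translate_sub_le' {G : ℝ → ℂ} (hG : Measurable G) (h : ℝ) :
    ∫⁻ b, ‖G b - G (b + h)‖ₑ ≤ ENNReal.ofReal |h| * eVariationOn G univ := by
  rcases lt_trichotomy h 0 with hh | hh | hh
  · have h1 := lintegral_translate_sub_le hG (h := -h) (by linarith only [hh])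
    rw [abs_of_neg hh]
    refine le_trans (le_of_eq ?_) h1
    rw [← lintegral_add_right_eq_self (fun b => ‖G b - G (b + h)‖ₑ) (-h)]
    refine lintegral_congr fun b => ?_
    rw [neg_add_cancel_right, enorm_sub_rev]
  · subst hh
    simp only [add_zero, sub_self, enorm_zero, lintegral_const, measure_univ_of_isAddLeftInvariant, zero_mul, abs_zero, ENNReal.ofReal_zero, Std.le_refl]
  · rw [abs_of_pos hh]
    exact lintegral_translate_sub_le hG hh

theorem sobolevSq_bv {s : ℝ} (hs0 : 0 < s) (hs1 : s < 1/2) : ∃ C : ℝ≥0, ∀ (N : ℝ≥0) (g : ℝ → ℂ), Measurable g →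
    eVariationOn g (Icc 0 1) ≤ N → (∀ b ∈ Icc (0:ℝ) 1, ‖g b‖ ≤ N) →
    sobolevSq s ((Icc (0:ℝ) 1).indicator g) ≤ C * (N : ℝ≥0∞) ^ 2 := by
  refine ⟨(1 + 16 * modJ s 1).toNNReal, ?_⟩
  intro N g hg hV hN
  have hfin : (1 + 16 * modJ s 1) ≠ ∞ := by
    have := modJ_fin hs0 hs1
    exact ENNReal.add_ne_top.mpr ⟨by simp, ENNReal.mul_ne_top (by simp) this⟩
  rw [ENNReal.coe_toNNReal hfin]
  have hNe : ∀ b ∈ Icc (0:ℝ) 1, ‖g b‖ₑ ≤ N := by
    intro b hb
    have h1 := ENNReal.ofReal_le_ofReal (hN b hb)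
    rwa [ofReal_norm, ENNReal.ofReal_coe_nnreal] at h1
  -- extension by constants
  set φ : ℝ → ℝ := fun x => max 0 (min 1 x) with hφ
  have hφm : Monotone φ := by
    intro x y hxy
    simp only [hφ]
    (clear * - hxy; gcongr)
  have hφI : ∀ x, φ x ∈ Icc (0:ℝ) 1 := by
    intro x
    exact ⟨le_max_left _ _, max_le (by norm_num) (min_le_left _ _)⟩
  have hφid : ∀ x ∈ Icc (0:ℝ) 1, φ x = x := by
    intro x hx
    simp only [hφ]
    rw [min_eq_right hx.2, max_eq_right hx.1]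
  set G : ℝ → ℂ := g ∘ φ with hG
  have hGm : Measurable G := hg.comp (by fun_prop)
  have hGV : eVariationOn G univ ≤ N :=
    (eVariationOn.comp_le_of_monotoneOn g φ (hφm.monotoneOn _) (fun x _ => hφI x)).trans hV
  have hGN : ∀ b, ‖G b‖ₑ ≤ N := fun b => hNe _ (hφI b)
  set I : Set ℝ := Icc (0:ℝ) 1 with hI
  have hIg : I.indicator g = I.indicator G := by
    ext b
    by_cases hb : b ∈ I
    · rw [indicator_of_mem hb, indicator_of_mem hb, hG, Function.comp_apply, hφid b hb]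
    · rw [indicator_of_notMem hb, indicator_of_notMem hb]
  rw [hIg]
  have hmeas : Measurable (I.indicator G) := hGm.indicator measurableSet_Icc
  -- pointwise bound
  have hpt : ∀ h b : ℝ, ‖I.indicator G b - I.indicator G (b + h)‖ₑ
      ≤ I.indicator (fun b => ‖G b - G (b + h)‖ₑ) b + N * ‖gInd 1 b - gInd 1 (b + h)‖ₑ := by
    intro h b
    have h1 : ∀ x, I.indicator G x = gInd 1 x * G x := by
      intro x
      unfold gInd
      by_cases hx : x ∈ Icc (0:ℝ) 1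
      · rw [indicator_of_mem hx, indicator_of_mem hx, one_mul]
      · rw [indicator_of_notMem hx, indicator_of_notMem hx, zero_mul]
    have h2 : I.indicator G b - I.indicator G (b + h)
        = gInd 1 b * (G b - G (b + h)) + (gInd 1 b - gInd 1 (b + h)) * G (b + h) := by
      rw [h1, h1]
      ring
    rw [h2]
    refine (enorm_add_le _ _).trans ?_
    rw [enorm_mul, enorm_mul]
    apply add_le_add
    · unfold gInd
      by_cases hx : b ∈ Icc (0:ℝ) 1
      · rw [indicator_of_mem hx, indicator_of_mem hx]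
        simp only [enorm_one, one_mul, Std.le_refl]
      · rw [indicator_of_notMem hx, indicator_of_notMem hx]
        simp
    · rw [mul_comm]
      exact mul_le_mul' (hGN _) le_rfl
  have hsq : ∀ x y : ℝ≥0∞, (x + y) ^ 2 ≤ 2 * x ^ 2 + 2 * y ^ 2 := by
    intro x y
    have h1 := ENNReal.rpow_add_le_mul_rpow_add_rpow x y (p := 2) (by norm_num)
    rw [show (2:ℝ) - 1 = 1 by norm_num, ENNReal.rpow_one] at h1
    simp only [ENNReal.rpow_ofNat] at h1
    rw [mul_add] at h1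
    exact h1
  have hmod : ∀ h, ∫⁻ b, ‖I.indicator G b - I.indicator G (b + h)‖ₑ ^ 2
      ≤ (16 * (N : ℝ≥0∞) ^ 2) * ENNReal.ofReal (min |h| 1) := by
    intro h
    have hGdm : Measurable (fun b => ‖G b - G (b + h)‖ₑ) := (hGm.sub (hGm.comp (measurable_add_const h))).enorm
    have hbound : ∀ b, ‖G b - G (b + h)‖ₑ ≤ 2 * N := by
      intro b
      calc _ ≤ ‖G b‖ₑ + ‖G (b + h)‖ₑ := enorm_sub_le
        _ ≤ N + N := add_le_add (hGN _) (hGN _)
        _ = 2 * N := by ring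
    have h1 : ∫⁻ b, (I.indicator (fun b => ‖G b - G (b + h)‖ₑ) b) ^ 2 ≤ 4 * (N : ℝ≥0∞) ^ 2 * ENNReal.ofReal (min |h| 1) := by
      rcases le_total |h| 1 with hle | hle
      · rw [min_eq_left hle]
        calc _ ≤ ∫⁻ b, (2 * N) * ‖G b - G (b + h)‖ₑ := by
              refine lintegral_mono fun b => ?_
              by_cases hb : b ∈ I
              · simp only [indicator_of_mem hb]
                rw [sq]
                gcongr
                exact hbound b
              · simp only [indicator_of_notMem hb]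
                simp only [ne_eq, OfNat.ofNat_ne_zero, not_false_eq_true, zero_pow, zero_le]
          _ = (2 * N) * ∫⁻ b, ‖G b - G (b + h)‖ₑ := by rw [lintegral_const_mul _ hGdm]
          _ ≤ (2 * N) * (ENNReal.ofReal |h| * N) := by
              gcongr
              exact (lintegral_translate_sub_le' hGm h).trans (by (clear * - hGV; gcongr))
          _ = 2 * (N : ℝ≥0∞) ^ 2 * ENNReal.ofReal |h| := by ring
          _ ≤ 4 * (N : ℝ≥0∞) ^ 2 * ENNReal.ofReal |h| := by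
              gcongr
              norm_num
      · rw [min_eq_right hle]
        calc _ ≤ ∫⁻ b, I.indicator (fun _ => (2 * (N : ℝ≥0∞)) ^ 2) b := by
              refine lintegral_mono fun b => ?_
              by_cases hb : b ∈ I
              · simp only [indicator_of_mem hb]
                gcongr
                exact hbound b
              · simp only [indicator_of_notMem hb]
                simp
          _ = (2 * (N : ℝ≥0∞)) ^ 2 := by
              rw [lintegral_indicator measurableSet_Icc, setLIntegral_const, Real.volume_Icc]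
              simp
          _ = _ := by
              rw [ENNReal.ofReal_one]
              ring
    have h2 := gInd_modulus (δ := 1) one_pos h
    calc _ ≤ ∫⁻ b, (2 * (I.indicator (fun b => ‖G b - G (b + h)‖ₑ) b) ^ 2 + 2 * (N * ‖gInd 1 b - gInd 1 (b + h)‖ₑ) ^ 2) := by
          refine lintegral_mono fun b => ?_
          exact (pow_le_pow_left' (hpt h b) 2).trans (hsq _ _)
      _ = 2 * (∫⁻ b, (I.indicator (fun b => ‖G b - G (b + h)‖ₑ) b) ^ 2) + 2 * (N : ℝ≥0∞) ^ 2 * ∫⁻ b, ‖gInd 1 b - gInd 1 (b + h)‖ₑ ^ 2 := by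
          have m1 : Measurable (fun b => (I.indicator (fun b => ‖G b - G (b + h)‖ₑ) b) ^ 2) :=
            (hGdm.indicator measurableSet_Icc).pow_const 2
          have m2 : Measurable (fun b => ‖gInd 1 b - gInd 1 (b + h)‖ₑ ^ 2) :=
            (((gInd_meas 1).sub ((gInd_meas 1).comp (measurable_add_const h))).enorm.pow_const 2)
          rw [lintegral_add_left (m1.const_mul 2), lintegral_const_mul _ m1, ← lintegral_const_mul _ m2]
          congr 1
          refine lintegral_congr fun b => ?_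
          ring
      _ ≤ 2 * (4 * (N : ℝ≥0∞) ^ 2 * ENNReal.ofReal (min |h| 1)) + 2 * (N : ℝ≥0∞) ^ 2 * (4 * ENNReal.ofReal (min |h| 1)) := by
          (clear * - h1 h2; gcongr)
      _ = _ := by ring
  have hgag := gag_le_of_modulus (s := s) hmeas one_pos hmod
  unfold sobolevSq
  have h0 : ∫⁻ b, ‖I.indicator G b‖ₑ ^ 2 ≤ (N : ℝ≥0∞) ^ 2 := by
    calc _ ≤ ∫⁻ b, I.indicator (fun _ => (N : ℝ≥0∞) ^ 2) b := by
          refine lintegral_mono fun b => ?_
          by_cases hb : b ∈ I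
          · simp only [indicator_of_mem hb]
            gcongr
            exact hGN b
          · simp only [indicator_of_notMem hb]
            simp
      _ = (N : ℝ≥0∞) ^ 2 := by
          rw [lintegral_indicator measurableSet_Icc, setLIntegral_const, Real.volume_Icc]
          simp
  calc _ ≤ (N : ℝ≥0∞) ^ 2 + 16 * (N : ℝ≥0∞) ^ 2 * (ENNReal.ofReal (1 ^ (1 - 2 * s)) * modJ s 1) := add_le_add h0 hgag
    _ = _ := by
      rw [Real.one_rpow, ENNReal.ofReal_one]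
      ring

end Vale.Agent.P122
end
end
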